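import Mathlib

/-!
# Row 256 (LS paper), CHAN, unit ADH, file 8: ABSORPTION LEMMAS          (helper204 for architect helper218; prefix `ch_ab_`)      Mathlib only

* `ch_ab_log`     `Cm (1 + c1 log(1/s))^(K+1) ≤ s^(-a)` for small `s`
* `ch_ab_gauss`   `Λ = s^(-ε)/2^(K+1) - 1 ≥ 1` and `Cm exp(-Λ²/40)² ≤ s^N` for small `s`, uniformly in `ε ≥ 1/(C+1)`
-/

set_option autoImplicit false

namespace Claimed.Agent.R256

/-- `x^n ≤ n! e^x / ...`: the form used below -/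
theorem ch_ab_pow_le_exp (n : ℕ) (y : ℝ) (hy : 0 ≤ y) : y ^ n ≤ (n.factorial : ℝ) * Real.exp y := by
  have h := Real.pow_div_factorial_le_exp y hy n
  have hf : (0 : ℝ) < n.factorial := by exact_mod_cast n.factorial_pos
  rw [div_le_iff₀ hf] at h
  linarith

/-- **(L1)** logarithmic factors are absorbed by any negative power of `s` -/
theorem ch_ab_log (c1 Cm a : ℝ) (ha : 0 < a) (K : ℕ) :
    ∃ s0 : ℝ, 0 < s0 ∧ ∀ s : ℝ, 0 < s → s < s0 → Cm * (1 + c1 * Real.log (1 / s)) ^ (K + 1) ≤ s ^ (-a) := by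
  set B : ℝ := |Cm| * (1 + |c1|) ^ (K + 1) * ((K + 2).factorial : ℝ) / a ^ (K + 2) with hB
  have hB0 : 0 ≤ B := by positivity
  refine ⟨Real.exp (-(max 1 B)), Real.exp_pos _, fun s hs hlt => ?_⟩
  set x : ℝ := Real.log (1 / s) with hx
  have hxs : x = -Real.log s := by rw [hx, one_div, Real.log_inv]
  have hlog : Real.log s < -(max 1 B) := by
    have := Real.log_lt_log hs hlt
    rwa [Real.log_exp] at this
  have hx1 : 1 ≤ x := by
    have := le_max_left 1 B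
    linarith
  have hxB : B ≤ x := by
    have := le_max_right 1 B
    linarith
  have hx0 : 0 < x := by linarith
  have hsa : s ^ (-a) = Real.exp (a * x) := by
    rw [Real.rpow_def_of_pos hs, hxs]
    congr 1
    ring
  rw [hsa]
  -- the left side
  have h1 : |1 + c1 * x| ≤ (1 + |c1|) * x := by
    calc |1 + c1 * x| ≤ |(1 : ℝ)| + |c1 * x| := abs_add_le _ _
      _ = 1 + |c1| * x := by rw [abs_one, abs_mul, abs_of_pos hx0]
      _ ≤ x + |c1| * x := by linarith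
      _ = (1 + |c1|) * x := by ring
  have h2 : Cm * (1 + c1 * x) ^ (K + 1) ≤ |Cm| * ((1 + |c1|) * x) ^ (K + 1) := by
    calc Cm * (1 + c1 * x) ^ (K + 1) ≤ |Cm * (1 + c1 * x) ^ (K + 1)| := le_abs_self _
      _ = |Cm| * |1 + c1 * x| ^ (K + 1) := by rw [abs_mul, abs_pow]
      _ ≤ |Cm| * ((1 + |c1|) * x) ^ (K + 1) := by
          gcongr
  refine h2.trans ?_
  have hax : 0 ≤ a * x := by positivity
  have h3 := ch_ab_pow_le_exp (K + 2) (a * x) hax
  have hf : (0 : ℝ) < (K + 2).factorial := by exact_mod_cast (K + 2).factorial_pos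
  have hapow : 0 < a ^ (K + 2) := by positivity
  -- `B ≤ x`
  have h4 : |Cm| * (1 + |c1|) ^ (K + 1) * ((K + 2).factorial : ℝ) ≤ x * a ^ (K + 2) := by
    rw [hB, div_le_iff₀ hapow] at hxB
    exact hxB
  have h5 : |Cm| * ((1 + |c1|) * x) ^ (K + 1) * ((K + 2).factorial : ℝ) ≤ (a * x) ^ (K + 2) := by
    calc |Cm| * ((1 + |c1|) * x) ^ (K + 1) * ((K + 2).factorial : ℝ)
        = (|Cm| * (1 + |c1|) ^ (K + 1) * ((K + 2).factorial : ℝ)) * x ^ (K + 1) := by rw [mul_pow]; ring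
      _ ≤ (x * a ^ (K + 2)) * x ^ (K + 1) := by gcongr
      _ = (a * x) ^ (K + 2) := by rw [mul_pow]; ring
  have h6 : |Cm| * ((1 + |c1|) * x) ^ (K + 1) * ((K + 2).factorial : ℝ) ≤ Real.exp (a * x) * ((K + 2).factorial : ℝ) := by
    calc _ ≤ (a * x) ^ (K + 2) := h5
      _ ≤ ((K + 2).factorial : ℝ) * Real.exp (a * x) := h3
      _ = Real.exp (a * x) * ((K + 2).factorial : ℝ) := by ring
  exact le_of_mul_le_mul_right h6 hf

/-- **(L2)** the Gaussian error at the truncation `s^(-ε)` is negligible, uniformly in `ε ≥ 1/(C+1)` -/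
theorem ch_ab_gauss (K C : ℕ) (N Cm : ℝ) :
    ∃ s0 : ℝ, 0 < s0 ∧ s0 < 1 ∧ ∀ s : ℝ, 0 < s → s < s0 → ∀ eps : ℝ, 1 / ((C : ℝ) + 1) ≤ eps →
      1 ≤ s ^ (-eps) / 2 ^ (K + 1) - 1 ∧
      Cm * (Real.exp (-((s ^ (-eps) / 2 ^ (K + 1) - 1) ^ 2 / 40))) ^ 2 ≤ s ^ N := by
  set e0 : ℝ := 1 / ((C : ℝ) + 1) with he0
  have he0p : 0 < e0 := by positivity
  set P : ℝ := 2 ^ (K + 2) with hP
  have hPp : 0 < P := by positivity
  set c : ℝ := e0 ^ 2 / (20 * P ^ 2) with hc
  have hcp : 0 < c := by positivity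
  set X0 : ℝ := max 1 (max (P / e0) ((|Cm| + |N|) / c)) with hX0
  have hX01 : 1 ≤ X0 := le_max_left _ _
  refine ⟨Real.exp (-X0), Real.exp_pos _, ?_, fun s hs hlt eps heps => ?_⟩
  · rw [Real.exp_lt_one_iff]; linarith
  set x : ℝ := -Real.log s with hx
  have hlog : Real.log s < -X0 := by
    have := Real.log_lt_log hs hlt
    rwa [Real.log_exp] at this
  have hxX : X0 ≤ x := by linarith
  have hx1 : 1 ≤ x := hX01.trans hxX
  have hx0 : 0 < x := by linarith
  have hxP : P / e0 ≤ x := ((le_max_left _ _).trans (le_max_right _ _)).trans hxX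
  have hxc : (|Cm| + |N|) / c ≤ x := ((le_max_right _ _).trans (le_max_right _ _)).trans hxX
  -- `y = s^(-eps) ≥ exp (e0 x)`
  have hy : s ^ (-eps) = Real.exp (eps * x) := by
    rw [Real.rpow_def_of_pos hs, hx]
    congr 1
    ring
  set y : ℝ := s ^ (-eps) with hyd
  have hy1 : Real.exp (e0 * x) ≤ y := by
    rw [hy]
    exact Real.exp_le_exp.2 (by gcongr)
  have he0x : 0 ≤ e0 * x := by positivity
  -- `exp (e0 x) ≥ e0 x ≥ P`
  have hyP : P ≤ y := by
    have h1 : e0 * x + 1 ≤ Real.exp (e0 * x) := Real.add_one_le_exp _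
    have h2 : P ≤ e0 * x := by
      rw [div_le_iff₀ he0p] at hxP
      linarith
    linarith
  have hP2 : P = 2 * 2 ^ (K + 1) := by rw [hP]; ring
  have hQ : (0 : ℝ) < 2 ^ (K + 1) := by positivity
  set Λ : ℝ := y / 2 ^ (K + 1) - 1 with hΛ
  have hΛ2 : y / P ≤ Λ := by
    -- `y / Q - 1 ≥ y / (2 Q)` as `y ≥ 2 Q`
    have h1 : y / P = y / 2 ^ (K + 1) / 2 := by rw [hP2]; field_simp
    have h2 : 2 ≤ y / 2 ^ (K + 1) := by
      rw [le_div_iff₀ hQ]
      linarith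
    rw [h1, hΛ]
    linarith
  have hΛ1 : 1 ≤ Λ := by
    have h2 : 2 ≤ y / 2 ^ (K + 1) := by
      rw [le_div_iff₀ hQ]
      linarith
    rw [hΛ]
    linarith
  refine ⟨hΛ1, ?_⟩
  have hΛ3 : e0 * x / P ≤ Λ := by
    refine le_trans ?_ hΛ2
    have h1 : e0 * x + 1 ≤ Real.exp (e0 * x) := Real.add_one_le_exp _
    gcongr
    linarith
  have hΛsq : (e0 * x / P) ^ 2 ≤ Λ ^ 2 := by
    have : 0 ≤ e0 * x / P := by positivity
    gcongr
  have hkey : |Cm| + |N| * x ≤ Λ ^ 2 / 20 := by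
    have h1 : (|Cm| + |N|) ≤ c * x := by
      rw [div_le_iff₀ hcp] at hxc
      linarith
    have h2 : |Cm| + |N| * x ≤ (|Cm| + |N|) * x := by
      have : |Cm| ≤ |Cm| * x := by
        have := abs_nonneg Cm
        nlinarith
      nlinarith
    have h3 : (|Cm| + |N|) * x ≤ c * x * x := by gcongr
    have h4 : c * x * x = (e0 * x / P) ^ 2 / 20 := by
      rw [hc]; field_simp
    have h5 : (e0 * x / P) ^ 2 / 20 ≤ Λ ^ 2 / 20 := by gcongr
    linarith
  have hsN : s ^ N = Real.exp (-(N * x)) := by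
    rw [Real.rpow_def_of_pos hs, hx]
    congr 1
    ring
  have hsq : (Real.exp (-(Λ ^ 2 / 40))) ^ 2 = Real.exp (-(Λ ^ 2 / 20)) := by
    rw [← Real.exp_nat_mul]
    congr 1
    push_cast
    ring
  rw [hsq, hsN]
  have hCm : Cm ≤ Real.exp |Cm| := by
    have h1 : |Cm| + 1 ≤ Real.exp |Cm| := Real.add_one_le_exp _
    have h2 := le_abs_self Cm
    linarith
  calc Cm * Real.exp (-(Λ ^ 2 / 20)) ≤ Real.exp |Cm| * Real.exp (-(Λ ^ 2 / 20)) := by
        gcongr
    _ = Real.exp (|Cm| - Λ ^ 2 / 20) := by rw [← Real.exp_add]; congr 1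
    _ ≤ Real.exp (-(N * x)) := by
        apply Real.exp_le_exp.2
        have h1 : -(N * x) ≥ -(|N| * x) := by
          have := le_abs_self N
          nlinarith
        linarith

end Claimed.Agent.R256
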