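import Claimed.Agent.R256.Chan.AdhChain

/-!
# Row 256 (LS paper), CHAN, unit ADH, file 3: THE MEMORY BOUND BETWEEN TWO GATES OF A DOCUMENTED EXPERIMENT          (architect helper218; prefix `ch_ad_`)

* `W.own i m dat`   the datum `dat l0 x` of the label `l0` of the gate `i`, interval `m`, which owns the row `x`  (`0/1` weights, `Σ ≤ 1`)
* `ch_ad_asm`       `ch_ag_seg` on every start interval `m` + `(CHν)` by `ch_ac_chnu` + Cauchy-Schwarz over `m`.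
                    `Qs l0`, `Q l` = start and end tests (documented, or linearised);  (NEAR) = connected atoms have comparable tests.
-/

set_option autoImplicit false

namespace Claimed.Agent.R256

open MeasureTheory

/-- the datum of the label of the gate `i`, interval `m`, which owns the row -/
noncomputable def SfMD.own {P : PkSys} (W : SfMD P) (i : ℝ) (m : ℕ) (dat : W.Lb i → P.X → ℝ) (x : P.X) : ℝ :=
  ∑ l0, (if W.iv i l0 = m then W.th i l0 x else 0) * dat l0 x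

theorem ch_ad_eqns_cite : True := by
  have := @SfMD.own.eq_1
  trivial

theorem ch_ad_own_meas {P : PkSys} (W : SfMD P) (tq : P.Tst → CyT) (h : W.Str tq) {i : ℝ} (hi : i ∈ W.G) (m : ℕ) (dat : W.Lb i → P.X → ℝ)
    (hd : ∀ l0, Measurable (dat l0)) : Measurable (W.own i m dat) := by
  unfold SfMD.own
  refine Finset.measurable_sum _ (fun l0 _ => ?_)
  by_cases hm : W.iv i l0 = m
  · simp only [if_pos hm]
    exact (h.meas i hi l0).mul (hd l0)
  · simp only [if_neg hm, zero_mul]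
    exact measurable_const

theorem ch_ad_own {P : PkSys} (W : SfMD P) (tq : P.Tst → CyT) (h : W.Str tq) {i : ℝ} (hi : i ∈ W.G) (hi1 : i < 1) (m : ℕ) (dat : W.Lb i → P.X → ℝ)
    (l0 : W.Lb i) (x : P.X) (hm : W.iv i l0 = m) (hx : W.th i l0 x ≠ 0) : W.own i m dat x = dat l0 x := by
  classical
  have h1 : W.th i l0 x = 1 := (h.zero_one i hi hi1 l0 x).resolve_left hx
  set f : W.Lb i → ℝ := fun l => if W.iv i l = m then W.th i l x else 0 with hf
  have hf0 : ∀ l, 0 ≤ f l := by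
    intro l
    simp only [hf]
    split_ifs
    · exact h.nn i hi l x
    · exact le_refl 0
  have hfl0 : f l0 = 1 := by simp only [hf, if_pos hm, h1]
  have hsum : ∑ l, f l ≤ 1 := h.sum_le i hi m x
  have hz : ∀ l, l ≠ l0 → f l = 0 := by
    intro l hl
    have e := Finset.add_sum_erase Finset.univ f (Finset.mem_univ l0)
    have e2 : f l ≤ ∑ l' ∈ Finset.univ.erase l0, f l' :=
      Finset.single_le_sum (fun l' _ => hf0 l') (Finset.mem_erase.2 ⟨hl, Finset.mem_univ l⟩)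
    have := hf0 l
    linarith
  unfold SfMD.own
  rw [Finset.sum_eq_single l0]
  · have : (if W.iv i l0 = m then W.th i l0 x else 0) = 1 := hfl0
    rw [this, one_mul]
  · intro l _ hl
    have : (if W.iv i l = m then W.th i l x else 0) = 0 := hz l hl
    rw [this, zero_mul]
  · intro hne
    exact absurd (Finset.mem_univ l0) hne

/-- the ancestors of the labels of a gate are intervals of the earlier gate -/
theorem ch_ad_anc_mem {P : PkSys} (W : SfMD P) (tq : P.Tst → CyT) (h : W.Str tq) {i j : ℝ} (hi : i ∈ W.G) (hj : j ∈ W.G) (hij : i < j) (l : W.Lb j) :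
    ancI (W.k j) (W.k i) (W.iv j l) ∈ W.ivs i := by
  have h1 : W.iv j l ∈ ivs W.E.k0 W.E.i0 (W.k j) := h.iv_in j hj l
  rw [gn_mem_ivs] at h1
  show ancI (W.k j) (W.k i) (W.iv j l) ∈ ivs W.E.k0 W.E.i0 (W.k i)
  rw [gn_mem_ivs, gn_anc_anc (h.k_rg i hi).1 (h.k_mono i hi j hj hij).1]
  exact h1

theorem ch_ad_sum_fib {P : PkSys} (W : SfMD P) (tq : P.Tst → CyT) (h : W.Str tq) {i j : ℝ} (hi : i ∈ W.G) (hj : j ∈ W.G) (hij : i < j) (F : W.Lb j → ℝ) :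
    ∑ m ∈ W.ivs i, ∑ l ∈ W.lbs i j m, F l = ∑ l, F l := by
  classical
  have := Finset.sum_fiberwise_of_maps_to (s := (Finset.univ : Finset (W.Lb j))) (t := W.ivs i) (g := fun l => ancI (W.k j) (W.k i) (W.iv j l))
    (fun l _ => ch_ad_anc_mem W tq h hi hj hij l) F
  rw [← this]
  refine Finset.sum_congr rfl (fun m _ => Finset.sum_congr ?_ (fun _ _ => rfl))
  ext l
  simp [ch_ag_mem_lbs]

/-- Cauchy-Schwarz over the start intervals -/
theorem ch_ad_cs {ι : Type} (I : Finset ι) (Lm e : ι → ℝ) (a0 : ℝ) (ha0 : 0 ≤ a0) (hL : ∀ m, 0 ≤ Lm m) (he : ∀ m, 0 ≤ e m) :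
    ∑ m ∈ I, Real.sqrt (Lm m * a0 * e m) ≤ Real.sqrt ((∑ m ∈ I, Lm m) * a0 * ∑ m ∈ I, e m) := by
  have h1 : ∀ m, Real.sqrt (Lm m * a0 * e m) = Real.sqrt a0 * (Real.sqrt (Lm m) * Real.sqrt (e m)) := by
    intro m
    rw [show Lm m * a0 * e m = a0 * (Lm m * e m) by ring, Real.sqrt_mul ha0, Real.sqrt_mul (hL m)]
  simp only [h1]
  rw [← Finset.mul_sum]
  have h2 := Real.sum_sqrt_mul_sqrt_le I (fun m => hL m) (fun m => he m)
  have h3 : Real.sqrt ((∑ m ∈ I, Lm m) * a0 * ∑ m ∈ I, e m) = Real.sqrt a0 * (Real.sqrt (∑ m ∈ I, Lm m) * Real.sqrt (∑ m ∈ I, e m)) := by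
    rw [show (∑ m ∈ I, Lm m) * a0 * ∑ m ∈ I, e m = a0 * ((∑ m ∈ I, Lm m) * ∑ m ∈ I, e m) by ring, Real.sqrt_mul ha0,
      Real.sqrt_mul (Finset.sum_nonneg fun m _ => hL m)]
  rw [h3]
  exact mul_le_mul_of_nonneg_left h2 (Real.sqrt_nonneg _)

/-- **the memory bound between two gates of a documented hybrid experiment** -/
theorem ch_ad_asm (η : ℝ) (hη0 : 0 < η) (hη1 : η < 1) (K : ℕ) :
    ∃ C : ℝ, 0 < C ∧ ∀ (p : ChyPar), p.Ok → ∀ (W : SfMD (p.sys η)), W.Str (fun Q => Q) → W.E.st.length ≤ K →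
      ∀ (Row : ℝ → Type) (lb : ∀ g, Row g → W.Lb g) (atm : ∀ g, Row g → Set (p.Om × ℝ × ℝ)),
      (∀ g ∈ W.G, ∀ l x, W.th g l x ≠ 0 ↔ ∃ ρ, lb g ρ = l ∧ x ∈ atm g ρ) →
      ∀ i ∈ W.G, ∀ j ∈ W.G, i < j → ∀ (Etot ka : ℝ), 0 < Etot → 0 < ka → ∑ m ∈ W.ivs i, ‖W.pre i m‖ ^ 2 ≤ Etot →
      (∀ m ∈ W.ivs i, (p.sys η).Reg (tmL (W.k i) m) (W.k i) (W.gb i) ka (W.pre i m)) →
      ∀ (r1 f1 A Lm Qx Rn Λ Λs : ℝ), 0 < r1 → p.dl (W.k j) ≤ f1 → 1 ≤ A → 1 ≤ Lm → 1 + Qx ≤ 2 * Lm → 0 ≤ Rn → 1 ≤ Λ → 2 ^ (K + 1) * (Λ + 1) ≤ Λs →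
      ∀ (Qs : W.Lb i → CyT) (Q : W.Lb j → CyT) (lst : W.Lb j → Finset ℝ),
      (∀ l x, W.th j l x ≠ 0 → cyIn (Q l) ((2 : ℝ)⁻¹ ^ W.k j) (p.co (W.T j l) x)) → (∀ l, (Q l).r = r1 ∧ (Q l).f = f1) → (∀ l, ((lst l).card : ℝ) ≤ Rn) →
      (∀ (ρ : Row i) (ρ' : Row j) (x : p.Om × ℝ × ℝ), x ∈ atm i ρ → Relation.TransGen (chLk η p W Row lb atm Λs) ⟨i, ρ⟩ ⟨j, ρ'⟩ →
        chNear A Lm Qx ((2 : ℝ)⁻¹ ^ (W.k j - W.k i)) ((2 : ℝ)⁻¹ ^ W.k i) r1 f1 (W.T j (lb j ρ') - W.T i (lb i ρ))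
          (Qs (lb i ρ)).be (Qs (lb i ρ)).K
          ((Qs (lb i ρ)).al + 2 * (Qs (lb i ρ)).be * p.X x.1 - 2 * (Qs (lb i ρ)).K * (p.B x.1 + W.T i (lb i ρ) * p.X x.1))
          (p.X x.1) (p.B x.1 + W.T j (lb j ρ') * p.X x.1) (Q (lb j ρ'))) →
      ∑ l, (p.sys η).en (W.T j l) (W.k j) (W.gb j)
          (fun x => W.th j l x * ({x : p.Om × ℝ × ℝ | ∃ c ∈ lst l, |p.X x.1 - c| ≤ r1 * ((2 : ℝ)⁻¹ ^ (W.k j - W.k i)) ^ Lm}).indicator (fun _ => (1 : ℝ)) x)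
          (W.pre j (W.iv j l))
        ≤ C * A ^ 5 * (1 + Real.log (A * f1 / p.dl (W.k j))) ^ (K + 1)
            * Real.sqrt ((Fintype.card (W.Lb j) : ℝ) * Rn * ((2 : ℝ)⁻¹ ^ (W.k j - W.k i)) ^ (2 - 3 * Lm)
                * (ka * (r1 ^ (3 + η) * f1 ^ (1 - η)) * ((2 : ℝ)⁻¹ ^ (W.k j - W.k i)) ^ ((3 + η) * Lm - η)) * (2 * Etot))
          + C * A ^ 5 * ((Fintype.card (W.Lb j) : ℝ) * Rn * ((2 : ℝ)⁻¹ ^ (W.k j - W.k i)) ^ (2 - 3 * Lm))
            * ((((K : ℝ) + 1) * (52 * Real.exp (-(Λ ^ 2 / 40)) * 2 ^ (((W.k j : ℝ) - W.k i) / 4))) ^ 2 * Etot) := by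
  obtain ⟨C, hC, H⟩ := ch_ag_seg η hη0 hη1 K
  refine ⟨C, hC, ?_⟩
  intro p hp W hW hlenK Row lb atm hcov i hi j hj hij Etot ka hE hka hen hreg r1 f1 A Lm Qx Rn Λ Λs hr1 hf1 hA hLm hML hRn hΛ hΛs Qs Q lst hin hwid hcard hnear
  classical
  have hi1 : i < 1 := lt_of_lt_of_le hij (hW.gate.2 j hj).2
  obtain ⟨hk, hpos⟩ := hW.k_mono i hi j hj hij
  obtain ⟨σ0, e1, e2, e3, e4⟩ := hW.stage i hi hi1
  have hposj := ch_ac_pos_le W _ hW hj
  -- the stack of the segment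
  obtain ⟨rest, hst⟩ : ∃ rest, (W.E.st.take (W.pos j)).drop (W.pos i) = σ0 :: rest := by
    have h1 : (W.E.st.take (W.pos j))[W.pos i]? = some σ0 := by rw [List.getElem?_take_of_lt hpos]; exact e1
    obtain ⟨hlt, h2⟩ := List.getElem?_eq_some_iff.1 h1
    exact ⟨_, by rw [List.drop_eq_getElem_cons hlt, h2]⟩
  have hrl : rest.length ≤ K := by
    have h1 : ((W.E.st.take (W.pos j)).drop (W.pos i)).length = rest.length + 1 := by rw [hst]; rfl
    rw [List.length_drop, List.length_take] at h1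
    omega
  set δ : ℝ := (2 : ℝ)⁻¹ ^ (W.k j - W.k i) with hδ
  have hδ0 : 0 < δ := by positivity
  set κ : ℝ := 52 * Real.exp (-(Λ ^ 2 / 40)) * 2 ^ (((W.k j : ℝ) - W.k i) / 4) with hκ
  have hκ0 : 0 ≤ κ := by positivity
  set ν : ℝ := (((K : ℝ) + 1) * κ) ^ 2 * Etot with hν
  have hν0 : 0 ≤ ν := by positivity
  have hcard0 : 0 < ((W.ivs i).card : ℝ) := by
    have : (W.ivs i).card = 2 ^ (W.k i - W.E.k0) := gn_ivs_card W.E.k0 W.E.i0 (W.k i)
    rw [this]; positivity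
  set θ : ℝ := Etot / (W.ivs i).card with hθ
  have hθ0 : 0 < θ := by positivity
  have hdl0 : 0 < p.dl (W.k j) := by
    have := hp.H_pos
    unfold ChyPar.dl; positivity
  have hf10 : 0 < f1 := lt_of_lt_of_le hdl0 hf1
  have hΛs' : 2 ^ (W.pos j + 1) * (Λ + 1) ≤ Λs := by
    refine le_trans (mul_le_mul_of_nonneg_right ?_ (by linarith)) hΛs
    exact pow_le_pow_right₀ (by norm_num) (by omega)
  set F : W.Lb j → ℝ := fun l => (p.sys η).en (W.T j l) (W.k j) (W.gb j)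
          (fun x => W.th j l x * ({x : p.Om × ℝ × ℝ | ∃ c ∈ lst l, |p.X x.1 - c| ≤ r1 * δ ^ Lm}).indicator (fun _ => (1 : ℝ)) x)
          (W.pre j (W.iv j l)) with hF
  set c0 : ℝ := C * A ^ 5 * (1 + Real.log (A * f1 / p.dl (W.k j))) ^ (K + 1) with hc0
  have hlog : 0 ≤ Real.log (A * f1 / p.dl (W.k j)) := by
    refine Real.log_nonneg ?_
    rw [le_div_iff₀ hdl0]
    nlinarith
  have hc00 : 0 ≤ c0 := by positivity
  set a0 : ℝ := Rn * δ ^ (2 - 3 * Lm) * (ka * (r1 ^ (3 + η) * f1 ^ (1 - η)) * δ ^ ((3 + η) * Lm - η)) with ha0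
  have ha00 : 0 ≤ a0 := by positivity
  -- one segment
  have hseg : ∀ m ∈ W.ivs i, ∑ l ∈ W.lbs i j m, F l
      ≤ c0 * Real.sqrt (((W.lbs i j m).card : ℝ) * a0 * (‖W.pre i m‖ ^ 2 + θ)) + C * A ^ 5 * (((W.lbs i j m).card : ℝ) * Rn * δ ^ (2 - 3 * Lm)) * ν := by
    intro m hm
    have hmX : Measurable fun x : p.Om × ℝ × ℝ => p.X x.1 := hp.mX.comp measurable_fst
    have hmB : Measurable fun x : p.Om × ℝ × ℝ => p.B x.1 := hp.mB.comp measurable_fst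
    have h1 := H p hp W hW i hi j hj hij m (‖W.pre i m‖ ^ 2 + θ) ka σ0 rest hst e2 hrl (by positivity) hka (by linarith) (hreg m hm)
      r1 f1 A Lm Qx Rn ν hr1 hf1 hA hLm hML hν0
      (W.own i m (fun l0 _ => (Qs l0).be)) (W.own i m (fun l0 _ => (Qs l0).K))
      (W.own i m (fun l0 x => (Qs l0).al + 2 * (Qs l0).be * p.X x.1 - 2 * (Qs l0).K * (p.B x.1 + tmL (W.k i) m * p.X x.1)))
      (ch_ad_own_meas W _ hW hi m _ (fun _ => measurable_const)) (ch_ad_own_meas W _ hW hi m _ (fun _ => measurable_const))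
      (ch_ad_own_meas W _ hW hi m _ (fun l0 => ((hmX.const_mul _).const_add _).sub ((hmB.add (hmX.const_mul _)).const_mul _)))
      Q lst hin hwid hcard
      (by
        intro l hl S' hS' hno
        have h2 := ch_ac_chnu η p hp W hW Row lb atm (fun g hg l x hx => (hcov g hg l x).1 hx) Λ Λs hΛ hi hj hij m σ0 rest hst e2 (e4 m) hΛs' l hl S' hS'
          (by
            intro x hx ρ hxρ hivρ ρ' hρ' htg
            apply hno x hx
            have hth : W.th i (lb i ρ) x ≠ 0 := (hcov i hi (lb i ρ) x).2 ⟨ρ, rfl, hxρ⟩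
            have hn := hnear ρ ρ' x hxρ htg
            have hTi : W.T i (lb i ρ) = tmL (W.k i) m := by unfold SfMD.T; rw [hivρ]
            rw [hρ', hTi] at hn
            rw [ch_ad_own W _ hW hi hi1 m _ (lb i ρ) x hivρ hth, ch_ad_own W _ hW hi hi1 m _ (lb i ρ) x hivρ hth,
              ch_ad_own W _ hW hi hi1 m _ (lb i ρ) x hivρ hth]
            exact hn)
        rw [e3] 
        refine h2.trans ?_
        have hpm : ‖W.pre i m‖ ^ 2 ≤ Etot :=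
          (Finset.single_le_sum (f := fun m => ‖W.pre i m‖ ^ 2) (fun m _ => by positivity) hm).trans hen
        have hrl' : (rest.length : ℝ) + 1 ≤ (K : ℝ) + 1 := by
          have : (rest.length : ℝ) ≤ K := by exact_mod_cast hrl
          linarith
        have : (((rest.length : ℝ) + 1) * κ) ^ 2 ≤ (((K : ℝ) + 1) * κ) ^ 2 :=
          pow_le_pow_left₀ (by positivity) (mul_le_mul_of_nonneg_right hrl' hκ0) 2
        exact mul_le_mul this hpm (by positivity) (by positivity))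
    have e5 : ((W.lbs i j m).card : ℝ) * Rn * δ ^ (2 - 3 * Lm) * (ka * (r1 ^ (3 + η) * f1 ^ (1 - η)) * δ ^ ((3 + η) * Lm - η)) * (‖W.pre i m‖ ^ 2 + θ)
        = ((W.lbs i j m).card : ℝ) * a0 * (‖W.pre i m‖ ^ 2 + θ) := by rw [ha0]; ring
    rw [e5] at h1
    exact h1
  -- the sum
  have hLsum : ∑ m ∈ W.ivs i, ((W.lbs i j m).card : ℝ) = (Fintype.card (W.Lb j) : ℝ) := by
    have := ch_ad_sum_fib W _ hW hi hj hij (fun _ => (1 : ℝ))
    simp only [Finset.sum_const, nsmul_eq_mul, mul_one] at this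
    rw [this]
    simp
  have hEsum : ∑ m ∈ W.ivs i, (‖W.pre i m‖ ^ 2 + θ) ≤ 2 * Etot := by
    rw [Finset.sum_add_distrib, Finset.sum_const, nsmul_eq_mul, hθ, mul_div_cancel₀ _ hcard0.ne']
    linarith
  rw [← ch_ad_sum_fib W _ hW hi hj hij F]
  refine (Finset.sum_le_sum hseg).trans ?_
  rw [Finset.sum_add_distrib, ← Finset.mul_sum]
  refine add_le_add ?_ (le_of_eq ?_)
  · refine mul_le_mul_of_nonneg_left ?_ hc00
    refine (ch_ad_cs (W.ivs i) (fun m => ((W.lbs i j m).card : ℝ)) (fun m => ‖W.pre i m‖ ^ 2 + θ) a0 ha00 (fun m => Nat.cast_nonneg _)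
      (fun m => by positivity)).trans ?_
    rw [hLsum]
    refine Real.sqrt_le_sqrt ?_
    have e6 : (Fintype.card (W.Lb j) : ℝ) * Rn * δ ^ (2 - 3 * Lm) * (ka * (r1 ^ (3 + η) * f1 ^ (1 - η)) * δ ^ ((3 + η) * Lm - η)) * (2 * Etot)
        = (Fintype.card (W.Lb j) : ℝ) * a0 * (2 * Etot) := by rw [ha0]; ring
    rw [e6]
    exact mul_le_mul_of_nonneg_left hEsum (by positivity)
  · rw [← hLsum, Finset.sum_mul, Finset.sum_mul, Finset.mul_sum, Finset.sum_mul]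

end Claimed.Agent.R256
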