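import Claimed.Agent.R256.Chan.AdhSeg
import Claimed.Agent.R256.Hyb.Stack

/-!
# Row 256 (LS paper), CHAN, unit ADH, file 2: A CHAIN OF ROWS THROUGH THE STACK IS A CHAIN OF ATOMS          (architect helper218; prefix `ch_ac_`)

`hyRch` (Hyb/Stack.lean) = a chain of rows through the supports of ALL stages between the gates `i` and `j`, links `hyCn Λ1`.   At a stage which is a gate the row lies in an atom (`hcov`);
the links between two consecutive gates compose (`hy_sk_comp`) to ONE correspondence with the constant `≤ 2^(pos j + 1) Λ1`.   Result: the relation which defines `Conn` in `SfSh.conn`.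
-/

set_option autoImplicit false

namespace Claimed.Agent.R256

open MeasureTheory

/-- dyadic intervals are nested -/
theorem ch_ac_nest {k k' : ℕ} (h : k ≤ k') (i : ℕ) : tmL k' i + (2 : ℝ)⁻¹ ^ k' ≤ tmL k (ancI k' k i) + (2 : ℝ)⁻¹ ^ k := by
  obtain ⟨d, rfl⟩ := Nat.exists_eq_add_of_le h
  unfold tmL ancI
  have hd : k + d - k = d := by omega
  rw [hd]
  have hp : (0 : ℝ) < 2 ^ k := by positivity
  have hpd : (0 : ℝ) < 2 ^ d := by positivity
  have h2 : (i : ℝ) + 1 ≤ (((i / 2 ^ d : ℕ) : ℝ) + 1) * 2 ^ d := by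
    have : i < (i / 2 ^ d + 1) * 2 ^ d := by
      rw [mul_comm]; exact Nat.lt_mul_div_succ i (by positivity)
    exact_mod_cast this
  rw [inv_pow, inv_pow, ← one_div, ← one_div, ← add_div, ← add_div, div_le_div_iff₀ (by positivity) hp, pow_add]
  nlinarith

/-- the geometric correspondence of `Soft/Model.lean` in the hybrid model -/
theorem ch_ac_cn (η : ℝ) (p : ChyPar) (Λ T : ℝ) (k : ℕ) (T' : ℝ) (k' : ℕ) (x x' : p.Om × ℝ × ℝ) (h1 : T ≤ T') (h2 : T' + (2 : ℝ)⁻¹ ^ k' ≤ T + (2 : ℝ)⁻¹ ^ k)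
    (h : hyCn p Λ T k T' k' x x') : sfCn (sfHy η) p Λ T k T' k' x x' := by
  refine ⟨h1, h2, h.1, h.2.1, ?_⟩
  have := h.2.2
  rw [hy_lc_ql p k] at this
  exact this

theorem ch_ac_pos_le {P : PkSys} (W : SfMD P) (tq : P.Tst → CyT) (h : W.Str tq) {j : ℝ} (hj : j ∈ W.G) : W.pos j ≤ W.E.st.length := by
  rcases lt_or_eq_of_le (h.gate.2 j hj).2 with h1 | h1
  · rw [← h.k_one.2.1]
    exact (h.k_mono j hj 1 h.gate.1 h1).2.le
  · rw [h1, h.k_one.2.1]

/-- positions order the gates -/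
theorem ch_ac_pos_lt {P : PkSys} (W : SfMD P) (tq : P.Tst → CyT) (h : W.Str tq) {g g' : ℝ} (hg : g ∈ W.G) (hg' : g' ∈ W.G) (hp : W.pos g < W.pos g') : g < g' := by
  rcases lt_trichotomy g g' with h1 | h1 | h1
  · exact h1
  · rw [h1] at hp; exact absurd hp (lt_irrefl _)
  · exact absurd hp (not_lt.2 (h.k_mono g' hg' g hg h1).2.le)

section

variable (η : ℝ) (p : ChyPar) (hp : p.Ok) (W : SfMD (p.sys η)) (hW : W.Str (fun Q => Q))
  (Row : ℝ → Type) (lb : ∀ g, Row g → W.Lb g) (atm : ∀ g, Row g → Set (p.Om × ℝ × ℝ))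
  (hcov : ∀ g ∈ W.G, ∀ l x, W.th g l x ≠ 0 → ∃ ρ, lb g ρ = l ∧ x ∈ atm g ρ)

/-- the relation between atoms of consecutive gates which generates `Conn` -/
def chLk (Λs : ℝ) (u v : Σ g, Row g) : Prop :=
  sfNext W.G u.1 v.1 ∧ ∃ x ∈ atm u.1 u.2, ∃ x' ∈ atm v.1 v.2,
    sfCn (sfHy η) p Λs (W.T u.1 (lb u.1 u.2)) (W.k u.1) (W.T v.1 (lb v.1 v.2)) (W.k v.1) x x'

include hp hW hcov in
theorem ch_ac_chain (Λ1 Λs : ℝ) (hΛ1 : 0 ≤ Λ1) {j : ℝ} (hj : j ∈ W.G) (iF : ℕ) (x' : p.Om × ℝ × ℝ) (ρ' : Row j) (hx' : x' ∈ atm j ρ')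
    (hiF : W.iv j (lb j ρ') = iF) (hΛs : 2 ^ (W.pos j + 1) * Λ1 ≤ Λs) :
    ∀ (l : List (Stg (p.sys η))) (a : ℕ) (g : ℝ) (ρ : Row g) (xg y : p.Om × ℝ × ℝ) (ky : ℕ) (c : ℝ),
      (W.E.st.take (W.pos j)).drop a = l → g ∈ W.G → W.pos g < a → a ≤ W.pos j → (∀ g' ∈ W.G, ¬ (W.pos g < W.pos g' ∧ W.pos g' < a)) →
      xg ∈ atm g ρ → W.iv g (lb g ρ) = ancI (W.k j) (W.k g) iF → W.k g ≤ ky → ky ≤ W.k j → (∀ σ ∈ l, ky ≤ σ.k) →
      0 ≤ c → c ≤ (2 ^ a - 1) * Λ1 →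
      hyCn p c (tmL (W.k g) (ancI (W.k j) (W.k g) iF)) (W.k g) (tmL ky (ancI (W.k j) ky iF)) ky xg y →
      hyRch (P := p.sys η) (fun T k T' k' x x' => hyCn p Λ1 T k T' k' x x') (W.k j) iF l (tmL ky (ancI (W.k j) ky iF)) ky y x' →
      Relation.TransGen (chLk η p W Row lb atm Λs) ⟨g, ρ⟩ ⟨j, ρ'⟩ := by
  intro l
  induction l with
  | nil =>
    intro a g ρ xg y ky c hl hg hga haj hnog hxg hivg hk1 hk2 _ hc0 hc hcn hr
    have hlen : (W.E.st.take (W.pos j)).length = W.pos j := by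
      rw [List.length_take]; exact min_eq_left (ch_ac_pos_le W _ hW hj)
    have haj' : a = W.pos j := by
      have := List.drop_eq_nil_iff.1 hl
      omega
    have hgj : g < j := ch_ac_pos_lt W _ hW hg hj (by omega)
    have hr' : hyCn p Λ1 (tmL ky (ancI (W.k j) ky iF)) ky (tmL (W.k j) iF) (W.k j) y x' := hr
    have hcomp := hy_sk_comp p hp c Λ1 _ _ _ _ _ _ hc0 hΛ1 (hy_tl_cut (W.k g) ky (W.k j) iF hk1 hk2) (gn_cutle_anc hk2 iF) xg y x' hcn hr'
    have hle : 2 * c + Λ1 ≤ Λs := by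
      have : (2 : ℝ) ^ (W.pos j + 1) = 2 * 2 ^ a := by rw [haj', pow_succ]; ring
      rw [this] at hΛs
      nlinarith
    refine Relation.TransGen.single ⟨⟨hg, hj, hgj, ?_⟩, xg, hxg, x', hx', ?_⟩
    · intro g' hg' hh
      exact hnog g' hg' ⟨(hW.k_mono g hg g' hg' hh.1).2, by rw [haj']; exact (hW.k_mono g' hg' j hj hh.2).2⟩
    · have hkk := hk1.trans hk2
      show sfCn (sfHy η) p Λs (tmL (W.k g) (W.iv g (lb g ρ))) (W.k g) (tmL (W.k j) (W.iv j (lb j ρ'))) (W.k j) xg x'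
      rw [hivg, hiF]
      exact ch_ac_cn η p Λs _ _ _ _ xg x' (gn_cutle_anc hkk iF).2.1 (ch_ac_nest hkk iF) (hy_sk_mono p hle _ _ _ _ _ _ hcomp)
  | cons σ l' ih =>
    intro a g ρ xg y ky c hl hg hga haj hnog hxg hivg hk1 hk2 hdep hc0 hc hcn hr
    obtain ⟨y', hyy', hMy', hr'⟩ := hr
    have hlen : (W.E.st.take (W.pos j)).length = W.pos j := by
      rw [List.length_take]; exact min_eq_left (ch_ac_pos_le W _ hW hj)
    have haj' : a < W.pos j := by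
      by_contra hcon
      have : (W.E.st.take (W.pos j)).drop a = [] := List.drop_eq_nil_iff.2 (by omega)
      rw [this] at hl
      exact absurd hl (by simp)
    have hσa : W.E.st[a]? = some σ := by
      have h1 : ((W.E.st.take (W.pos j)).drop a)[0]? = some σ := by rw [hl]; rfl
      rw [List.getElem?_drop, add_zero, List.getElem?_take_of_lt haj'] at h1
      exact h1
    have hl' : (W.E.st.take (W.pos j)).drop (a + 1) = l' := by
      rw [← List.tail_drop, hl]; rfl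
    have hσmem : σ ∈ W.E.st.take (W.pos j) := by
      have : σ ∈ (W.E.st.take (W.pos j)).drop a := by rw [hl]; exact List.mem_cons_self
      exact List.mem_of_mem_drop this
    have hσk1 : ky ≤ σ.k := hdep σ List.mem_cons_self
    have hσk2 : σ.k ≤ W.k j := ch_ag_dep_le W _ hW hj hσmem
    have hpw : (σ :: l').Pairwise fun σ σ' => σ.k ≤ σ'.k := by
      rw [← hl]
      exact hW.valid.st_mono.sublist ((List.drop_sublist _ _).trans (List.take_sublist _ _))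
    rw [List.pairwise_cons] at hpw
    have hcomp := hy_sk_comp p hp c Λ1 _ _ _ _ _ _ hc0 hΛ1 (hy_tl_cut (W.k g) ky (W.k j) iF hk1 hk2) (hy_tl_cut ky σ.k (W.k j) iF hσk1 hσk2) xg y y' hcn hyy'
    have hc' : 2 * c + Λ1 ≤ (2 ^ (a + 1) - 1) * Λ1 := by
      rw [pow_succ]; nlinarith
    by_cases hgate : ∃ g' ∈ W.G, W.pos g' = a
    · obtain ⟨g', hg', hpos⟩ := hgate
      have hg'j : g' < j := ch_ac_pos_lt W _ hW hg' hj (by omega)
      have hgg' : g < g' := ch_ac_pos_lt W _ hW hg hg' (by omega)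
      have hg'1 : g' < 1 := lt_of_lt_of_le hg'j (hW.gate.2 j hj).2
      obtain ⟨σ', e1, e2, -, e4⟩ := hW.stage g' hg' hg'1
      rw [hpos, hσa] at e1
      obtain rfl : σ = σ' := Option.some.inj e1
      -- the row lies in an atom of the gate
      have hsum : ∑ l0, (if W.iv g' l0 = ancI (W.k j) σ.k iF then W.th g' l0 y' else 0) ≠ 0 := by
        rw [← e4]; exact hMy'
      obtain ⟨l0, -, hl0⟩ := Finset.exists_ne_zero_of_sum_ne_zero hsum
      have hl0iv : W.iv g' l0 = ancI (W.k j) σ.k iF := by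
        by_contra hne
        exact hl0 (if_neg hne)
      rw [if_pos hl0iv] at hl0
      obtain ⟨ρg, hρg, hy'ρ⟩ := hcov g' hg' l0 y' hl0
      have hle : 2 * c + Λ1 ≤ Λs := by
        have h1 : (2 : ℝ) ^ (a + 1) ≤ 2 ^ (W.pos j + 1) := pow_le_pow_right₀ (by norm_num) (by omega)
        have h2 : (2 : ℝ) ^ (a + 1) * Λ1 ≤ 2 ^ (W.pos j + 1) * Λ1 := mul_le_mul_of_nonneg_right h1 hΛ1
        nlinarith
      have hlink : chLk η p W Row lb atm Λs ⟨g, ρ⟩ ⟨g', ρg⟩ := by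
        refine ⟨⟨hg, hg', hgg', ?_⟩, xg, hxg, y', hy'ρ, ?_⟩
        · intro g'' hg'' hh
          exact hnog g'' hg'' ⟨(hW.k_mono g hg g'' hg'' hh.1).2, by rw [← hpos]; exact (hW.k_mono g'' hg'' g' hg' hh.2).2⟩
        · show sfCn (sfHy η) p Λs (tmL (W.k g) (W.iv g (lb g ρ))) (W.k g) (tmL (W.k g') (W.iv g' (lb g' ρg))) (W.k g') xg y'
          rw [hivg, hρg, hl0iv, ← e2]
          have hkk : W.k g ≤ σ.k := hk1.trans hσk1
          have hcut := hy_tl_cut (W.k g) σ.k (W.k j) iF hkk hσk2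
          have hnest := ch_ac_nest hkk (ancI (W.k j) σ.k iF)
          rw [gn_anc_anc hkk hσk2] at hnest
          exact ch_ac_cn η p Λs _ _ _ _ xg y' hcut.2.1 hnest (hy_sk_mono p hle _ _ _ _ _ _ hcomp)
      refine Relation.TransGen.head hlink ?_
      have h0 : hyCn p 0 (tmL (W.k g') (ancI (W.k j) (W.k g') iF)) (W.k g') (tmL σ.k (ancI (W.k j) σ.k iF)) σ.k y' y' := by
        rw [e2]
        refine ⟨rfl, ?_, ?_⟩ <;> simp
      refine ih (a + 1) g' ρg y' y' σ.k 0 hl' hg' (by omega) (by omega) ?_ hy'ρ (by rw [hρg, hl0iv, e2]) e2.ge hσk2 hpw.1 (le_refl 0) ?_ h0 hr'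
      · intro g'' _ hh
        omega
      · have : (1 : ℝ) ≤ 2 ^ (a + 1) := one_le_pow₀ (by norm_num)
        exact mul_nonneg (by linarith) hΛ1
    · refine ih (a + 1) g ρ xg y' σ.k (2 * c + Λ1) hl' hg (by omega) (by omega) ?_ hxg hivg (hk1.trans hσk1) hσk2 hpw.1 (by positivity) hc' hcomp hr'
      intro g'' hg'' hh
      rcases Nat.lt_succ_iff_lt_or_eq.1 hh.2 with h1 | h1
      · exact hnog g'' hg'' ⟨hh.1, h1⟩
      · exact hgate ⟨g'', hg'', h1⟩

end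

theorem ch_ac_th_mask {P : PkSys} (W : SfMD P) (tq : P.Tst → CyT) (h : W.Str tq) {j : ℝ} (hj : j ∈ W.G) (l : W.Lb j) : IsMask (W.th j l) := by
  refine ⟨h.meas j hj l, fun x => ⟨h.nn j hj l x, ?_⟩⟩
  have h1 := h.sum_le j hj (W.iv j l) x
  have h2 : (if W.iv j l = W.iv j l then W.th j l x else 0) ≤ ∑ l', (if W.iv j l' = W.iv j l then W.th j l' x else 0) :=
    Finset.single_le_sum (f := fun l' => if W.iv j l' = W.iv j l then W.th j l' x else 0)
      (fun l' _ => by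
        show 0 ≤ if W.iv j l' = W.iv j l then W.th j l' x else 0
        split_ifs
        · exact h.nn j hj l' x
        · exact le_refl 0) (Finset.mem_univ l)
  rw [if_pos rfl] at h2
  exact h2.trans h1

section

variable (η : ℝ) (p : ChyPar) (hp : p.Ok) (W : SfMD (p.sys η)) (hW : W.Str (fun Q => Q))
  (Row : ℝ → Type) (lb : ∀ g, Row g → W.Lb g) (atm : ∀ g, Row g → Set (p.Om × ℝ × ℝ))
  (hcov : ∀ g ∈ W.G, ∀ l x, W.th g l x ≠ 0 → ∃ ρ, lb g ρ = l ∧ x ∈ atm g ρ)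

include hp hW hcov in
/-- **(CHν)**: the part of the start gate whose atoms are not connected with the label `l` contributes a negligible mass to `l` -/
theorem ch_ac_chnu (Λ Λs : ℝ) (hΛ : 1 ≤ Λ) {i j : ℝ} (hi : i ∈ W.G) (hj : j ∈ W.G) (hij : i < j) (m : ℕ)
    (σ0 : Stg (p.sys η)) (rest : List (Stg (p.sys η))) (hst : (W.E.st.take (W.pos j)).drop (W.pos i) = σ0 :: rest) (hσ0 : σ0.k = W.k i)
    (hσM : ∀ x, σ0.M m x = ∑ l0, if W.iv i l0 = m then W.th i l0 x else 0)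
    (hΛs : 2 ^ (W.pos j + 1) * (Λ + 1) ≤ Λs) (l : W.Lb j) (hl : l ∈ W.lbs i j m) (S' : Set (p.Om × ℝ × ℝ)) (hS' : MeasurableSet S')
    (hnc : ∀ x ∈ S', ∀ ρ, x ∈ atm i ρ → W.iv i (lb i ρ) = m → ∀ ρ', lb j ρ' = l → ¬ Relation.TransGen (chLk η p W Row lb atm Λs) ⟨i, ρ⟩ ⟨j, ρ'⟩) :
    (p.sys η).en (W.T j l) (W.k j) (W.gb j) (W.th j l)
        (Xp.run (W.k j) (W.iv j l) rest ((p.sys η).tz (tmL (W.k i) m) (W.k i) σ0.b (fun x => σ0.M m x * S'.indicator (fun _ => (1 : ℝ)) x) (W.pre i m)))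
      ≤ (((rest.length : ℝ) + 1) * (52 * Real.exp (-(Λ ^ 2 / 40)) * 2 ^ (((W.k j : ℝ) - W.k i) / 4))) ^ 2 * ‖W.pre i m‖ ^ 2 := by
  have hT := hy_tight η p hp
  have hanc : ancI (W.k j) (W.k i) (W.iv j l) = m := (ch_ag_mem_lbs W i j m l).1 hl
  obtain ⟨hk, hpos⟩ := hW.k_mono i hi j hj hij
  have hsub : ((W.E.st.take (W.pos j)).drop (W.pos i)).Sublist W.E.st := (List.drop_sublist _ _).trans (List.take_sublist _ _)
  have hpw : (σ0 :: rest).Pairwise fun σ σ' => σ.k ≤ σ'.k := by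
    rw [← hst]; exact hW.valid.st_mono.sublist hsub
  rw [List.pairwise_cons] at hpw
  have hmemE : ∀ σ ∈ σ0 :: rest, σ ∈ W.E.st := fun σ hσ => hsub.subset (by rw [hst]; exact hσ)
  have hstm : StM rest := fun σ hσ i' =>
    ⟨hW.valid.st_meas σ (hmemE σ (List.mem_cons_of_mem _ hσ)) i', hW.valid.st_bd σ (hmemE σ (List.mem_cons_of_mem _ hσ)) i'⟩
  have hM0 : IsMask (σ0.M m) := ⟨hW.valid.st_meas σ0 (hmemE σ0 List.mem_cons_self) m, hW.valid.st_bd σ0 (hmemE σ0 List.mem_cons_self) m⟩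
  have hM : IsMask (fun x => σ0.M m x * S'.indicator (fun _ => (1 : ℝ)) x) := gn_mask_mul hM0 (gn_mask_ind hS')
  have hdep : ∀ σ ∈ rest, W.k i ≤ σ.k ∧ σ.k ≤ W.k j := by
    intro σ hσ
    refine ⟨by rw [← hσ0]; exact hpw.1 σ hσ, ch_ag_dep_le W _ hW hj ?_⟩
    have : σ ∈ (W.E.st.take (W.pos j)).drop (W.pos i) := by rw [hst]; exact List.mem_cons_of_mem _ hσ
    exact List.mem_of_mem_drop this
  have hrest : (W.E.st.take (W.pos j)).drop (W.pos i + 1) = rest := by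
    rw [← List.tail_drop, hst]; rfl
  have key := hy_sk_tz (P := p.sys η) hT (fun T k T' k' x x' => hyCn p (Λ + 1) T k T' k' x x') (52 * Real.exp (-(Λ ^ 2 / 40)) * 2 ^ (((W.k j : ℝ) - W.k i) / 4))
    (by positivity) (W.k i) (W.k j) (hy_sk_sep η p hp Λ hΛ (W.k i) (W.k j)) (W.k j) (W.iv j l) (W.gb j) (le_refl _) (ch_ac_th_mask W _ hW hj l)
    rest (W.k i) σ0.b hM (W.pre i m) hstm hdep hk (le_refl _) hpw.2
  rw [hanc] at key
  refine key ?_
  intro x hx x' hx' hr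
  have hxS : x ∈ S' := by
    by_contra hne
    exact hx (mul_eq_zero_of_right _ (Set.indicator_of_notMem hne _))
  have hxM : σ0.M m x ≠ 0 := by
    intro h0
    exact hx (mul_eq_zero_of_left h0 _)
  rw [hσM] at hxM
  obtain ⟨l0, -, hl0⟩ := Finset.exists_ne_zero_of_sum_ne_zero hxM
  have hl0iv : W.iv i l0 = m := by
    by_contra hne
    exact hl0 (if_neg hne)
  rw [if_pos hl0iv] at hl0
  obtain ⟨ρ, hρ, hxρ⟩ := hcov i hi l0 x hl0
  obtain ⟨ρ', hρ', hx'ρ⟩ := hcov j hj l x' hx'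
  refine hnc x hxS ρ hxρ (by rw [hρ]; exact hl0iv) ρ' hρ' ?_
  have h0 : hyCn p 0 (tmL (W.k i) (ancI (W.k j) (W.k i) (W.iv j l))) (W.k i) (tmL (W.k i) (ancI (W.k j) (W.k i) (W.iv j l))) (W.k i) x x := by
    refine ⟨rfl, ?_, ?_⟩ <;> simp
  refine ch_ac_chain η p hp W hW Row lb atm hcov (Λ + 1) Λs (by linarith) hj (W.iv j l) x' ρ' hx'ρ (by rw [hρ']) hΛs rest (W.pos i + 1) i ρ x x (W.k i) 0
    hrest hi (by omega) (by omega) (fun g' _ hh => by omega) hxρ (by rw [hρ, hl0iv, hanc]) (le_refl _) hk (fun σ hσ => (hdep σ hσ).1) (le_refl 0) ?_ h0 ?_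
  · have : (1 : ℝ) ≤ 2 ^ (W.pos i + 1) := one_le_pow₀ (by norm_num)
    exact mul_nonneg (by linarith) (by linarith)
  · rw [hanc]; exact hr

end

theorem ch_ac_eqns_cite : True := by
  have := @chLk.eq_1
  trivial

end Claimed.Agent.R256
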