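import Claimed.Agent.R256.Chan.AdhNum
import Claimed.Agent.R256.Soft.Voc
import Claimed.Agent.R256.Nm.X

/-!
# Row 256 (LS paper), CHAN, unit ADH, file 7: THE COMPARISON (A)/(F) IN THE UNITS OF A GAP, AT THE LEVEL OF `SfDoc`          (architect helper218; prefix `ch_ah_`)

`ChTwoD D π' C0 a i j` = the facts of `Core` and `AffP` used at the two gates `i < j`.
`ch_ah_near_q` (positive curvature cost), `ch_ah_near_l` (pure linear cost): connected rows have comparable tests, in the form asked by `ch_ae_trans`:  `A = 2 s^(-(5 + 2 Qx + 2 Lm) a)`.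
-/

set_option autoImplicit false

namespace Claimed.Agent.R256

open Claimed.Agent.R255

/-- `Q_x` of `chNear` -/
noncomputable def chQx (π : SfPar) : ℝ := if π.c2 = 0 then 1 else max 1 π.q

/-- the constant `A` of `chNear` -/
noncomputable def chA (π : SfPar) (s a : ℝ) : ℝ := 2 * s ^ (-((5 + 2 * chQx π + 2 * π.Lraw) * a))

/-- the facts of `Core`, `AffP` at two gates -/
structure ChTwoD (D : SfDoc) (π : SfPar) (C0 a i j : ℝ) : Prop where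
  ij : i < j
  i0 : 0 ≤ i
  j1 : j ≤ 1
  bddi : ∀ ρ, (D.lab i ρ).size ≤ D.s ^ (-C0)
  bddj : ∀ ρ, (D.lab j ρ).size ≤ D.s ^ (-C0)
  tmi : ∀ ρ, 0 ≤ D.T i ρ ∧ D.T i ρ ≤ 1
  tmj : ∀ ρ, 0 ≤ D.T j ρ ∧ D.T j ρ ≤ 1
  base : ∀ ρ ρ', D.Conn i j ρ ρ' → D.T i ρ ≤ D.T j ρ' ∧ D.T j ρ' ≤ D.T i ρ + D.len i ∧ (D.ray i ρ).bdist (D.ray j ρ') ≤ D.s ^ (1 / a)
  hek : D.ek ≤ D.s ^ (-C0)
  hr : D.s ^ (π.u j + a) ≤ D.r j ∧ D.r j ≤ D.s ^ (π.u j - a)
  hf : D.s ^ (π.n j + a) ≤ D.f j ∧ D.f j ≤ D.s ^ (π.n j - a)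
  cmpA : ∀ ρ ρ', D.Conn i j ρ ρ' →
    |(D.lab i ρ).beAt (D.T j ρ') - (D.lab j ρ').be| ≤ D.s ^ (min (π.b2 i) (π.b2 j) - a) ∧
    |(D.lab i ρ).K - (D.lab j ρ').K| ≤ D.s ^ (min (π.b2 i - i) (π.b2 j - j) - a) ∧
    |(D.lab i ρ).Pd (D.ray i ρ) - (D.lab j ρ').Pd (D.ray j ρ')| ≤ D.s ^ (min (π.b1 i) (π.b1 j) - a)
  cmpB : ∀ ρ, |(D.lab j ρ).be| + D.len j * |(D.lab j ρ).K| ≤ D.s ^ (min (-π.c2) (min (π.b2 j) 0) - a)
  linP : π.c2 = 0 → ∀ ρ ρ', D.Conn i j ρ ρ' → |(D.lab i ρ).Pc - (D.lab j ρ').Pc| ≤ D.s ^ (π.b1 i - a)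

theorem ch_ah_eqns_cite : True := by
  have := @chQx.eq_1
  have := @chA.eq_1
  trivial

theorem ch_ah_L1 (π : SfPar) : 1 ≤ π.Lraw := le_max_left _ _

theorem ch_ah_LC (π : SfPar) : 1 + (π.q - π.J) ≤ π.Lraw := (le_max_right _ _).trans (le_max_right _ _)

theorem ch_ah_Q1 (π : SfPar) : 1 ≤ chQx π := by
  unfold chQx
  split_ifs
  · exact le_refl 1
  · exact le_max_left _ _

theorem ch_ah_Qq (π : SfPar) (h : π.c2 ≠ 0) : π.q ≤ chQx π := by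
  unfold chQx
  rw [if_neg h]
  exact le_max_right _ _

theorem ch_ah_ML (π : SfPar) : 1 + chQx π ≤ 2 * π.Lraw := by
  have h1 := ch_ah_L1 π
  unfold chQx
  split_ifs with h
  · linarith
  · have h2 : (1 + π.Qm) / 2 ≤ π.Lraw := (le_max_left _ _).trans (le_max_right _ _)
    have h3 : π.Qm = π.q := by unfold SfPar.Qm; rw [if_neg h]
    rw [h3] at h2
    rcases le_total 1 π.q with h4 | h4
    · rw [max_eq_right h4]; linarith
    · rw [max_eq_left h4]; linarith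

theorem ch_ah_A1 (π : SfPar) {s a : ℝ} (h0 : 0 < s) (h1 : s ≤ 1) (ha : 0 ≤ a) : 1 ≤ chA π s a := by
  unfold chA
  have h2 := ch_ah_Q1 π
  have h3 := ch_ah_L1 π
  have : 1 ≤ s ^ (-((5 + 2 * chQx π + 2 * π.Lraw) * a)) := ch_an_one_le h0 h1 (by
    have : 0 ≤ (5 + 2 * chQx π + 2 * π.Lraw) * a := by positivity
    linarith)
  linarith

/-- numerics of the curvature comparison -/
theorem ch_ah_num2 (π : SfPar) {s a x δ f' r' : ℝ} (j : ℝ) (h0 : 0 < s) (h1 : s ≤ 1) (ha : 0 ≤ a) (hf : s ^ (π.n j + a) ≤ f') (hr0 : 0 < r') (hr : r' ≤ s ^ (π.u j - a))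
    (hδ0 : 0 < δ) (hδ : δ ≤ s ^ (x - 2 * a)) :
    2 * s ^ (π.b2 j - chQx π * x - 2 * a) ≤ chA π s a * (f' / r' ^ 2) * δ ^ (-chQx π) := by
  have hQ := ch_ah_Q1 π
  have hL := ch_ah_L1 π
  have e1 : s ^ (π.n j + a - 2 * (π.u j - a)) ≤ f' / r' ^ 2 := by
    rw [le_div_iff₀ (by positivity)]
    have : r' ^ 2 ≤ s ^ (2 * (π.u j - a)) := by
      have h2 := pow_le_pow_left₀ hr0.le hr 2
      rwa [← Real.rpow_natCast (s ^ (π.u j - a)) 2, ch_an_pow h0, mul_comm] at h2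
    calc s ^ (π.n j + a - 2 * (π.u j - a)) * r' ^ 2 ≤ s ^ (π.n j + a - 2 * (π.u j - a)) * s ^ (2 * (π.u j - a)) :=
          mul_le_mul_of_nonneg_left this (by positivity)
      _ = s ^ (π.n j + a) := by rw [ch_an_mul h0]; congr 1; ring
      _ ≤ f' := hf
  have e2 : s ^ ((x - 2 * a) * (-chQx π)) ≤ δ ^ (-chQx π) := ch_an_neg_lo h0 hδ0 hδ (by linarith)
  have hf0 : 0 < f' := lt_of_lt_of_le (by positivity) hf
  unfold chA
  calc 2 * s ^ (π.b2 j - chQx π * x - 2 * a)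
      ≤ 2 * s ^ (-((5 + 2 * chQx π + 2 * π.Lraw) * a) + (π.n j + a - 2 * (π.u j - a)) + (x - 2 * a) * (-chQx π)) := by
        refine mul_le_mul_of_nonneg_left (ch_an_le h0 h1 ?_) (by norm_num)
        unfold SfPar.b2 SfPar.n SfPar.u
        nlinarith [mul_nonneg ha (by linarith : (0 : ℝ) ≤ π.Lraw)]
    _ = 2 * s ^ (-((5 + 2 * chQx π + 2 * π.Lraw) * a)) * s ^ (π.n j + a - 2 * (π.u j - a)) * s ^ ((x - 2 * a) * (-chQx π)) := by
        rw [Real.rpow_add h0, Real.rpow_add h0]; ring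
    _ ≤ 2 * s ^ (-((5 + 2 * chQx π + 2 * π.Lraw) * a)) * (f' / r' ^ 2) * δ ^ (-chQx π) := by
        gcongr

/-- numerics of the comparison of the derivatives -/
theorem ch_ah_num1 (π : SfPar) {s a x δ f' r' : ℝ} (j : ℝ) (h0 : 0 < s) (h1 : s ≤ 1) (ha : 0 ≤ a) (hf : s ^ (π.n j + a) ≤ f') (hr0 : 0 < r') (hr : r' ≤ s ^ (π.u j - a))
    (hδ0 : 0 < δ) (hδ : δ ≤ s ^ (x - 2 * a)) :
    2 * s ^ (π.b1 j + (1 - π.Lraw) * x - a) ≤ chA π s a * (f' / r') * δ ^ (1 - π.Lraw) := by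
  have hQ := ch_ah_Q1 π
  have hL := ch_ah_L1 π
  have e1 : s ^ (π.n j + a - (π.u j - a)) ≤ f' / r' := by
    rw [le_div_iff₀ hr0]
    calc s ^ (π.n j + a - (π.u j - a)) * r' ≤ s ^ (π.n j + a - (π.u j - a)) * s ^ (π.u j - a) :=
          mul_le_mul_of_nonneg_left hr (by positivity)
      _ = s ^ (π.n j + a) := by rw [ch_an_mul h0]; congr 1; ring
      _ ≤ f' := hf
  have e2 : s ^ ((x - 2 * a) * (1 - π.Lraw)) ≤ δ ^ (1 - π.Lraw) := ch_an_neg_lo h0 hδ0 hδ (by linarith)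
  have hf0 : 0 < f' := lt_of_lt_of_le (by positivity) hf
  unfold chA
  calc 2 * s ^ (π.b1 j + (1 - π.Lraw) * x - a)
      ≤ 2 * s ^ (-((5 + 2 * chQx π + 2 * π.Lraw) * a) + (π.n j + a - (π.u j - a)) + (x - 2 * a) * (1 - π.Lraw)) := by
        refine mul_le_mul_of_nonneg_left (ch_an_le h0 h1 ?_) (by norm_num)
        unfold SfPar.b1 SfPar.n SfPar.u
        nlinarith [mul_nonneg ha (by linarith : (0 : ℝ) ≤ chQx π)]
    _ = 2 * s ^ (-((5 + 2 * chQx π + 2 * π.Lraw) * a)) * s ^ (π.n j + a - (π.u j - a)) * s ^ ((x - 2 * a) * (1 - π.Lraw)) := by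
        rw [Real.rpow_add h0, Real.rpow_add h0]; ring
    _ ≤ 2 * s ^ (-((5 + 2 * chQx π + 2 * π.Lraw) * a)) * (f' / r') * δ ^ (1 - π.Lraw) := by
        gcongr

theorem ch_ah_size_be (Q : SfTest) : |Q.be| ≤ Q.size := by
  unfold SfTest.size; simp

theorem ch_ah_size_K (Q : SfTest) : |Q.K| ≤ Q.size := by
  unfold SfTest.size; simp

theorem ch_ah_dist_X (z z' : SfRay) : |z.X - z'.X| ≤ z.dist z' := by
  unfold SfRay.dist; simp

theorem ch_ah_dist_B (z z' : SfRay) : |z.B - z'.B| ≤ z.dist z' := by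
  unfold SfRay.dist; simp

theorem ch_ah_bdist_X (z z' : SfRay) : |z.X - z'.X| ≤ z.bdist z' := by
  unfold SfRay.bdist; simp

theorem ch_ah_bdist_B (z z' : SfRay) : |z.B - z'.B| ≤ z.bdist z' := by
  unfold SfRay.bdist; simp

/-- the derivative of a shear on two close rays -/
theorem ch_ah_pd (Q : SfTest) (z z' : SfRay) (S e : ℝ) (hS : Q.size ≤ S) (hT0 : 0 ≤ Q.T) (hT : Q.T ≤ 1) (hX : |z.X - z'.X| ≤ e) (hB : |z.B - z'.B| ≤ e) :
    |Q.Pd z - Q.Pd z'| ≤ 6 * S * e := by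
  have e1 : Q.Pd z - Q.Pd z' = 2 * (Q.be * (z.X - z'.X)) - 2 * (Q.K * ((z.B - z'.B) + Q.T * (z.X - z'.X))) := by
    simp only [SfTest.Pd, SfRay.Bt]; ring
  have hbe := (ch_ah_size_be Q).trans hS
  have hK := (ch_ah_size_K Q).trans hS
  have he : 0 ≤ e := (abs_nonneg _).trans hX
  have hS0 : 0 ≤ S := (abs_nonneg _).trans hbe
  have t1 : |Q.be * (z.X - z'.X)| ≤ S * e := by
    rw [abs_mul]; exact mul_le_mul hbe hX (abs_nonneg _) hS0
  have t2 : |(z.B - z'.B) + Q.T * (z.X - z'.X)| ≤ 2 * e := by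
    refine (abs_add_le _ _).trans ?_
    rw [abs_mul, abs_of_nonneg hT0]
    have : Q.T * |z.X - z'.X| ≤ 1 * e := mul_le_mul hT hX (abs_nonneg _) (by norm_num)
    linarith
  have t3 : |Q.K * ((z.B - z'.B) + Q.T * (z.X - z'.X))| ≤ S * (2 * e) := by
    rw [abs_mul]; exact mul_le_mul hK t2 (abs_nonneg _) hS0
  have h2 : ∀ y : ℝ, |2 * y| = 2 * |y| := fun y => by rw [abs_mul]; norm_num
  rw [e1]
  refine (abs_sub _ _).trans ?_
  rw [h2, h2]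
  linarith

/-- **(A) in the units of the gap, positive curvature cost** -/
theorem ch_ah_near_q (D : SfDoc) (π : SfPar) (hc2 : π.c2 ≠ 0) (C0 a μ i j δ f1 : ℝ) (H : ChTwoD D π C0 a i j)
    (h0 : 0 < D.s) (h18 : D.s ≤ 1 / 18) (ha : 0 < a) (ha1 : C0 + |π.q - π.J| + 1 ≤ 1 / a) (hμ : 1 / a ≤ μ)
    (hδ0 : 0 < δ) (hδ : δ ≤ D.s ^ ((j - i) - 2 * a)) (hl : D.len i ≤ D.s ^ (i - a)) (hr0 : 0 < D.r j) (hf1 : D.f j ≤ f1)
    (ρ : D.Row i) (ρ' : D.Row j) (hc : D.Conn i j ρ ρ') (z : SfRay) (hz : z.dist (D.ray i ρ) ≤ D.s ^ μ) :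
    |(D.lab i ρ).be - (D.lab j ρ').beAt (D.lab i ρ).T| ≤ chA π D.s a * (f1 / D.r j ^ 2) * δ ^ (-chQx π) ∧
    D.len i * |(D.lab i ρ).K - (D.lab j ρ').K| ≤ chA π D.s a * (f1 / D.r j ^ 2) * δ ^ (-chQx π) ∧
    |(D.lab i ρ).Pd z - (D.lab j ρ').Pd z| ≤ chA π D.s a * (f1 / D.r j) * δ ^ (1 - π.Lraw) := by
  obtain ⟨cA1, cA2, cA3⟩ := H.cmpA ρ ρ' hc
  obtain ⟨b1, b2, b3⟩ := H.base ρ ρ' hc
  have hij := H.ij
  set s := D.s with hs
  have h1 : s ≤ 1 := by linarith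
  have hQ := ch_ah_Q1 π
  have hQq := ch_ah_Qq π hc2
  have hL := ch_ah_L1 π
  have hLC := ch_ah_LC π
  have hA0 : 0 < chA π s a := lt_of_lt_of_le one_pos (ch_ah_A1 π h0 h1 ha.le)
  have hx : 0 ≤ j - i := by linarith
  have hq1 : 0 ≤ (chQx π - π.q) * (j - i) := mul_nonneg (by linarith) hx
  have hq2 : 0 ≤ (chQx π - 1) * (j - i) := mul_nonneg (by linarith) hx
  have hq3 : 0 ≤ chQx π * (j - i) := mul_nonneg (by linarith) hx
  have hL1 : 0 ≤ (π.Lraw - 1) * (j - i) := mul_nonneg (by linarith) hx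
  have hL2 : 0 ≤ (π.Lraw - 1 - (π.q - π.J)) * (j - i) := mul_nonneg (by linarith) hx
  have N2 := ch_ah_num2 π (x := j - i) j h0 h1 ha.le H.hf.1 hr0 H.hr.2 hδ0 hδ
  have N1 := ch_ah_num1 π (x := j - i) j h0 h1 ha.le H.hf.1 hr0 H.hr.2 hδ0 hδ
  have M2 : chA π s a * (D.f j / D.r j ^ 2) * δ ^ (-chQx π) ≤ chA π s a * (f1 / D.r j ^ 2) * δ ^ (-chQx π) := by gcongr
  have M1 : chA π s a * (D.f j / D.r j) * δ ^ (1 - π.Lraw) ≤ chA π s a * (f1 / D.r j) * δ ^ (1 - π.Lraw) := by gcongr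
  -- the curvature `K`
  have hK : D.len i * |(D.lab i ρ).K - (D.lab j ρ').K| ≤ s ^ (π.b2 j - chQx π * (j - i) - 2 * a) := by
    calc D.len i * |(D.lab i ρ).K - (D.lab j ρ').K| ≤ s ^ (i - a) * s ^ (min (π.b2 i - i) (π.b2 j - j) - a) :=
          mul_le_mul hl cA2 (abs_nonneg _) (by positivity)
      _ = s ^ (i - a + (min (π.b2 i - i) (π.b2 j - j) - a)) := ch_an_mul h0 _ _
      _ ≤ _ := by
          refine ch_an_le h0 h1 ?_
          have : π.b2 j - chQx π * (j - i) - i ≤ min (π.b2 i - i) (π.b2 j - j) := by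
            refine le_min ?_ ?_
            · unfold SfPar.b2; linarith
            · linarith
          linarith
  have hbe : |(D.lab i ρ).be - (D.lab j ρ').beAt (D.lab i ρ).T| ≤ 2 * s ^ (π.b2 j - chQx π * (j - i) - 2 * a) := by
    have e : (D.lab i ρ).be - (D.lab j ρ').beAt (D.lab i ρ).T
        = ((D.lab i ρ).beAt (D.T j ρ') - (D.lab j ρ').be) - (D.T j ρ' - D.T i ρ) * ((D.lab i ρ).K - (D.lab j ρ').K) := by
      simp only [SfTest.beAt, SfDoc.T]; ring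
    rw [e]
    refine (abs_sub _ _).trans ?_
    rw [abs_mul, abs_of_nonneg (by linarith : 0 ≤ D.T j ρ' - D.T i ρ)]
    have t1 : (D.T j ρ' - D.T i ρ) * |(D.lab i ρ).K - (D.lab j ρ').K| ≤ D.len i * |(D.lab i ρ).K - (D.lab j ρ').K| :=
      mul_le_mul_of_nonneg_right (by linarith) (abs_nonneg _)
    have t2 : s ^ (min (π.b2 i) (π.b2 j) - a) ≤ s ^ (π.b2 j - chQx π * (j - i) - 2 * a) := by
      refine ch_an_le h0 h1 ?_
      have : π.b2 j - chQx π * (j - i) ≤ min (π.b2 i) (π.b2 j) := by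
        refine le_min ?_ ?_
        · unfold SfPar.b2; linarith
        · linarith
      linarith
    linarith
  have hs0' : 0 ≤ s ^ (π.b2 j - chQx π * (j - i) - 2 * a) := by positivity
  refine ⟨(hbe.trans N2).trans M2, ((hK.trans (by linarith)).trans N2).trans M2, ?_⟩
  -- the derivative
  have hsμ : s ^ μ ≤ s ^ (1 / a) := ch_an_le h0 h1 hμ
  have p1 := ch_ah_pd (D.lab i ρ) z (D.ray i ρ) (s ^ (-C0)) (s ^ (1 / a)) (H.bddi ρ) (H.tmi ρ).1 (H.tmi ρ).2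
    (((ch_ah_dist_X _ _).trans hz).trans hsμ) (((ch_ah_dist_B _ _).trans hz).trans hsμ)
  have hX2 : |z.X - (D.ray j ρ').X| ≤ 2 * s ^ (1 / a) := by
    have := abs_add_le (z.X - (D.ray i ρ).X) ((D.ray i ρ).X - (D.ray j ρ').X)
    rw [show z.X - (D.ray i ρ).X + ((D.ray i ρ).X - (D.ray j ρ').X) = z.X - (D.ray j ρ').X by ring] at this
    linarith [((ch_ah_dist_X _ _).trans hz).trans hsμ, (ch_ah_bdist_X _ _).trans b3]
  have hB2 : |z.B - (D.ray j ρ').B| ≤ 2 * s ^ (1 / a) := by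
    have := abs_add_le (z.B - (D.ray i ρ).B) ((D.ray i ρ).B - (D.ray j ρ').B)
    rw [show z.B - (D.ray i ρ).B + ((D.ray i ρ).B - (D.ray j ρ').B) = z.B - (D.ray j ρ').B by ring] at this
    linarith [((ch_ah_dist_B _ _).trans hz).trans hsμ, (ch_ah_bdist_B _ _).trans b3]
  have p2 := ch_ah_pd (D.lab j ρ') z (D.ray j ρ') (s ^ (-C0)) (2 * s ^ (1 / a)) (H.bddj ρ') (H.tmj ρ').1 (H.tmj ρ').2 hX2 hB2
  have e : (D.lab i ρ).Pd z - (D.lab j ρ').Pd z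
      = ((D.lab i ρ).Pd (D.ray i ρ) - (D.lab j ρ').Pd (D.ray j ρ')) + ((D.lab i ρ).Pd z - (D.lab i ρ).Pd (D.ray i ρ))
        - ((D.lab j ρ').Pd z - (D.lab j ρ').Pd (D.ray j ρ')) := by ring
  have t0 : |(D.lab i ρ).Pd z - (D.lab j ρ').Pd z| ≤ s ^ (min (π.b1 i) (π.b1 j) - a) + 18 * (s ^ (-C0) * s ^ (1 / a)) := by
    rw [e]
    refine (abs_sub _ _).trans ?_
    have := abs_add_le ((D.lab i ρ).Pd (D.ray i ρ) - (D.lab j ρ').Pd (D.ray j ρ')) ((D.lab i ρ).Pd z - (D.lab i ρ).Pd (D.ray i ρ))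
    linarith
  have t1 : s ^ (min (π.b1 i) (π.b1 j) - a) ≤ s ^ (π.b1 j + (1 - π.Lraw) * (j - i) - a) := by
    refine ch_an_le h0 h1 ?_
    have : π.b1 j + (1 - π.Lraw) * (j - i) ≤ min (π.b1 i) (π.b1 j) := by
      refine le_min ?_ ?_
      · unfold SfPar.b1; linarith
      · linarith
    linarith
  have t2 : 18 * (s ^ (-C0) * s ^ (1 / a)) ≤ s ^ (π.b1 j + (1 - π.Lraw) * (j - i) - a) := by
    have u1 : 18 * s ^ (1 : ℝ) ≤ 1 := by rw [Real.rpow_one]; linarith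
    have u2 : s ^ (-C0) * s ^ (1 / a) = s ^ (1 : ℝ) * s ^ (-C0 + 1 / a - 1) := by
      rw [ch_an_mul h0, ch_an_mul h0]; congr 1; ring
    have u3 : s ^ (-C0 + 1 / a - 1) ≤ s ^ (π.b1 j + (1 - π.Lraw) * (j - i) - a) := by
      refine ch_an_le h0 h1 ?_
      have v1 : π.b1 j ≤ |π.q - π.J| := by
        unfold SfPar.b1
        have hj0 : 0 ≤ 1 - j := by linarith [H.j1]
        have hj1 : 1 - j ≤ 1 := by linarith [H.i0]
        have w1 := neg_abs_le (π.q - π.J)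
        have w := abs_nonneg (π.q - π.J)
        have w2 : -(π.q - π.J) * (1 - j) ≤ |π.q - π.J| * (1 - j) := mul_le_mul_of_nonneg_right (by linarith) hj0
        have w3 : |π.q - π.J| * (1 - j) ≤ |π.q - π.J| * 1 := mul_le_mul_of_nonneg_left hj1 w
        linarith
      linarith
    rw [u2]
    calc 18 * (s ^ (1 : ℝ) * s ^ (-C0 + 1 / a - 1)) = (18 * s ^ (1 : ℝ)) * s ^ (-C0 + 1 / a - 1) := by ring
      _ ≤ 1 * s ^ (-C0 + 1 / a - 1) := mul_le_mul_of_nonneg_right u1 (by positivity)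
      _ ≤ _ := by rw [one_mul]; exact u3
  exact ((t0.trans (by linarith)).trans N1).trans M1

/-- **(F) in the units of the gap, pure linear cost**: linear tests with the slopes `Pc` -/
theorem ch_ah_near_l (D : SfDoc) (π : SfPar) (hc2 : π.c2 = 0) (C0 a i j δ f1 : ℝ) (H : ChTwoD D π C0 a i j)
    (h0 : 0 < D.s) (h1 : D.s ≤ 1) (ha : 0 < a)
    (hδ0 : 0 < δ) (hδ : δ ≤ D.s ^ ((j - i) - 2 * a)) (hr0 : 0 < D.r j) (hf1 : D.f j ≤ f1)
    (ρ : D.Row i) (ρ' : D.Row j) (hc : D.Conn i j ρ ρ') :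
    0 ≤ chA π D.s a * (f1 / D.r j ^ 2) * δ ^ (-chQx π) ∧
    |(D.lab i ρ).Pc - (D.lab j ρ').Pc| ≤ chA π D.s a * (f1 / D.r j) * δ ^ (1 - π.Lraw) := by
  have hA0 : 0 < chA π D.s a := lt_of_lt_of_le one_pos (ch_ah_A1 π h0 h1 ha.le)
  have hf0 : 0 < D.f j := lt_of_lt_of_le (by positivity) H.hf.1
  have hf10 : 0 < f1 := lt_of_lt_of_le hf0 hf1
  refine ⟨by positivity, ?_⟩
  have N1 := ch_ah_num1 π (x := j - i) j h0 h1 ha.le H.hf.1 hr0 H.hr.2 hδ0 hδ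
  have M1 : chA π D.s a * (D.f j / D.r j) * δ ^ (1 - π.Lraw) ≤ chA π D.s a * (f1 / D.r j) * δ ^ (1 - π.Lraw) := by gcongr
  have hLC := ch_ah_LC π
  have hij := H.ij
  have t1 : D.s ^ (π.b1 i - a) ≤ D.s ^ (π.b1 j + (1 - π.Lraw) * (j - i) - a) := by
    refine ch_an_le h0 h1 ?_
    have hL2 : 0 ≤ (π.Lraw - 1 - (π.q - π.J)) * (j - i) := mul_nonneg (by linarith) (by linarith)
    unfold SfPar.b1
    linarith
  have t2 : 0 ≤ D.s ^ (π.b1 j + (1 - π.Lraw) * (j - i) - a) := by positivity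
  exact (((H.linP hc2 ρ ρ' hc).trans t1).trans (by linarith)).trans (N1.trans M1)

end Claimed.Agent.R256
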