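import Claimed.Agent.R256.Chan.Defs
import Claimed.Agent.R256.Soft.Model

/-!
# Row 256 (LS paper), CHAN, unit ADH, file 5: FRAME COVARIANCE OF `chNear`, LINEARISED TESTS          (architect helper218; prefix `ch_ae_`)

* `ch_ae_trans`   `chNear` (absolute units) follows from the three comparisons of the tests IN THE FRAME
* `chLin sg T Q f'`   the test with the base box of `Q`, the curvature of the shear `sg` (at the time `T`), the derivative of `Q` at its centre, and the normal width `f'`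
* `ch_ae_lin_in`  it encloses `Q` if `f' ≥ f + 3 (|Δβ| + l |ΔK|) r²`
* `ch_ae_lin_tst` in the frame with the shear `sg` it is a LINEAR test with the slope `Pc` of `Q` in the frame
-/

set_option autoImplicit false

namespace Claimed.Agent.R256

/-- **frame covariance of `chNear`** -/
theorem ch_ae_trans (φ : SfFrame) (hφ : φ.Pos) (p : ChyPar) (Qs Q : CyT) (Ti Tj : ℝ) (x : p.Om × ℝ × ℝ) (A Lm Qx dl l0 r1 f1 : ℝ) (hr1 : 0 < r1)
    (h1 : |(φ.tst (sfTestAt Ti Qs)).be - (φ.tst (sfTestAt Tj Q)).beAt (φ.tst (sfTestAt Ti Qs)).T| ≤ A * ((f1 / φ.F0) / (r1 / φ.r0) ^ 2) * dl ^ (-Qx))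
    (h2 : l0 / φ.L * |(φ.tst (sfTestAt Ti Qs)).K - (φ.tst (sfTestAt Tj Q)).K| ≤ A * ((f1 / φ.F0) / (r1 / φ.r0) ^ 2) * dl ^ (-Qx))
    (h3 : |(φ.tst (sfTestAt Ti Qs)).Pd (φ.ray (sfRayAt Ti (p.co Ti x))) - (φ.tst (sfTestAt Tj Q)).Pd (φ.ray (sfRayAt Ti (p.co Ti x)))|
      ≤ A * ((f1 / φ.F0) / (r1 / φ.r0)) * dl ^ (1 - Lm)) :
    chNear A Lm Qx dl l0 r1 f1 (Tj - Ti) Qs.be Qs.K (Qs.al + 2 * Qs.be * p.X x.1 - 2 * Qs.K * (p.B x.1 + Ti * p.X x.1))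
      (p.X x.1) (p.B x.1 + Tj * p.X x.1) Q := by
  obtain ⟨c1, c2, c3⟩ := sf_frame_cmp φ hφ (sfTestAt Ti Qs) (sfTestAt Tj Q) (sfRayAt Ti (p.co Ti x)) Ti
  obtain ⟨hL, hr, hF⟩ := hφ
  have hu : 0 < φ.r0 ^ 2 / φ.F0 := by positivity
  have hu1 : 0 < φ.r0 / φ.F0 := by positivity
  have e0 : (φ.tst (sfTestAt Ti Qs)).beAt ((Ti - φ.T0) / φ.L) = (φ.tst (sfTestAt Ti Qs)).be := by
    simp [SfTest.beAt, SfFrame.tst, sfTestAt]
  have eT : (φ.tst (sfTestAt Ti Qs)).T = (Ti - φ.T0) / φ.L := rfl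
  refine ⟨?_, ?_, ?_⟩
  · rw [eT, ← e0, c1] at h1
    have e1 : (sfTestAt Ti Qs).beAt Ti - (sfTestAt Tj Q).beAt Ti = Qs.be - (Q.be - (Tj - Ti) * Q.K) := by
      simp only [SfTest.beAt, sfTestAt]; ring
    rw [e1, mul_div_assoc, abs_mul, abs_of_pos hu] at h1
    have e2 : A * ((f1 / φ.F0) / (r1 / φ.r0) ^ 2) * dl ^ (-Qx) = (A * (f1 / r1 ^ 2) * dl ^ (-Qx)) * (φ.r0 ^ 2 / φ.F0) := by
      field_simp
    rw [e2] at h1
    exact le_of_mul_le_mul_right h1 hu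
  · rw [c2] at h2
    have e1 : ((sfTestAt Ti Qs).K - (sfTestAt Tj Q).K) * φ.L * φ.r0 ^ 2 / φ.F0 = (Qs.K - Q.K) * (φ.L * (φ.r0 ^ 2 / φ.F0)) := by
      simp only [sfTestAt]; ring
    rw [e1, abs_mul, abs_of_pos (mul_pos hL hu)] at h2
    have e2 : A * ((f1 / φ.F0) / (r1 / φ.r0) ^ 2) * dl ^ (-Qx) = (A * (f1 / r1 ^ 2) * dl ^ (-Qx)) * (φ.r0 ^ 2 / φ.F0) := by
      field_simp
    have e3 : l0 / φ.L * (|Qs.K - Q.K| * (φ.L * (φ.r0 ^ 2 / φ.F0))) = (l0 * |Qs.K - Q.K|) * (φ.r0 ^ 2 / φ.F0) := by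
      field_simp
    rw [e2, e3] at h2
    exact le_of_mul_le_mul_right h2 hu
  · rw [c3] at h3
    have e1 : (sfTestAt Ti Qs).Pd (sfRayAt Ti (p.co Ti x)) - (sfTestAt Tj Q).Pd (sfRayAt Ti (p.co Ti x))
        = (Qs.al + 2 * Qs.be * p.X x.1 - 2 * Qs.K * (p.B x.1 + Ti * p.X x.1)) - (Q.al + 2 * Q.be * p.X x.1 - 2 * Q.K * (p.B x.1 + Tj * p.X x.1)) := by
      simp only [SfTest.Pd, sfTestAt, sfRayAt, SfRay.Bt, ChyPar.co]; ring
    rw [e1, mul_div_assoc, abs_mul, abs_of_pos hu1] at h3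
    have e2 : A * ((f1 / φ.F0) / (r1 / φ.r0)) * dl ^ (1 - Lm) = (A * (f1 / r1) * dl ^ (1 - Lm)) * (φ.r0 / φ.F0) := by
      field_simp
    rw [e2] at h3
    exact le_of_mul_le_mul_right h3 hu1

/-- the linearisation of the test `Q` (used at the time `T`) relative to the shear `sg`, normal width `f'` -/
def chLin (sg : SfTest) (T : ℝ) (Q : CyT) (f' : ℝ) : CyT where
  x := Q.x
  b := Q.b
  y := Q.y
  r := Q.r
  f := f'
  c := Q.c - (Q.be - sg.beAt T) * Q.x ^ 2 + (Q.K - sg.K) * Q.y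
  d := Q.d + (Q.be - sg.beAt T) * Q.y + (Q.K - sg.K) * Q.b ^ 2 - 2 * (Q.be - sg.beAt T) * Q.x * Q.b
  al := Q.al + 2 * (Q.be - sg.beAt T) * Q.x - 2 * (Q.K - sg.K) * Q.b
  be := sg.beAt T
  K := sg.K

theorem ch_ae_eqns_cite : True := by
  have := @chLin.eq_1
  trivial

/-- the linearised test encloses the test -/
theorem ch_ae_lin_in (sg : SfTest) (T : ℝ) (Q : CyT) (f' l : ℝ) (hl : 0 ≤ l) (hr : 0 ≤ Q.r)
    (hf : Q.f + 3 * ((|Q.be - sg.beAt T| + l * |Q.K - sg.K|) * Q.r ^ 2) ≤ f') (z : Cy5) (hz : cyIn Q l z) : cyIn (chLin sg T Q f') l z := by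
  obtain ⟨z1, z2, z3, z4, z5⟩ := hz
  set db := Q.be - sg.beAt T with hdb
  set dK := Q.K - sg.K with hdK
  set ξ := z.X - Q.x with hξ
  set ζ := z.B - Q.b with hζ
  set V := cyTilt Q z with hV
  have hVe : V = z.Y - Q.y - 2 * Q.x * (z.B - Q.b) := rfl
  have a1 : |db * ξ ^ 2| ≤ |db| * Q.r ^ 2 := by
    rw [abs_mul, abs_pow]
    exact mul_le_mul_of_nonneg_left (pow_le_pow_left₀ (abs_nonneg _) z1 2) (abs_nonneg _)
  have a2 : |dK * V| ≤ |dK| * (l * Q.r ^ 2) := by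
    rw [abs_mul]; exact mul_le_mul_of_nonneg_left z3 (abs_nonneg _)
  have a3 : |dK * (ξ * ζ)| ≤ |dK| * (Q.r * (l * Q.r)) := by
    rw [abs_mul, abs_mul]
    exact mul_le_mul_of_nonneg_left (mul_le_mul z1 z2 (abs_nonneg _) hr) (abs_nonneg _)
  have a4 : |db * V| ≤ |db| * (l * Q.r ^ 2) := by
    rw [abs_mul]; exact mul_le_mul_of_nonneg_left z3 (abs_nonneg _)
  have a5 : |dK * ζ ^ 2| ≤ |dK| * (l * Q.r) ^ 2 := by
    rw [abs_mul, abs_pow]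
    exact mul_le_mul_of_nonneg_left (pow_le_pow_left₀ (abs_nonneg _) z2 2) (abs_nonneg _)
  have hdb0 := abs_nonneg db
  have hdK0 := abs_nonneg dK
  refine ⟨z1, z2, z3, ?_, ?_⟩
  · have e : cyVel (chLin sg T Q f') z = cyVel Q z + (db * ξ ^ 2 + dK * V - 2 * (dK * (ξ * ζ))) := by
      simp only [cyVel, chLin, hVe, hξ, hζ, hdb, hdK]; ring
    show |cyVel (chLin sg T Q f') z| ≤ f'
    rw [e]
    have t1 : |cyVel Q z + (db * ξ ^ 2 + dK * V - 2 * (dK * (ξ * ζ)))| ≤ |cyVel Q z| + (|db * ξ ^ 2| + |dK * V| + 2 * |dK * (ξ * ζ)|) := by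
      refine (abs_add_le _ _).trans (add_le_add (le_refl _) ?_)
      refine (abs_sub _ _).trans (add_le_add (abs_add_le _ _) ?_)
      rw [abs_mul]; norm_num
    have t2 : 0 ≤ |db| * Q.r ^ 2 := by positivity
    nlinarith
  · have e : cyPos (chLin sg T Q f') z = cyPos Q z + (db * V - dK * ζ ^ 2) := by
      simp only [cyPos, chLin, hVe, hζ, hdb, hdK]; ring
    show |cyPos (chLin sg T Q f') z| ≤ l * f'
    rw [e]
    have t1 : |cyPos Q z + (db * V - dK * ζ ^ 2)| ≤ |cyPos Q z| + (|db * V| + |dK * ζ ^ 2|) :=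
      (abs_add_le _ _).trans (add_le_add (le_refl _) (abs_sub _ _))
    have t2 : l * (Q.f + 3 * ((|db| + l * |dK|) * Q.r ^ 2)) ≤ l * f' := mul_le_mul_of_nonneg_left hf hl
    have t3 : 0 ≤ l * ((|db| + l * |dK|) * Q.r ^ 2) := by positivity
    nlinarith

/-- in a frame with the shear `sg` the linearised test is linear, with the slope `Pc` -/
theorem ch_ae_lin_tst (φ : SfFrame) (hφ : φ.Pos) (T : ℝ) (Q : CyT) (f' : ℝ) :
    (φ.tst (sfTestAt T (chLin φ.sg T Q f'))).be = 0 ∧ (φ.tst (sfTestAt T (chLin φ.sg T Q f'))).K = 0 ∧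
      (φ.tst (sfTestAt T (chLin φ.sg T Q f'))).al = (φ.tst (sfTestAt T Q)).Pc := by
  obtain ⟨hL, hr, hF⟩ := hφ
  have hL' := hL.ne'
  have hr' := hr.ne'
  have hF' := hF.ne'
  refine ⟨?_, ?_, ?_⟩
  · simp [SfFrame.tst, sfTestAt, chLin]
  · simp [SfFrame.tst, sfTestAt, chLin]
  · simp only [SfFrame.tst, sfTestAt, chLin, SfTest.Pc, SfFrame.bc]
    field_simp
    ring

end Claimed.Agent.R256
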