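import Claimed.Agent.R256.Chan.AdhAsm

/-!
# Row 256 (LS paper), CHAN, unit ADH, file 4: FROM THE LAW OF A GATE TO ROW ENERGIES; COVERINGS OF CELLS          (architect helper218; prefix `ch_al_`)
-/

set_option autoImplicit false

namespace Claimed.Agent.R256

open MeasureTheory

/-- **the atoms of an event, label by label** -/
theorem ch_al_law {P : PkSys} (W : SfMD P) (tq : P.Tst → CyT) (h : W.Str tq) {j : ℝ} (hj : j ∈ W.G) (RowJ : Type) [Fintype RowJ]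
    (lbj : RowJ → W.Lb j) (atmj : RowJ → Set P.X) (hm : ∀ ρ, MeasurableSet (atmj ρ))
    (hdisj : ∀ ρ ρ', lbj ρ = lbj ρ' → ρ ≠ ρ' → Disjoint (atmj ρ) (atmj ρ')) (U : RowJ → Prop) (Hs : W.Lb j → Set P.X) (hHs : ∀ l, MeasurableSet (Hs l))
    (hU : ∀ ρ, U ρ → atmj ρ ⊆ Hs (lbj ρ)) :
    (open Classical in ∑ ρ, (if U ρ then P.en (W.T j (lbj ρ)) (W.k j) (W.gb j) ((atmj ρ).indicator (W.th j (lbj ρ))) (W.pre j (W.iv j (lbj ρ))) else 0))
      ≤ ∑ l, P.en (W.T j l) (W.k j) (W.gb j) (fun x => W.th j l x * (Hs l).indicator (fun _ => (1 : ℝ)) x) (W.pre j (W.iv j l)) := by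
  classical
  rw [← Finset.sum_fiberwise (Finset.univ : Finset RowJ) lbj]
  refine Finset.sum_le_sum (fun l _ => ?_)
  have hth := ch_ac_th_mask W tq h hj l
  have hmask : ∀ ρ, IsMask ((atmj ρ).indicator (W.th j l)) := by
    intro ρ
    refine ⟨hth.1.indicator (hm ρ), fun x => ?_⟩
    by_cases hx : x ∈ atmj ρ
    · rw [Set.indicator_of_mem hx]; exact hth.2 x
    · rw [Set.indicator_of_notMem hx]; exact ⟨le_refl 0, zero_le_one⟩
  set J : Finset RowJ := Finset.univ.filter (fun ρ => lbj ρ = l ∧ U ρ) with hJ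
  have e1 : ∑ ρ ∈ Finset.univ.filter (fun ρ => lbj ρ = l),
      (if U ρ then P.en (W.T j (lbj ρ)) (W.k j) (W.gb j) ((atmj ρ).indicator (W.th j (lbj ρ))) (W.pre j (W.iv j (lbj ρ))) else 0)
      = ∑ ρ ∈ J, P.en (W.T j l) (W.k j) (W.gb j) ((atmj ρ).indicator (W.th j l)) (W.pre j (W.iv j l)) := by
    rw [hJ, ← Finset.filter_filter, Finset.sum_filter (s := Finset.univ.filter (fun ρ => lbj ρ = l))]
    refine Finset.sum_congr rfl (fun ρ hρ => ?_)
    have : lbj ρ = l := (Finset.mem_filter.1 hρ).2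
    subst this
    rfl
  rw [e1, ← gn_en_sum _ _ _ J _ (fun ρ _ => hmask ρ)]
  have hpt : ∀ x, ∑ ρ ∈ J, (atmj ρ).indicator (W.th j l) x ≤ W.th j l x * (Hs l).indicator (fun _ => (1 : ℝ)) x ∧
      0 ≤ ∑ ρ ∈ J, (atmj ρ).indicator (W.th j l) x := by
    intro x
    refine ⟨?_, Finset.sum_nonneg fun ρ _ => ((hmask ρ).2 x).1⟩
    by_cases hx : ∃ ρ0 ∈ J, x ∈ atmj ρ0
    · obtain ⟨ρ0, hρ0, hxρ0⟩ := hx
      obtain ⟨-, hl0, hU0⟩ := Finset.mem_filter.1 hρ0
      rw [Finset.sum_eq_single ρ0]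
      · have : x ∈ Hs l := by rw [← hl0]; exact hU ρ0 hU0 hxρ0
        rw [Set.indicator_of_mem hxρ0, Set.indicator_of_mem this, mul_one]
      · intro ρ hρ hne
        obtain ⟨-, hl1, -⟩ := Finset.mem_filter.1 hρ
        have hd := hdisj ρ ρ0 (hl1.trans hl0.symm) hne
        exact Set.indicator_of_notMem (fun hxρ => Set.disjoint_left.1 hd hxρ hxρ0) _
      · intro hne; exact absurd hρ0 hne
    · rw [Finset.sum_eq_zero]
      · exact mul_nonneg (hth.2 x).1 (Set.indicator_nonneg (fun _ _ => zero_le_one) x)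
      · intro ρ hρ
        exact Set.indicator_of_notMem (fun hxρ => hx ⟨ρ, hρ, hxρ⟩) _
  have hR : IsMask (fun x => W.th j l x * (Hs l).indicator (fun _ => (1 : ℝ)) x) := gn_mask_mul hth (gn_mask_ind (hHs l))
  refine gn_en_mono _ _ _ ⟨Finset.measurable_sum _ (fun ρ _ => (hmask ρ).1), fun x => ⟨(hpt x).2, (hpt x).1.trans (hR.2 x).2⟩⟩ hR (fun x => (hpt x).1) _

/-- an interval of half width `w` is covered by `≤ w/h + 1` intervals of half width `h` -/
theorem ch_al_cover (y w h : ℝ) (hh : 0 < h) (hw : 0 ≤ w) :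
    ∃ F : Finset ℝ, (F.card : ℝ) ≤ w / h + 1 ∧ ∀ z, |z - y| ≤ w → ∃ c ∈ F, |z - c| ≤ h := by
  classical
  refine ⟨(Finset.range (⌊w / h⌋₊ + 1)).image (fun t : ℕ => y - w + h * (2 * (t : ℝ) + 1)), ?_, ?_⟩
  · have h1 : (((Finset.range (⌊w / h⌋₊ + 1)).image (fun t : ℕ => y - w + h * (2 * (t : ℝ) + 1))).card : ℝ) ≤ ((⌊w / h⌋₊ + 1 : ℕ) : ℝ) := by
      have := Finset.card_image_le (s := Finset.range (⌊w / h⌋₊ + 1)) (f := fun t : ℕ => y - w + h * (2 * (t : ℝ) + 1))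
      rw [Finset.card_range] at this
      exact_mod_cast this
    have h2 : ((⌊w / h⌋₊ : ℕ) : ℝ) ≤ w / h := Nat.floor_le (by positivity)
    push_cast at h1
    linarith
  · intro z hz
    rw [abs_le] at hz
    set u : ℝ := (z - (y - w)) / (2 * h) with hu
    have hu0 : 0 ≤ u := div_nonneg (by linarith) (by positivity)
    have huw : u ≤ w / h := by
      rw [hu, div_le_div_iff₀ (by positivity) hh]
      nlinarith
    have f1 : ((⌊u⌋₊ : ℕ) : ℝ) ≤ u := Nat.floor_le hu0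
    have f2 : u < (⌊u⌋₊ : ℝ) + 1 := Nat.lt_floor_add_one u
    have ez : z = y - w + 2 * h * u := by
      rw [hu]; field_simp; ring
    refine ⟨y - w + h * (2 * ((⌊u⌋₊ : ℕ) : ℝ) + 1), Finset.mem_image.2 ⟨⌊u⌋₊, Finset.mem_range.2 (Nat.lt_succ_of_le (Nat.floor_mono huw)), rfl⟩, ?_⟩
    rw [abs_le]
    constructor <;> nlinarith

end Claimed.Agent.R256
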