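import Mathlib

/-!
# Row 256 (LS paper), CHAN, unit ADH, file 6: POWERS OF THE SCALE          (architect helper218; prefix `ch_an_`)      paper free
-/

set_option autoImplicit false

namespace Claimed.Agent.R256

theorem ch_an_le {s x y : ℝ} (h0 : 0 < s) (h1 : s ≤ 1) (h : y ≤ x) : s ^ x ≤ s ^ y :=
  Real.rpow_le_rpow_of_exponent_ge h0 h1 h

theorem ch_an_mul {s : ℝ} (h0 : 0 < s) (x y : ℝ) : s ^ x * s ^ y = s ^ (x + y) := (Real.rpow_add h0 x y).symm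

theorem ch_an_div {s : ℝ} (h0 : 0 < s) (x y : ℝ) : s ^ x / s ^ y = s ^ (x - y) := (Real.rpow_sub h0 x y).symm

theorem ch_an_pow {s : ℝ} (h0 : 0 < s) (x y : ℝ) : (s ^ x) ^ y = s ^ (x * y) := (Real.rpow_mul h0.le x y).symm

theorem ch_an_one_le {s x : ℝ} (h0 : 0 < s) (h1 : s ≤ 1) (h : x ≤ 0) : 1 ≤ s ^ x := by
  have := ch_an_le h0 h1 h
  rwa [Real.rpow_zero] at this

theorem ch_an_le_one {s x : ℝ} (h0 : 0 < s) (h1 : s ≤ 1) (h : 0 ≤ x) : s ^ x ≤ 1 := by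
  have := ch_an_le h0 h1 h
  rwa [Real.rpow_zero] at this

theorem ch_an_up {s δ x y : ℝ} (h0 : 0 < s) (hδ0 : 0 < δ) (hδ : δ ≤ s ^ x) (hy : 0 ≤ y) : δ ^ y ≤ s ^ (x * y) := by
  rw [← ch_an_pow h0]
  exact Real.rpow_le_rpow hδ0.le hδ hy

theorem ch_an_lo {s δ x y : ℝ} (h0 : 0 < s) (hδ : s ^ x ≤ δ) (hy : 0 ≤ y) : s ^ (x * y) ≤ δ ^ y := by
  rw [← ch_an_pow h0]
  exact Real.rpow_le_rpow (by positivity) hδ hy

theorem ch_an_neg_up {s δ x y : ℝ} (h0 : 0 < s) (hδ : s ^ x ≤ δ) (hy : y ≤ 0) : δ ^ y ≤ s ^ (x * y) := by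
  rw [← ch_an_pow h0]
  exact Real.rpow_le_rpow_of_nonpos (by positivity) hδ hy

theorem ch_an_neg_lo {s δ x y : ℝ} (h0 : 0 < s) (hδ0 : 0 < δ) (hδ : δ ≤ s ^ x) (hy : y ≤ 0) : s ^ (x * y) ≤ δ ^ y := by
  rw [← ch_an_pow h0]
  exact Real.rpow_le_rpow_of_nonpos hδ0 hδ hy

/-- powers of `s = 2^-n` -/
theorem ch_an_two (n : ℕ) (y : ℝ) : (((2 : ℝ)⁻¹) ^ n) ^ y = 2 ^ (-((n : ℝ) * y)) := by
  rw [← Real.rpow_natCast, ← Real.rpow_mul (by norm_num), Real.inv_rpow (by norm_num), ← Real.rpow_neg (by norm_num)]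

theorem ch_an_two' (n : ℕ) : ((2 : ℝ)⁻¹) ^ n = 2 ^ (-(n : ℝ)) := by
  rw [Real.rpow_neg (by norm_num), Real.rpow_natCast, inv_pow]

/-- the relative length of a gap -/
theorem ch_an_depth (n k0 ki kj : ℕ) (i j a : ℝ) (hk : ki ≤ kj) (hi : |((ki : ℝ) - k0) - i * n| ≤ a * n) (hj : |((kj : ℝ) - k0) - j * n| ≤ a * n) :
    (((2 : ℝ)⁻¹) ^ n) ^ ((j - i) + 2 * a) ≤ ((2 : ℝ)⁻¹) ^ (kj - ki) ∧ ((2 : ℝ)⁻¹) ^ (kj - ki) ≤ (((2 : ℝ)⁻¹) ^ n) ^ ((j - i) - 2 * a) := by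
  rw [abs_le] at hi hj
  have e : ((kj - ki : ℕ) : ℝ) = (kj : ℝ) - ki := by push_cast [Nat.cast_sub hk]; ring
  rw [ch_an_two, ch_an_two, ch_an_two', e]
  constructor <;> refine Real.rpow_le_rpow_of_exponent_le (by norm_num) ?_ <;> nlinarith [hi.1, hi.2, hj.1, hj.2]

/-- the relative length of the intervals of a gate -/
theorem ch_an_len (n k0 ki : ℕ) (i a : ℝ) (hk : k0 ≤ ki) (hi : |((ki : ℝ) - k0) - i * n| ≤ a * n) :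
    (((2 : ℝ)⁻¹) ^ n) ^ (i + a) ≤ ((2 : ℝ)⁻¹) ^ (ki - k0) ∧ ((2 : ℝ)⁻¹) ^ (ki - k0) ≤ (((2 : ℝ)⁻¹) ^ n) ^ (i - a) := by
  rw [abs_le] at hi
  have e : ((ki - k0 : ℕ) : ℝ) = (ki : ℝ) - k0 := by push_cast [Nat.cast_sub hk]; ring
  rw [ch_an_two, ch_an_two, ch_an_two', e]
  constructor <;> refine Real.rpow_le_rpow_of_exponent_le (by norm_num) ?_ <;> nlinarith [hi.1, hi.2]

end Claimed.Agent.R256
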