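import Claimed.Agent.R256.Chan.AdhDoc
import Claimed.Agent.R256.Chan.AdhAbs

/-!
# Row 256 (LS paper), CHAN, unit ADH, file 9: THE NUMEROLOGY OF (mem)          (architect helper218; prover helper204; prefix `ch_am_`)      paper free, real numbers only

`ch_am_num` = the bound of `ch_ad_asm` (Chan/AdhAsm.lean) with the matched-chain values of all parameters is `≤ s^(-t) δ^((mnum - R)/2) tot`.
PROOF.  `x = j - i`, `L = π.Lraw`, `α = 5 + 2 Qx + 2 L`, `A = chA π s a = 2 s^(-α a)`, `A^5 = 32 s^(-5 α a)`.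
MAIN TERM `≤ target / 2`:   under the root:  `(Lt w1) Rn' (δ^(2-3L) δ^((3+η)L-η)) ka (2 Etot) ≤ 24 e² s^E`,
  `E = -7a - 2aL - 2a(2+η(L-1)) - (p+d) j + (p-d) i - R x + x (2+η(L-1))`   (`δ^(2+η(L-1)) ≤ s^((x-2a)(2+η(L-1)))`);   root `≤ 5 e s^(E/2)`;
  `tot ≥ s^a e s^(-d j)`;   `mnum L = 2 + d - p + η(L-1)` (`Γ = d + (1-p)/2`), so `(mnum - R) x/2 - d j = [x(2+η(L-1)) - R x - (p+d) j + (p-d) i]/2`: the exponents of `s` agree up to
  `a (32.5 + 10 Qx + 11 L + η(L-1)) ≤ a (33 + 10 Qx + 12 L) ≤ t`, once `320 cK LOG^(K+1) ≤ s^(-a)`:   `LOG ≤ 1 + log 8 + (α a + 5a + K/2) log(1/s)`  (absorption lemma (L1)).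
ERROR TERM `≤ target / 2`:   `Lt ≤ s^(-a-C0-(p+d)j-(3+η)(u j+a)-(1-η)(n j+a))`, `δ^(2-3L) ≤ s^((x+2a)(2-3L))`, `q4² = δ^(-1/2) ≤ s^(-(x+2a)/2)`, `Etot/tot ≤ s^(-2a+d x)`, `R ≤ mnum`:
  everything is `≤ Cm s^(-N)` with `N`, `Cm` depending only on `(π, C0, a, t, K, cK)`;   absorption lemma (L2).
-/

set_option autoImplicit false

namespace Claimed.Agent.R256

theorem ch_am_sq {s : ℝ} (h0 : 0 < s) (y : ℝ) : (s ^ (y / 2)) ^ 2 = s ^ y := by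
  rw [← Real.rpow_natCast, ch_an_pow h0]
  congr 1
  push_cast
  ring

theorem ch_am_pow5 {s : ℝ} (h0 : 0 < s) (y : ℝ) : (2 * s ^ (-y)) ^ 5 = 32 * s ^ (-(5 * y)) := by
  rw [mul_pow, ← Real.rpow_natCast (s ^ (-y)) 5, ch_an_pow h0]
  norm_num
  congr 1
  ring

/-- the main term -/
theorem ch_am_main {s a t x i j R e κ Lt w1 δ tot p d η L α B : ℝ} (h0 : 0 < s) (h1 : s ≤ 1) (he : 0 < e) (hκ : 0 < κ)
    (hx : x = j - i) (hδ0 : 0 < δ) (hδ : δ ≤ s ^ (x - 2 * a)) (hL : 1 ≤ L) (hη0 : 0 ≤ η)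
    (H1 : Lt * w1 ≤ 4 * s ^ (-(4 * a)) * (s ^ (-a) * (e / κ) * s ^ (-((p + d) * j))))
    (htot : s ^ a * e * s ^ (-(d * j)) ≤ tot) (hB0 : 0 ≤ B) (hB : B ≤ 1 / 10 * (s ^ (-a) * s ^ (-(5 * (α * a)))))
    (ht : a * (15 / 2 + 5 * α + L + η * (L - 1)) ≤ t) :
    B * Real.sqrt (Lt * (s ^ (-(R * x)) * (3 * s ^ (-(2 * a * L)))) * δ ^ (2 - 3 * L)
        * (s ^ (-a) * κ * s ^ (p * i) * w1 * δ ^ ((3 + η) * L - η)) * (2 * (s ^ (-a) * e * s ^ (-(d * i)))))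
      ≤ 1 / 2 * (s ^ (-t) * s ^ ((2 + d - p + η * (L - 1) - R) / 2 * x) * tot) := by
  set E : ℝ := -(4 * a) + -a + -((p + d) * j) + -(R * x) + -(2 * a * L) + -a + p * i + -a + -(d * i) + (x - 2 * a) * (2 + η * (L - 1)) with hE
  have hexp : 0 ≤ 2 + η * (L - 1) := by
    have : 0 ≤ η * (L - 1) := mul_nonneg hη0 (by linarith)
    linarith
  have hδp : δ ^ (2 - 3 * L) * δ ^ ((3 + η) * L - η) = δ ^ (2 + η * (L - 1)) := by
    rw [← Real.rpow_add hδ0]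
    congr 1
    ring
  have hδu : δ ^ (2 + η * (L - 1)) ≤ s ^ ((x - 2 * a) * (2 + η * (L - 1))) := ch_an_up h0 hδ0 hδ hexp
  have hsE : s ^ E = s ^ (-(4 * a)) * s ^ (-a) * s ^ (-((p + d) * j)) * s ^ (-(R * x)) * s ^ (-(2 * a * L)) * s ^ (-a) * s ^ (p * i) * s ^ (-a)
      * s ^ (-(d * i)) * s ^ ((x - 2 * a) * (2 + η * (L - 1))) := by
    simp only [← Real.rpow_add h0]
    rw [hE]
  have hek : e / κ * κ = e := by field_simp
  have hp : ∀ y : ℝ, 0 < s ^ y := fun y => Real.rpow_pos_of_pos h0 y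
  have hZ : Lt * (s ^ (-(R * x)) * (3 * s ^ (-(2 * a * L)))) * δ ^ (2 - 3 * L)
        * (s ^ (-a) * κ * s ^ (p * i) * w1 * δ ^ ((3 + η) * L - η)) * (2 * (s ^ (-a) * e * s ^ (-(d * i)))) ≤ 24 * e ^ 2 * s ^ E := by
    calc Lt * (s ^ (-(R * x)) * (3 * s ^ (-(2 * a * L)))) * δ ^ (2 - 3 * L)
        * (s ^ (-a) * κ * s ^ (p * i) * w1 * δ ^ ((3 + η) * L - η)) * (2 * (s ^ (-a) * e * s ^ (-(d * i))))
        = (Lt * w1) * ((6 * κ * e) * (s ^ (-(R * x)) * s ^ (-(2 * a * L)) * s ^ (-a) * s ^ (p * i) * s ^ (-a) * s ^ (-(d * i))))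
            * (δ ^ (2 - 3 * L) * δ ^ ((3 + η) * L - η)) := by ring
      _ ≤ (4 * s ^ (-(4 * a)) * (s ^ (-a) * (e / κ) * s ^ (-((p + d) * j))))
            * ((6 * κ * e) * (s ^ (-(R * x)) * s ^ (-(2 * a * L)) * s ^ (-a) * s ^ (p * i) * s ^ (-a) * s ^ (-(d * i))))
            * s ^ ((x - 2 * a) * (2 + η * (L - 1))) := by
          rw [hδp]
          have hpos : 0 ≤ (6 * κ * e) * (s ^ (-(R * x)) * s ^ (-(2 * a * L)) * s ^ (-a) * s ^ (p * i) * s ^ (-a) * s ^ (-(d * i))) := by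
            have := hp (-(R * x)); have := hp (-(2 * a * L)); have := hp (-a); have := hp (p * i); have := hp (-(d * i))
            positivity
          have hpos2 : 0 ≤ 4 * s ^ (-(4 * a)) * (s ^ (-a) * (e / κ) * s ^ (-((p + d) * j))) := by
            have := hp (-(4 * a)); have := hp (-a); have := hp (-((p + d) * j))
            positivity
          exact mul_le_mul (mul_le_mul_of_nonneg_right H1 hpos) hδu (Real.rpow_nonneg hδ0.le _) (mul_nonneg hpos2 hpos)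
      _ = 24 * ((e / κ * κ) * e) * (s ^ (-(4 * a)) * s ^ (-a) * s ^ (-((p + d) * j)) * s ^ (-(R * x)) * s ^ (-(2 * a * L)) * s ^ (-a) * s ^ (p * i) * s ^ (-a)
            * s ^ (-(d * i)) * s ^ ((x - 2 * a) * (2 + η * (L - 1)))) := by ring
      _ = 24 * e ^ 2 * s ^ E := by rw [hek, hsE]; ring
  have hsq : Real.sqrt (Lt * (s ^ (-(R * x)) * (3 * s ^ (-(2 * a * L)))) * δ ^ (2 - 3 * L)
        * (s ^ (-a) * κ * s ^ (p * i) * w1 * δ ^ ((3 + η) * L - η)) * (2 * (s ^ (-a) * e * s ^ (-(d * i))))) ≤ 5 * e * s ^ (E / 2) := by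
    apply Real.sqrt_le_iff.2
    refine ⟨by have := hp (E / 2); positivity, hZ.trans ?_⟩
    have h2 : (5 * e * s ^ (E / 2)) ^ 2 = 25 * e ^ 2 * s ^ E := by
      rw [mul_pow, mul_pow, ch_am_sq h0]
      norm_num
    rw [h2]
    have := hp E
    have he2 : 0 < e ^ 2 := by positivity
    nlinarith [mul_pos he2 this]
  calc B * Real.sqrt (Lt * (s ^ (-(R * x)) * (3 * s ^ (-(2 * a * L)))) * δ ^ (2 - 3 * L)
        * (s ^ (-a) * κ * s ^ (p * i) * w1 * δ ^ ((3 + η) * L - η)) * (2 * (s ^ (-a) * e * s ^ (-(d * i)))))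
      ≤ (1 / 10 * (s ^ (-a) * s ^ (-(5 * (α * a))))) * (5 * e * s ^ (E / 2)) :=
        mul_le_mul hB hsq (Real.sqrt_nonneg _) (by have := hp (-a); have := hp (-(5 * (α * a))); positivity)
    _ = 1 / 2 * (s ^ (-a + -(5 * (α * a)) + E / 2) * e) := by
        rw [Real.rpow_add h0, Real.rpow_add h0]
        ring
    _ ≤ 1 / 2 * (s ^ (-t + (2 + d - p + η * (L - 1) - R) / 2 * x + a + -(d * j)) * e) := by
        have hle : s ^ (-a + -(5 * (α * a)) + E / 2) ≤ s ^ (-t + (2 + d - p + η * (L - 1) - R) / 2 * x + a + -(d * j)) := by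
          apply ch_an_le h0 h1
          rw [hE, hx]
          nlinarith [ht]
        have := mul_le_mul_of_nonneg_right hle he.le
        linarith
    _ = 1 / 2 * (s ^ (-t) * s ^ ((2 + d - p + η * (L - 1) - R) / 2 * x) * (s ^ a * e * s ^ (-(d * j)))) := by
        rw [Real.rpow_add h0, Real.rpow_add h0, Real.rpow_add h0]
        ring
    _ ≤ 1 / 2 * (s ^ (-t) * s ^ ((2 + d - p + η * (L - 1) - R) / 2 * x) * tot) := by
        have hpos : 0 ≤ s ^ (-t) * s ^ ((2 + d - p + η * (L - 1) - R) / 2 * x) := by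
          have := hp (-t); have := hp ((2 + d - p + η * (L - 1) - R) / 2 * x)
          positivity
        have := mul_le_mul_of_nonneg_left htot hpos
        linarith

/-- the exponents of the error term -/
theorem ch_am_err_exp {a t x i j R p d η L α u n J qj C0 mn N : ℝ} (ha : 0 ≤ a) (ha1 : a ≤ 1) (ht : 0 ≤ t) (hx0 : 0 ≤ x) (hx1 : x ≤ 1)
    (hi : 0 ≤ i) (hi1 : i ≤ 1) (hj0 : 0 ≤ j) (hj : j ≤ 1) (hR0 : 0 ≤ R) (hR : R ≤ mn) (hη0 : 0 ≤ η) (hη1 : η ≤ 1) (hL : 1 ≤ L) (hpd : 0 ≤ p + d)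
    (hd0 : 0 ≤ d) (hd1 : d ≤ 1) (hu0 : 0 ≤ u) (hu : u ≤ J) (hn : |n| ≤ qj) (hα : 0 ≤ α)
    (hN : mn / 2 + mn + 5 * α + |C0| + (p + d) + 4 * (J + 1) + qj + 11 * L + 10 ≤ N) :
    -t + (mn - R) / 2 * x + a + -(d * j) ≤ N + -(5 * (α * a)) + -(R * x) + -(2 * a * L) + -a + -(d * i)
      + (-a + -C0 + -((p + d) * j) - ((u + a) * (3 + η) + (n + a) * (1 - η))) + (x + 2 * a) * (2 - 3 * L) + (x + 2 * a) * (-(1 / 2)) := by
  have b1 : (mn - R) / 2 * x ≤ mn / 2 := by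
    calc (mn - R) / 2 * x ≤ (mn - R) / 2 * 1 := mul_le_mul_of_nonneg_left hx1 (by linarith)
      _ ≤ mn / 2 := by linarith
  have b2 : R * x ≤ mn := by
    calc R * x ≤ R * 1 := mul_le_mul_of_nonneg_left hx1 hR0
      _ ≤ mn := by linarith
  have b3 : (p + d) * j ≤ p + d := by
    calc (p + d) * j ≤ (p + d) * 1 := mul_le_mul_of_nonneg_left hj hpd
      _ = p + d := mul_one _
  have b4 : (u + a) * (3 + η) ≤ 4 * (J + 1) := by
    calc (u + a) * (3 + η) ≤ (J + 1) * 4 := mul_le_mul (by linarith) (by linarith) (by linarith) (by linarith)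
      _ = 4 * (J + 1) := by ring
  have b5 : (n + a) * (1 - η) ≤ qj + 1 := by
    have hn1 : n ≤ qj := (le_abs_self n).trans hn
    have hq0 : 0 ≤ qj := (abs_nonneg n).trans hn
    calc (n + a) * (1 - η) ≤ (qj + 1) * (1 - η) := mul_le_mul_of_nonneg_right (by linarith) (by linarith)
      _ ≤ (qj + 1) * 1 := mul_le_mul_of_nonneg_left (by linarith) (by linarith)
      _ = qj + 1 := mul_one _
  have b6 : (x + 2 * a) * (3 * L - 2) ≤ 9 * L := by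
    calc (x + 2 * a) * (3 * L - 2) ≤ 3 * (3 * L - 2) := mul_le_mul_of_nonneg_right (by linarith) (by linarith)
      _ ≤ 9 * L := by linarith
  have b8 : d * i ≤ 1 := by
    calc d * i ≤ 1 * 1 := mul_le_mul hd1 hi1 hi (by norm_num)
      _ = 1 := by norm_num
  have b9 : 0 ≤ d * j := mul_nonneg hd0 hj0
  have b10 : α * a ≤ α := by
    calc α * a ≤ α * 1 := mul_le_mul_of_nonneg_left ha1 hα
      _ = α := mul_one _
  have b11 : a * L ≤ L := by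
    calc a * L ≤ 1 * L := mul_le_mul_of_nonneg_right ha1 (by linarith)
      _ = L := one_mul _
  have b12 : C0 ≤ |C0| := le_abs_self _
  have e6 : (x + 2 * a) * (2 - 3 * L) = -((x + 2 * a) * (3 * L - 2)) := by ring
  have e11 : 2 * a * L = 2 * (a * L) := by ring
  rw [e6, e11]
  linarith

/-- the error term -/
theorem ch_am_err {s a t x i j R e Lt r' f' δ tot q4 p d η L α u n J qj C0 mn cK G Kr N : ℝ} (h0 : 0 < s) (h1 : s ≤ 1) (ha : 0 < a) (ha1 : a ≤ 1)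
    (ht : 0 < t) (he : 0 < e) (hx : x = j - i) (hi : 0 ≤ i) (hij : i < j) (hj : j ≤ 1) (hR0 : 0 ≤ R) (hR : R ≤ mn) (hLt : 0 ≤ Lt)
    (hr' : s ^ (u + a) ≤ r') (hf' : s ^ (n + a) ≤ f')
    (H2 : Lt * (r' ^ (3 + η) * f' ^ (1 - η)) ≤ s ^ (-a) * s ^ (-C0) * s ^ (-((p + d) * j)))
    (hδ1 : s ^ (x + 2 * a) ≤ δ) (hq4 : q4 = δ ^ (-(1 / 4 : ℝ))) (htot : s ^ a * e * s ^ (-(d * j)) ≤ tot)
    (hη0 : 0 < η) (hη1 : η < 1) (hL : 1 ≤ L) (hpd : 0 ≤ p + d) (hd0 : 0 ≤ d) (hd1 : d ≤ 1) (hu0 : 0 ≤ u) (hu : u ≤ J) (hn : |n| ≤ qj)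
    (hcK : 0 ≤ cK) (hα : 0 ≤ α) (hG0 : 0 ≤ G)
    (hG : 2 * (cK * 32 * 3 * (Kr * 52) ^ 2) * G ^ 2 ≤ s ^ N)
    (hN : mn / 2 + mn + 5 * α + |C0| + (p + d) + 4 * (J + 1) + qj + 11 * L + 10 ≤ N) :
    cK * (2 * s ^ (-(α * a))) ^ 5 * (Lt * (s ^ (-(R * x)) * (3 * s ^ (-(2 * a * L)))) * δ ^ (2 - 3 * L))
        * ((Kr * (52 * G * q4)) ^ 2 * (s ^ (-a) * e * s ^ (-(d * i))))
      ≤ 1 / 2 * (s ^ (-t) * s ^ ((mn - R) / 2 * x) * tot) := by
  have hp : ∀ y : ℝ, 0 < s ^ y := fun y => Real.rpow_pos_of_pos h0 y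
  have hδ0 : 0 < δ := lt_of_lt_of_le (hp _) hδ1
  have hx0 : 0 < x := by rw [hx]; linarith
  have hx1 : x ≤ 1 := by rw [hx]; linarith
  -- the number of labels
  have hrp : s ^ ((u + a) * (3 + η)) ≤ r' ^ (3 + η) := ch_an_lo h0 hr' (by linarith)
  have hfp : s ^ ((n + a) * (1 - η)) ≤ f' ^ (1 - η) := ch_an_lo h0 hf' (by linarith)
  have hLt1 : Lt * s ^ ((u + a) * (3 + η) + (n + a) * (1 - η)) ≤ s ^ (-a + -C0 + -((p + d) * j)) := by
    rw [Real.rpow_add h0, Real.rpow_add h0 (-a + -C0), Real.rpow_add h0 (-a)]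
    refine le_trans ?_ H2
    exact mul_le_mul_of_nonneg_left (mul_le_mul hrp hfp (hp _).le ((hp _).le.trans hrp)) hLt
  have hLt2 : Lt ≤ s ^ (-a + -C0 + -((p + d) * j) - ((u + a) * (3 + η) + (n + a) * (1 - η))) := by
    rw [← ch_an_div h0, le_div_iff₀ (hp _)]
    exact hLt1
  have hδ2 : δ ^ (2 - 3 * L) ≤ s ^ ((x + 2 * a) * (2 - 3 * L)) := ch_an_neg_up h0 hδ1 (by linarith)
  have hq : q4 ^ 2 ≤ s ^ ((x + 2 * a) * (-(1 / 2))) := by
    have e1 : q4 ^ 2 = δ ^ (-(1 / 2 : ℝ)) := by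
      rw [hq4, ← Real.rpow_natCast, ← Real.rpow_mul hδ0.le]
      congr 1
      push_cast
      ring
    rw [e1]
    exact ch_an_neg_up h0 hδ1 (by norm_num)
  set lam : ℝ := -a + -C0 + -((p + d) * j) - ((u + a) * (3 + η) + (n + a) * (1 - η)) with hlam
  set Cc : ℝ := cK * 32 * 3 * (Kr * 52) ^ 2 with hCc
  have hCc0 : 0 ≤ Cc := by positivity
  set ch : ℝ := s ^ (-(5 * (α * a))) * s ^ (-(R * x)) * s ^ (-(2 * a * L)) * s ^ (-a) * s ^ (-(d * i)) with hch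
  have hch0 : 0 < ch := by
    have := hp (-(5 * (α * a))); have := hp (-(R * x)); have := hp (-(2 * a * L)); have := hp (-a); have := hp (-(d * i))
    positivity
  have hG2 : Cc * G ^ 2 ≤ 1 / 2 * s ^ N := by linarith
  calc cK * (2 * s ^ (-(α * a))) ^ 5 * (Lt * (s ^ (-(R * x)) * (3 * s ^ (-(2 * a * L)))) * δ ^ (2 - 3 * L))
        * ((Kr * (52 * G * q4)) ^ 2 * (s ^ (-a) * e * s ^ (-(d * i))))
      = (Cc * G ^ 2) * (ch * e) * (Lt * δ ^ (2 - 3 * L) * q4 ^ 2) := by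
        rw [ch_am_pow5 h0, hCc, hch]
        ring
    _ ≤ (1 / 2 * s ^ N) * (ch * e) * (s ^ lam * s ^ ((x + 2 * a) * (2 - 3 * L)) * s ^ ((x + 2 * a) * (-(1 / 2)))) := by
        have hA : Lt * δ ^ (2 - 3 * L) * q4 ^ 2 ≤ s ^ lam * s ^ ((x + 2 * a) * (2 - 3 * L)) * s ^ ((x + 2 * a) * (-(1 / 2))) :=
          mul_le_mul (mul_le_mul hLt2 hδ2 (Real.rpow_nonneg hδ0.le _) (hp _).le) hq (sq_nonneg _) (mul_pos (hp _) (hp _)).le
        have hB : (Cc * G ^ 2) * (ch * e) ≤ (1 / 2 * s ^ N) * (ch * e) := mul_le_mul_of_nonneg_right hG2 (mul_pos hch0 he).le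
        exact mul_le_mul hB hA (by have := Real.rpow_nonneg hδ0.le (2 - 3 * L); positivity)
          (by have := hp N; positivity)
    _ = 1 / 2 * (s ^ (N + -(5 * (α * a)) + -(R * x) + -(2 * a * L) + -a + -(d * i) + lam + (x + 2 * a) * (2 - 3 * L) + (x + 2 * a) * (-(1 / 2))) * e) := by
        simp only [Real.rpow_add h0]
        rw [hch]
        ring
    _ ≤ 1 / 2 * (s ^ (-t + (mn - R) / 2 * x + a + -(d * j)) * e) := by
        have hle : s ^ (N + -(5 * (α * a)) + -(R * x) + -(2 * a * L) + -a + -(d * i) + lam + (x + 2 * a) * (2 - 3 * L) + (x + 2 * a) * (-(1 / 2)))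
            ≤ s ^ (-t + (mn - R) / 2 * x + a + -(d * j)) := by
          apply ch_an_le h0 h1
          rw [hlam]
          exact ch_am_err_exp ha.le ha1 ht.le hx0.le hx1 hi (hij.le.trans hj) (hi.trans hij.le) hj hR0 hR hη0.le hη1.le hL hpd hd0 hd1 hu0 hu hn hα hN
        have := mul_le_mul_of_nonneg_right hle he.le
        linarith
    _ = 1 / 2 * (s ^ (-t) * s ^ ((mn - R) / 2 * x) * (s ^ a * e * s ^ (-(d * j)))) := by
        rw [Real.rpow_add h0, Real.rpow_add h0, Real.rpow_add h0]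
        ring
    _ ≤ 1 / 2 * (s ^ (-t) * s ^ ((mn - R) / 2 * x) * tot) := by
        have hpos : 0 ≤ s ^ (-t) * s ^ ((mn - R) / 2 * x) := (mul_pos (hp _) (hp _)).le
        have := mul_le_mul_of_nonneg_left htot hpos
        linarith

/-- the logarithmic factor -/
theorem ch_am_log {s A α a Kr f1 dlk : ℝ} (h0 : 0 < s) (h18 : s < 1 / 18) (hA : A = 2 * s ^ (-(α * a))) (hA1 : 1 ≤ A)
    (hdlk : 0 < dlk) (hdf : dlk ≤ f1) (hfd : f1 / dlk ≤ 4 * s ^ (-(5 * a + Kr))) :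
    0 ≤ 1 + Real.log (A * f1 / dlk) ∧
      1 + Real.log (A * f1 / dlk) ≤ 1 + (Real.log 8 + (α * a + 5 * a + Kr)) * Real.log (1 / s) := by
  have hp : ∀ y : ℝ, 0 < s ^ y := fun y => Real.rpow_pos_of_pos h0 y
  have hfd1 : 1 ≤ f1 / dlk := (one_le_div hdlk).2 hdf
  have harg : A * f1 / dlk = A * (f1 / dlk) := mul_div_assoc _ _ _
  have harg1 : 1 ≤ A * f1 / dlk := by
    rw [harg]
    calc (1 : ℝ) = 1 * 1 := (one_mul 1).symm
      _ ≤ A * (f1 / dlk) := mul_le_mul hA1 hfd1 (by norm_num) (by linarith)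
  have hlog0 : 0 ≤ Real.log (A * f1 / dlk) := Real.log_nonneg harg1
  refine ⟨by linarith, ?_⟩
  have hup : A * f1 / dlk ≤ 8 * s ^ (-(α * a + 5 * a + Kr)) := by
    rw [harg, hA]
    calc 2 * s ^ (-(α * a)) * (f1 / dlk) ≤ 2 * s ^ (-(α * a)) * (4 * s ^ (-(5 * a + Kr))) :=
          mul_le_mul_of_nonneg_left hfd (by have := hp (-(α * a)); positivity)
      _ = 8 * (s ^ (-(α * a)) * s ^ (-(5 * a + Kr))) := by ring
      _ = 8 * s ^ (-(α * a + 5 * a + Kr)) := by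
          rw [← Real.rpow_add h0]
          congr 2
          ring
  have hl : Real.log (1 / s) = -Real.log s := by rw [one_div, Real.log_inv]
  have hlog1 : Real.log (A * f1 / dlk) ≤ Real.log 8 + (α * a + 5 * a + Kr) * Real.log (1 / s) := by
    calc Real.log (A * f1 / dlk) ≤ Real.log (8 * s ^ (-(α * a + 5 * a + Kr))) := Real.log_le_log (by linarith) hup
      _ = Real.log 8 + (α * a + 5 * a + Kr) * Real.log (1 / s) := by
          rw [Real.log_mul (by norm_num) (hp _).ne', Real.log_rpow h0, hl]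
          ring
  have hl1 : 1 ≤ Real.log (1 / s) := by
    have h1 : Real.exp 1 ≤ 1 / s := by
      have h2 : Real.exp 1 < 2.7182818286 := Real.exp_one_lt_d9
      have h3 : (18 : ℝ) < 1 / s := by
        rw [lt_div_iff₀ h0]
        have := mul_lt_mul_of_pos_left h18 (by norm_num : (0 : ℝ) < 18)
        linarith
      linarith
    have := Real.log_le_log (Real.exp_pos 1) h1
    rwa [Real.log_exp] at this
  have h8 : 0 ≤ Real.log 8 := Real.log_nonneg (by norm_num)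
  have : Real.log 8 ≤ Real.log 8 * Real.log (1 / s) := by
    calc Real.log 8 = Real.log 8 * 1 := (mul_one _).symm
      _ ≤ Real.log 8 * Real.log (1 / s) := mul_le_mul_of_nonneg_left hl1 h8
  nlinarith

/-- **the numerology of (mem)**      OWNER helper204 -/
theorem ch_am_num (π : SfPar) (hv : π.Valid) (t C0 a cK : ℝ) (K : ℕ) (ht : 0 < t) (ha : 0 < a) (ha1 : a ≤ 1)
    (ha4 : a * (33 + 10 * chQx π + 12 * π.Lraw) ≤ t) (hcK : 0 < cK) :
    ∃ s0 : ℝ, 0 < s0 ∧ s0 ≤ 1 / 18 ∧ ∀ (s ε i j R e κ Lt w1 r' f' δ dlk f1 tot q4 : ℝ), 0 < s → s < s0 → 1 / ((K : ℝ) + 1) ≤ ε →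
      0 ≤ i → i < j → j ≤ 1 → 0 ≤ R → R ≤ π.mnum π.Lraw → 0 < e → 0 < κ → 0 ≤ Lt → 0 ≤ w1 →
      Lt * w1 ≤ 4 * s ^ (-(4 * a)) * (s ^ (-a) * (e / κ) * s ^ (-((π.p + π.d) * j))) →
      s ^ (π.u j + a) ≤ r' → s ^ (π.n j + a) ≤ f' → Lt * (r' ^ (3 + π.η) * f' ^ (1 - π.η)) ≤ s ^ (-a) * s ^ (-C0) * s ^ (-((π.p + π.d) * j)) →
      s ^ ((j - i) + 2 * a) ≤ δ → δ ≤ s ^ ((j - i) - 2 * a) → q4 = δ ^ (-(1 / 4 : ℝ)) →
      0 < dlk → dlk ≤ f1 → f1 / dlk ≤ 4 * s ^ (-(5 * a + (K : ℝ) / 2)) →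
      s ^ a * e * s ^ (-(π.d * j)) ≤ tot →
      1 ≤ s ^ (-ε) / 2 ^ (K + 1) - 1 ∧
      cK * chA π s a ^ 5 * (1 + Real.log (chA π s a * f1 / dlk)) ^ (K + 1)
            * Real.sqrt (Lt * (s ^ (-(R * (j - i))) * (3 * s ^ (-(2 * a * π.Lraw)))) * δ ^ (2 - 3 * π.Lraw)
                * (s ^ (-a) * κ * s ^ (π.p * i) * w1 * δ ^ ((3 + π.η) * π.Lraw - π.η)) * (2 * (s ^ (-a) * e * s ^ (-(π.d * i)))))
          + cK * chA π s a ^ 5 * (Lt * (s ^ (-(R * (j - i))) * (3 * s ^ (-(2 * a * π.Lraw)))) * δ ^ (2 - 3 * π.Lraw))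
            * ((((K : ℝ) + 1) * (52 * Real.exp (-((s ^ (-ε) / 2 ^ (K + 1) - 1) ^ 2 / 40)) * q4)) ^ 2 * (s ^ (-a) * e * s ^ (-(π.d * i))))
        ≤ s ^ (-t) * s ^ ((π.mnum π.Lraw - R) / 2 * (j - i)) * tot := by
  have hQ := ch_ah_Q1 π
  have hL := ch_ah_L1 π
  obtain ⟨hη0, hη1⟩ := hv.eta
  obtain ⟨hp1, -⟩ := hv.p1
  obtain ⟨hd0, hd1⟩ := hv.d1
  have hJ := hv.J0
  have hα0 : 0 ≤ 5 + 2 * chQx π + 2 * π.Lraw := by linarith
  have hmn : π.mnum π.Lraw = 2 + π.d - π.p + π.η * (π.Lraw - 1) := by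
    unfold SfPar.mnum
    rw [hv.pd]
    ring
  obtain ⟨s1, hs1, H1⟩ := ch_ab_log (Real.log 8 + ((5 + 2 * chQx π + 2 * π.Lraw) * a + 5 * a + (K : ℝ) / 2)) (320 * cK) a ha K
  obtain ⟨s2, hs2, -, H2⟩ := ch_ab_gauss K K
    (π.mnum π.Lraw / 2 + π.mnum π.Lraw + 5 * (5 + 2 * chQx π + 2 * π.Lraw) + |C0| + (π.p + π.d) + 4 * (π.J + 1) + |π.q - 2 * π.J| + 11 * π.Lraw + 10)
    (2 * (cK * 32 * 3 * (((K : ℝ) + 1) * 52) ^ 2))
  refine ⟨min (min s1 s2) (1 / 18), lt_min (lt_min hs1 hs2) (by norm_num), min_le_right _ _, ?_⟩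
  intro s ε i j R e κ Lt w1 r' f' δ dlk f1 tot q4 hs hss hε hi hij hj hR0 hR he hκ hLt hw1 hLw hr' hf' hLrf hδ1 hδ2 hq4 hdlk hdf hfd htot
  have hss1 : s < s1 := lt_of_lt_of_le hss ((min_le_left _ _).trans (min_le_left _ _))
  have hss2 : s < s2 := lt_of_lt_of_le hss ((min_le_left _ _).trans (min_le_right _ _))
  have hs18 : s < 1 / 18 := lt_of_lt_of_le hss (min_le_right _ _)
  have hsle : s ≤ 1 := by linarith
  have hp : ∀ y : ℝ, 0 < s ^ y := fun y => Real.rpow_pos_of_pos hs y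
  have hδ0 : 0 < δ := lt_of_lt_of_le (hp _) hδ1
  obtain ⟨g1, g2⟩ := H2 s hs hss2 ε hε
  refine ⟨g1, ?_⟩
  have hAdef : chA π s a = 2 * s ^ (-((5 + 2 * chQx π + 2 * π.Lraw) * a)) := rfl
  have hA1 : 1 ≤ chA π s a := ch_ah_A1 π hs hsle ha.le
  obtain ⟨l0, l1⟩ := ch_am_log hs hs18 hAdef hA1 hdlk hdf hfd
  have hlogp : (1 + Real.log (chA π s a * f1 / dlk)) ^ (K + 1)
      ≤ (1 + (Real.log 8 + ((5 + 2 * chQx π + 2 * π.Lraw) * a + 5 * a + (K : ℝ) / 2)) * Real.log (1 / s)) ^ (K + 1) :=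
    pow_le_pow_left₀ l0 l1 _
  have habs := H1 s hs hss1
  have hA5 : chA π s a ^ 5 = 32 * s ^ (-(5 * ((5 + 2 * chQx π + 2 * π.Lraw) * a))) := by
    rw [hAdef, ch_am_pow5 hs]
  have hB0 : 0 ≤ cK * chA π s a ^ 5 * (1 + Real.log (chA π s a * f1 / dlk)) ^ (K + 1) := by
    have : 0 ≤ chA π s a := by linarith
    positivity
  have hB : cK * chA π s a ^ 5 * (1 + Real.log (chA π s a * f1 / dlk)) ^ (K + 1)
      ≤ 1 / 10 * (s ^ (-a) * s ^ (-(5 * ((5 + 2 * chQx π + 2 * π.Lraw) * a)))) := by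
    rw [hA5]
    have h1 : 320 * cK * (1 + Real.log (chA π s a * f1 / dlk)) ^ (K + 1) ≤ s ^ (-a) :=
      le_trans (mul_le_mul_of_nonneg_left hlogp (by positivity)) habs
    have h2 := mul_le_mul_of_nonneg_right h1 (hp (-(5 * ((5 + 2 * chQx π + 2 * π.Lraw) * a)))).le
    calc cK * (32 * s ^ (-(5 * ((5 + 2 * chQx π + 2 * π.Lraw) * a)))) * (1 + Real.log (chA π s a * f1 / dlk)) ^ (K + 1)
        = 1 / 10 * (320 * cK * (1 + Real.log (chA π s a * f1 / dlk)) ^ (K + 1) * s ^ (-(5 * ((5 + 2 * chQx π + 2 * π.Lraw) * a)))) := by ring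
      _ ≤ 1 / 10 * (s ^ (-a) * s ^ (-(5 * ((5 + 2 * chQx π + 2 * π.Lraw) * a)))) :=
          mul_le_mul_of_nonneg_left h2 (by norm_num)
  have htm : a * (15 / 2 + 5 * (5 + 2 * chQx π + 2 * π.Lraw) + π.Lraw + π.η * (π.Lraw - 1)) ≤ t := by
    refine le_trans (mul_le_mul_of_nonneg_left ?_ ha.le) ha4
    have : π.η * (π.Lraw - 1) ≤ 1 * (π.Lraw - 1) := mul_le_mul_of_nonneg_right hη1.le (by linarith)
    linarith
  have hmain := ch_am_main (R := R) (w1 := w1) (Lt := Lt) hs hsle he hκ (rfl : j - i = j - i) hδ0 hδ2 hL hη0.le hLw htot hB0 hB htm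
  have hu0 : 0 ≤ π.u j := mul_nonneg hJ (by linarith)
  have hu1 : π.u j ≤ π.J := by
    have : π.J * (1 - j) ≤ π.J * 1 := mul_le_mul_of_nonneg_left (by linarith) hJ
    calc π.u j = π.J * (1 - j) := rfl
      _ ≤ π.J := by linarith
  have hn : |π.n j| ≤ |π.q - 2 * π.J| := by
    have e1 : π.n j = (π.q - 2 * π.J) * (j - 1) := rfl
    rw [e1, abs_mul]
    have : |j - 1| ≤ 1 := by
      rw [abs_le]
      constructor <;> linarith
    calc |π.q - 2 * π.J| * |j - 1| ≤ |π.q - 2 * π.J| * 1 := mul_le_mul_of_nonneg_left this (abs_nonneg _)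
      _ = |π.q - 2 * π.J| := mul_one _
  have herr := ch_am_err (Kr := (K : ℝ) + 1) (cK := cK) hs hsle ha ha1 ht he (rfl : j - i = j - i) hi hij hj hR0 hR hLt hr' hf' hLrf hδ1 hq4 htot
    hη0 hη1 hL (by linarith) hd0.le hd1 hu0 hu1 hn hcK.le hα0 (Real.exp_pos _).le g2 (le_refl _)
  rw [← hAdef] at herr
  rw [← hmn] at hmain
  linarith

end Claimed.Agent.R256
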