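import Claimed.Agent.R256.Chan.AdhDoc

/-!
# Row 256 (LS paper), CHAN, unit ADH, TOP GLUE, file 1          (co-architect helper169; prefix `ch_ax_`)

* `ch_ax_twoD`     `Core + AffP ⟹ ChTwoD` at two gates
* `ch_ax_mem_of`   `Mem` from its restriction to `0 ≤ R ≤ mnum`: for `R < 0` the lists are empty, for `R ≥ mnum` the bound is `≥ 1`
-/

set_option autoImplicit false

namespace Claimed.Agent.R256

open Claimed.Agent.R255

theorem ch_ax_twoD (D : SfDoc) (π : SfPar) (C0 a i j : ℝ) (hC : D.Core π C0 a) (hA : D.AffP π a) (hi : i ∈ D.G) (hj : j ∈ D.G) (hij : i < j) :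
    ChTwoD D π C0 a i j where
  ij := hij
  i0 := (hC.gate.2 i hi).1
  j1 := (hC.gate.2 j hj).2
  bddi := fun ρ => (hC.bdd i hi ρ).2
  bddj := fun ρ => (hC.bdd j hj ρ).2
  tmi := fun ρ => by
    obtain ⟨-, -, -, h1, h2⟩ := hC.own i hi ρ
    have h3 : 0 < D.len i := lt_of_lt_of_le (Real.rpow_pos_of_pos hC.hs.1 _) (hC.hlen.2 i hi).1
    exact ⟨h1, by linarith⟩
  tmj := fun ρ => by
    obtain ⟨-, -, -, h1, h2⟩ := hC.own j hj ρ
    have h3 : 0 < D.len j := lt_of_lt_of_le (Real.rpow_pos_of_pos hC.hs.1 _) (hC.hlen.2 j hj).1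
    exact ⟨h1, by linarith⟩
  base := fun ρ ρ' h => by
    obtain ⟨h1, h2, -, h4⟩ := hC.base i hi j hj hij ρ ρ' h
    have h3 : 0 < D.len j := lt_of_lt_of_le (Real.rpow_pos_of_pos hC.hs.1 _) (hC.hlen.2 j hj).1
    exact ⟨h1, by linarith, h4⟩
  hek := hC.hek.2
  hr := hA.hr j hj
  hf := hA.hf j hj
  cmpA := fun ρ ρ' h => hA.cmpA i hi j hj hij ρ ρ' h
  cmpB := fun ρ => hA.cmpB j hj ρ
  linP := fun h0 ρ ρ' h => (hA.linP h0).1 i hi j hj hij ρ ρ' h

/-- **reduction of `Mem` to the range `0 ≤ R`, `(mnum - R)/2 (j - i) > t`** -/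
theorem ch_ax_mem_of (D : SfDoc) (π : SfPar) (t : ℝ) (hs : 0 < D.s ∧ D.s < 1)
    (H : ∀ i ∈ D.G, ∀ j ∈ D.G, 0 < i → i < j → ∀ (R : ℝ) (c : SfTest → Finset ℝ), 0 ≤ R → t < (π.mnum π.Lraw - R) / 2 * (j - i) →
      (∀ lam, ((c lam).card : ℝ) ≤ D.s ^ (-(R * (j - i)))) →
      (D.P j).pr (fun ρ => ∃ x ∈ c (D.lab j ρ), |(D.ray j ρ).X - x| ≤ D.r j * D.s ^ (π.Lraw * (j - i)))
        ≤ D.s ^ (-t) * D.s ^ ((π.mnum π.Lraw - R) / 2 * (j - i))) : D.Mem π t := by
  classical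
  intro i hi j hj h0 hij R c hc
  obtain ⟨hs0, hs1⟩ := hs
  have hpos : 0 < D.s ^ (-t) * D.s ^ ((π.mnum π.Lraw - R) / 2 * (j - i)) := by positivity
  by_cases hR : 0 ≤ R
  · by_cases ht : t < (π.mnum π.Lraw - R) / 2 * (j - i)
    · exact H i hi j hj h0 hij R c hR ht hc
    · -- the bound is at least one
      have h1 : (D.P j).pr (fun ρ => ∃ x ∈ c (D.lab j ρ), |(D.ray j ρ).X - x| ≤ D.r j * D.s ^ (π.Lraw * (j - i))) ≤ 1 := by
        unfold FLaw.pr
        calc _ ≤ ∑ ω, (D.P j).p ω := Finset.sum_le_sum (fun ω _ => by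
              split_ifs
              · exact le_refl _
              · exact (D.P j).nonneg ω)
          _ = 1 := (D.P j).sum_one
      refine h1.trans ?_
      rw [← Real.rpow_add hs0]
      exact Real.one_le_rpow_of_pos_of_le_one_of_nonpos hs0 hs1.le (by linarith)
  · -- empty lists
    have hlt : D.s ^ (-(R * (j - i))) < 1 := by
      refine Real.rpow_lt_one hs0.le hs1 ?_
      have : R * (j - i) < 0 := mul_neg_of_neg_of_pos (not_le.mp hR) (by linarith)
      linarith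
    have hemp : ∀ lam, c lam = ∅ := by
      intro lam
      have h2 : ((c lam).card : ℝ) < 1 := lt_of_le_of_lt (hc lam) hlt
      have h3 : (c lam).card = 0 := by
        have : (c lam).card < 1 := by exact_mod_cast h2
        omega
      exact Finset.card_eq_zero.mp h3
    have h0' : (D.P j).pr (fun ρ => ∃ x ∈ c (D.lab j ρ), |(D.ray j ρ).X - x| ≤ D.r j * D.s ^ (π.Lraw * (j - i))) = 0 := by
      unfold FLaw.pr
      refine Finset.sum_eq_zero (fun ω _ => ?_)
      rw [if_neg]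
      rintro ⟨x, hx, -⟩
      rw [hemp] at hx
      exact absurd hx (Finset.notMem_empty x)
    rw [h0']
    exact hpos.le

end Claimed.Agent.R256
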