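import Claimed.Agent.R256.Chan.AdhTwo
import Claimed.Agent.R256.Chan.AdxTop
import Claimed.Agent.R256.Soft.Exit

/-!
# Row 256 (LS paper), CHAN, unit ADH, file 12: THE EXIT          (architect helper218; prefix `ch_ar_`)

* `ch_ar_twoD`, `ch_ar_twoM`   `Core + AffP ⟹ ChTwoD`, `Ext ⟹ ChTwoM`
* `ch_ar_main`                 (mem) on the affine shadows of the hybrid cylinder, all hypotheses explicit
-/

set_option autoImplicit false

namespace Claimed.Agent.R256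

open Claimed.Agent.R255

/-- `Core + AffP ⟹ ChTwoD` (the exponents of `Core` play no role) -/
theorem ch_ar_twoD (D : SfDoc) (π0 π : SfPar) (C0 a i j : ℝ) (hC : D.Core π0 C0 a) (hA : D.AffP π a) (hi : i ∈ D.G) (hj : j ∈ D.G) (hij : i < j) :
    ChTwoD D π C0 a i j where
  ij := hij
  i0 := (hC.gate.2 i hi).1
  j1 := (hC.gate.2 j hj).2
  bddi := fun ρ => (hC.bdd i hi ρ).2
  bddj := fun ρ => (hC.bdd j hj ρ).2
  tmi := fun ρ => by
    obtain ⟨-, -, -, h1, h2⟩ := hC.own i hi ρ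
    have h3 : 0 < D.len i := lt_of_lt_of_le (Real.rpow_pos_of_pos hC.hs.1 _) (hC.hlen.2 i hi).1
    exact ⟨h1, by linarith⟩
  tmj := fun ρ => by
    obtain ⟨-, -, -, h1, h2⟩ := hC.own j hj ρ
    have h3 : 0 < D.len j := lt_of_lt_of_le (Real.rpow_pos_of_pos hC.hs.1 _) (hC.hlen.2 j hj).1
    exact ⟨h1, by linarith⟩
  base := fun ρ ρ' h => by
    obtain ⟨h1, h2, -, h4⟩ := hC.base i hi j hj hij ρ ρ' h
    have h3 : 0 < D.len j := lt_of_lt_of_le (Real.rpow_pos_of_pos hC.hs.1 _) (hC.hlen.2 j hj).1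
    exact ⟨h1, by linarith, h4⟩
  hek := hC.hek.2
  hr := hA.hr j hj
  hf := hA.hf j hj
  cmpA := fun ρ ρ' h => hA.cmpA i hi j hj hij ρ ρ' h
  cmpB := fun ρ => hA.cmpB j hj ρ
  linP := fun h0 ρ ρ' h => (hA.linP h0).1 i hi j hj hij ρ ρ' h

/-- `Ext ⟹ ChTwoM` -/
theorem ch_ar_twoM (η : ℝ) (p : ChyPar) (W : SfMD (p.sys η)) (π : SfPar) (pe de Ls ε a i j : ℝ) (hp : π.p = pe) (hd : π.d = de)
    (hX : SfMD.Ext (sfHy η) p W pe de Ls ε a) (hi : i ∈ W.G) (hj : j ∈ W.G) : ChTwoM η p W π a i j where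
  gi := hi
  gj := hj
  depi := hX.depth i hi
  depj := hX.depth j hj
  cnt := by rw [hp, hd]; exact hX.cnt j hj
  en := by rw [hd]; exact hX.en i hi
  reg := by rw [hp]; exact hX.reg i hi
  read := by rw [hd]; exact hX.read j hj

/-- **(mem) on the affine shadows of the hybrid cylinder** -/
theorem ch_ar_main (η : ℝ) (π : SfPar) (Ls : ℝ) (π' : SfPar) (hs : π'.Same π) (hv : π'.Valid) (hη : π.η = η) (hhy : π.hyb = true) (t C0 : ℝ) (ht : 0 < t) :
    ∃ a : ℝ, 0 < a ∧ ∀ C : ℕ, ∃ s0 : ℝ, 0 < s0 ∧ ∀ c : SfCfg (sfHy η) π.d, c.ob C → 1 / ((C : ℝ) + 1) ≤ c.ε → c.D.s < s0 →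
      c.D.Core π C0 a → SfMD.Ext (sfHy η) c.p c.W π.p π.d Ls c.ε a → 1 / a ≤ c.μ → c.D.AffP π' a → nmX π' c.D t := by
  obtain ⟨e1, e2, e3, e4, e5⟩ := hs
  have hη' : π'.η = η := e1.trans hη
  have hhy' : π'.hyb = true := e5.trans hhy
  have hη0 : 0 < η := by rw [← hη']; exact hv.eta.1
  have hη1 : η < 1 := by rw [← hη']; exact hv.eta.2
  have hL := ch_ah_L1 π'
  have hQ := ch_ah_Q1 π'
  have hJ0 := hv.J0
  set M : ℝ := |C0| + |π'.q - π'.J| + π'.J + π'.Lraw + 2 with hM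
  have hM0 : 0 < M := by positivity
  set N : ℝ := 33 + 10 * chQx π' + 12 * π'.Lraw with hN
  have hN0 : 0 < N := by positivity
  set a : ℝ := min 1 (min (1 / M) (t / N)) with ha
  have ha0 : 0 < a := lt_min one_pos (lt_min (by positivity) (by positivity))
  have ha1 : a ≤ 1 := min_le_left _ _
  have haM : a ≤ 1 / M := (min_le_right _ _).trans (min_le_left _ _)
  have haN : a ≤ t / N := (min_le_right _ _).trans (min_le_right _ _)
  have hMa : M ≤ 1 / a := by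
    rw [le_div_iff₀ ha0]
    have := mul_le_mul_of_nonneg_left haM hM0.le
    rwa [mul_one_div_cancel hM0.ne'] at this
  have h4 : a * N ≤ t := by rwa [le_div_iff₀ hN0] at haN
  have hJ : π'.J + π'.Lraw + 1 ≤ 1 / a := by
    have := abs_nonneg C0; have := abs_nonneg (π'.q - π'.J); linarith
  have hC : C0 + |π'.q - π'.J| + 1 ≤ 1 / a := by
    have := le_abs_self C0; linarith
  refine ⟨a, ha0, fun C => ?_⟩
  obtain ⟨s0, hs0, H⟩ := ch_at_two η hη0 hη1 π' hv hη' hhy' t C0 a ht ha0 ha1 hJ hC h4 C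
  refine ⟨s0, hs0, fun c hob hε hss hcore hX hμ haf => ⟨?_, fun hf => absurd hf (by rw [hhy']; simp)⟩⟩
  obtain ⟨hlen, ⟨hpOk, -, hH, -⟩, hStr, -, -⟩ := hob
  refine ch_ax_mem_of c.D π' t hcore.hs (fun i hi j hj _ hij R cl hR0 hRt hcl => ?_)
  have hG : c.D.G = c.W.G := c.sh.hG
  have hR : R ≤ π'.mnum π'.Lraw := by
    by_contra hlt
    have h1 : (π'.mnum π'.Lraw - R) / 2 * (j - i) ≤ 0 := mul_nonpos_of_nonpos_of_nonneg (by linarith [not_le.1 hlt]) (by linarith)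
    linarith
  exact H c.p hpOk c.W hStr hlen hH c.ε c.μ c.D hε hμ (chShdOf η c.p c.W π.d c.ε c.μ c.D c.sh) i j
    (ch_ar_twoD c.D π π' C0 a i j hcore haf hi hj hij)
    (ch_ar_twoM η c.p c.W π' π.p π.d Ls c.ε a i j e3 e4 hX (hG ▸ hi) (hG ▸ hj)) hcore.hs.1 hss R cl hR0 hR hcl

end Claimed.Agent.R256
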