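import Claimed.Agent.R256.Chan.Contract
import Claimed.Agent.R256.Soft.Model
import Claimed.Agent.R256.Gen.BasC
import Claimed.Agent.R256.Hyb.Contract

/-!
# Row 256 (LS paper), CHAN, unit ADH, file 1: THE SEGMENT EXPERIMENTS OF A DOCUMENTED EXPERIMENT          (architect helper218; prefix `ch_ag_`)

`W : SfMD P`, gates `i < j`, `m` = an interval of the depth `W.k i`.
* `W.lbs i j m`        the labels of the gate `j` below `m`
* `W.seg i j m e ka`   the experiment with root `(W.k i, m)`, root state `W.pre i m`, stages = the stages of `W.E` from the gate `i` (included) to the gate `j` (excluded), labels `W.lbs i j m`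
* `ch_ag_valid`, `ch_ag_fin`   it is valid; its final states are the states `W.pre j`
* `ch_ag_seg`          `ch_mem_hyb` for the segment, in the language of `W`
-/

set_option autoImplicit false

namespace Claimed.Agent.R256

open MeasureTheory

namespace SfMD

variable {P : PkSys} (W : SfMD P)

/-- the labels of the gate `j` below the interval `m` of the gate `i` -/
noncomputable def lbs (i j : ℝ) (m : ℕ) : Finset (W.Lb j) :=
  open Classical in Finset.univ.filter fun l => ancI (W.k j) (W.k i) (W.iv j l) = m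

/-- the segment experiment -/
noncomputable def seg (i j : ℝ) (m : ℕ) (e ka : ℝ) : Xp P where
  k0 := W.k i
  i0 := m
  n := W.k j - W.k i
  v := W.pre i m
  e := e
  ka := ka
  b0 := W.gb i
  st := (W.E.st.take (W.pos j)).drop (W.pos i)
  bT := W.gb j
  L := (W.lbs i j m).card
  iv := fun a => W.iv j ((W.lbs i j m).equivFin.symm a).1
  ts := fun a => W.ts j ((W.lbs i j m).equivFin.symm a).1
  th := fun a => W.th j ((W.lbs i j m).equivFin.symm a).1

end SfMD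

theorem ch_ag_eqns_cite : True := by
  have := @SfMD.lbs.eq_1
  have := @SfMD.seg.eq_1
  trivial

section

variable {P : PkSys} (W : SfMD P)

theorem ch_ag_mem_lbs (i j : ℝ) (m : ℕ) (l : W.Lb j) : l ∈ W.lbs i j m ↔ ancI (W.k j) (W.k i) (W.iv j l) = m := by
  unfold SfMD.lbs
  simp

/-- sums over the labels of the segment -/
theorem ch_ag_sum (i j : ℝ) (m : ℕ) (f : W.Lb j → ℝ) :
    ∑ a : Fin (W.lbs i j m).card, f ((W.lbs i j m).equivFin.symm a).1 = ∑ l ∈ W.lbs i j m, f l := by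
  rw [Equiv.sum_comp (W.lbs i j m).equivFin.symm (fun l : W.lbs i j m => f l.1)]
  exact Finset.sum_coe_sort (W.lbs i j m) f

theorem ch_ag_pw {α : Type} {R : α → α → Prop} {l : List α} (h : l.Pairwise R) {a : ℕ} {y : α} (hy : l[a]? = some y) {x : α} (hx : x ∈ l.take a) :
    R x y := by
  obtain ⟨ha, rfl⟩ := List.getElem?_eq_some_iff.1 hy
  have h1 : l.take a ++ l.drop a = l := List.take_append_drop a l
  rw [← h1] at h
  refine (List.pairwise_append.1 h).2.2 x hx _ ?_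
  rw [List.drop_eq_getElem_cons ha]
  exact List.mem_cons_self

/-- the stages before a gate are not deeper than the gate -/
theorem ch_ag_dep_le (tq : P.Tst → CyT) (h : W.Str tq) {g : ℝ} (hg : g ∈ W.G) {σ : Stg P} (hσ : σ ∈ W.E.st.take (W.pos g)) : σ.k ≤ W.k g := by
  rcases lt_or_eq_of_le (h.gate.2 g hg).2 with h1 | h1
  · obtain ⟨σg, e1, e2, -, -⟩ := h.stage g hg h1
    rw [← e2]
    exact ch_ag_pw h.valid.st_mono e1 hσ
  · rw [h1, h.k_one.1]
    exact (h.valid.st_dep σ (List.mem_of_mem_take hσ)).2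

theorem ch_ag_kf (tq : P.Tst → CyT) (h : W.Str tq) {i j : ℝ} (hi : i ∈ W.G) (hj : j ∈ W.G) (hij : i < j) (m : ℕ) (e ka : ℝ) :
    (W.seg i j m e ka).kf = W.k j :=
  Nat.add_sub_of_le (h.k_mono i hi j hj hij).1

/-- the final states of the segment are the states entering the gate `j` -/
theorem ch_ag_run (tq : P.Tst → CyT) (h : W.Str tq) {i j : ℝ} (hi : i ∈ W.G) (hj : j ∈ W.G) (hij : i < j) (i' : ℕ) :
    Xp.run (W.k j) i' ((W.E.st.take (W.pos j)).drop (W.pos i)) (W.pre i (ancI (W.k j) (W.k i) i')) = W.pre j i' := by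
  obtain ⟨hk, hp⟩ := h.k_mono i hi j hj hij
  unfold SfMD.pre
  have e1 : W.E.st.take (W.pos j) = W.E.st.take (W.pos i) ++ (W.E.st.take (W.pos j)).drop (W.pos i) := by
    have := (List.take_append_drop (W.pos i) (W.E.st.take (W.pos j))).symm
    rwa [List.take_take, min_eq_left hp.le] at this
  conv_rhs => rw [e1]
  rw [gn_run_append, gn_run_anc hk i' _ (fun σ hσ => ch_ag_dep_le W tq h hi hσ)]

theorem ch_ag_valid (hT : P.Tight) (tq : P.Tst → CyT) (h : W.Str tq) {i j : ℝ} (hi : i ∈ W.G) (hj : j ∈ W.G) (hij : i < j) (m : ℕ) (e ka : ℝ)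
    (σ0 : Stg P) (rest : List (Stg P)) (hst : (W.E.st.take (W.pos j)).drop (W.pos i) = σ0 :: rest) (hσ0 : σ0.k = W.k i)
    (he : 0 < e) (hka : 0 < ka) (hb : ‖W.pre i m‖ ^ 2 ≤ e) (hpl : W.pre i m ∈ P.Pl (W.gb i))
    (hreg : P.Reg (tmL (W.k i) m) (W.k i) (W.gb i) ka (W.pre i m)) : (W.seg i j m e ka).Valid := by
  have hkf := ch_ag_kf W tq h hi hj hij m e ka
  have hsub : ((W.E.st.take (W.pos j)).drop (W.pos i)).Sublist W.E.st := (List.drop_sublist _ _).trans (List.take_sublist _ _)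
  have hpw : ((W.E.st.take (W.pos j)).drop (W.pos i)).Pairwise fun σ σ' => σ.k ≤ σ'.k := h.valid.st_mono.sublist hsub
  have hmem : ∀ a : Fin (W.lbs i j m).card, ancI (W.k j) (W.k i) (W.iv j ((W.lbs i j m).equivFin.symm a).1) = m := fun a =>
    (ch_ag_mem_lbs W i j m _).1 ((W.lbs i j m).equivFin.symm a).2
  refine ⟨he, hka, hb, hpl, hreg, ?_, hpw, ?_, ?_, ?_, ?_, ?_, ?_, ?_, ?_, ?_⟩
  · intro σ hσ
    have hσ' : σ ∈ (W.E.st.take (W.pos j)).drop (W.pos i) := hσ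
    refine ⟨?_, ?_⟩
    · show W.k i ≤ σ.k
      rw [hst] at hpw hσ'
      rw [List.pairwise_cons] at hpw
      rcases List.mem_cons.1 hσ' with rfl | h2
      · exact hσ0.ge
      · rw [← hσ0]; exact hpw.1 σ h2
    · rw [hkf]
      exact ch_ag_dep_le W tq h hj (List.mem_of_mem_drop hσ')
  · intro σ hσ
    exact h.valid.st_meas σ (hsub.subset hσ)
  · intro σ hσ
    exact h.valid.st_bd σ (hsub.subset hσ)
  · intro a
    rw [hkf]
    exact hmem a
  · intro a
    rw [hkf]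
    exact h.ok j hj _
  · intro a
    exact hT.wt_pos _ _ (h.ok j hj ((W.lbs i j m).equivFin.symm a).1)
  · intro a
    exact h.meas j hj _
  · intro a x
    exact h.nn j hj _ x
  · intro a x hx
    rw [hkf]
    exact h.supp j hj _ x hx
  · intro i' x
    have e1 := ch_ag_sum W i j m (fun l => if W.iv j l = i' then W.th j l x else 0)
    have e2 : ∑ l ∈ W.lbs i j m, (if W.iv j l = i' then W.th j l x else 0) ≤ ∑ l, (if W.iv j l = i' then W.th j l x else 0) := by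
      refine Finset.sum_le_sum_of_subset_of_nonneg (Finset.subset_univ _) (fun l _ _ => ?_)
      split_ifs
      · exact h.nn j hj l x
      · exact le_refl 0
    exact (e1.le.trans e2).trans (h.sum_le j hj i' x)

end

/-- **`ch_mem_hyb` for one segment of a documented experiment** -/
theorem ch_ag_seg (η : ℝ) (hη0 : 0 < η) (hη1 : η < 1) (K : ℕ) :
    ∃ C : ℝ, 0 < C ∧ ∀ (p : ChyPar), p.Ok → ∀ (W : SfMD (p.sys η)), W.Str (fun Q => Q) → ∀ i ∈ W.G, ∀ j ∈ W.G, i < j → ∀ (m : ℕ) (e ka : ℝ)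
      (σ0 : Stg (p.sys η)) (rest : List (Stg (p.sys η))), (W.E.st.take (W.pos j)).drop (W.pos i) = σ0 :: rest → σ0.k = W.k i → rest.length ≤ K →
      0 < e → 0 < ka → ‖W.pre i m‖ ^ 2 ≤ e → (p.sys η).Reg (tmL (W.k i) m) (W.k i) (W.gb i) ka (W.pre i m) →
      ∀ (r1 f1 A Lm Qx Rn ν : ℝ), 0 < r1 → p.dl (W.k j) ≤ f1 → 1 ≤ A → 1 ≤ Lm → 1 + Qx ≤ 2 * Lm → 0 ≤ ν →
      ∀ (be0 K0 P0 : p.Om × ℝ × ℝ → ℝ), Measurable be0 → Measurable K0 → Measurable P0 →
      ∀ (Q : W.Lb j → CyT) (lst : W.Lb j → Finset ℝ),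
      (∀ l x, W.th j l x ≠ 0 → cyIn (Q l) ((2 : ℝ)⁻¹ ^ W.k j) (p.co (W.T j l) x)) → (∀ l, (Q l).r = r1 ∧ (Q l).f = f1) → (∀ l, ((lst l).card : ℝ) ≤ Rn) →
      (∀ l ∈ W.lbs i j m, ∀ (S' : Set (p.Om × ℝ × ℝ)), MeasurableSet S' →
        (∀ x ∈ S', ¬ chNear A Lm Qx ((2 : ℝ)⁻¹ ^ (W.k j - W.k i)) ((2 : ℝ)⁻¹ ^ W.k i) r1 f1 (W.T j l - tmL (W.k i) m) (be0 x) (K0 x) (P0 x)
          (p.X x.1) (p.B x.1 + W.T j l * p.X x.1) (Q l)) →
        (p.sys η).en (W.T j l) (W.k j) (W.gb j) (W.th j l)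
          (Xp.run (W.k j) (W.iv j l) rest ((p.sys η).tz (tmL (W.k i) m) (W.k i) σ0.b (fun x => σ0.M m x * S'.indicator (fun _ => (1 : ℝ)) x) (W.pre i m))) ≤ ν) →
      ∑ l ∈ W.lbs i j m, (p.sys η).en (W.T j l) (W.k j) (W.gb j)
          (fun x => W.th j l x * ({x : p.Om × ℝ × ℝ | ∃ c ∈ lst l, |p.X x.1 - c| ≤ r1 * ((2 : ℝ)⁻¹ ^ (W.k j - W.k i)) ^ Lm}).indicator (fun _ => (1 : ℝ)) x)
          (W.pre j (W.iv j l))
        ≤ C * A ^ 5 * (1 + Real.log (A * f1 / p.dl (W.k j))) ^ (K + 1)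
            * Real.sqrt (((W.lbs i j m).card : ℝ) * Rn * ((2 : ℝ)⁻¹ ^ (W.k j - W.k i)) ^ (2 - 3 * Lm)
                * (ka * (r1 ^ (3 + η) * f1 ^ (1 - η)) * ((2 : ℝ)⁻¹ ^ (W.k j - W.k i)) ^ ((3 + η) * Lm - η)) * e)
          + C * A ^ 5 * (((W.lbs i j m).card : ℝ) * Rn * ((2 : ℝ)⁻¹ ^ (W.k j - W.k i)) ^ (2 - 3 * Lm)) * ν := by
  obtain ⟨C, hC, H⟩ := ch_mem_hyb η hη0 hη1 K
  refine ⟨C, hC, ?_⟩
  intro p hp W hW i hi j hj hij m e ka σ0 rest hst hσ0 hlen he hka hb hreg r1 f1 A Lm Qx Rn ν hr1 hf1 hA hLm hML hν be0 K0 P0 mbe mK mP Q lst hin hwid hcard hnu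
  have hT := hy_tight η p hp
  have hpl : W.pre i m ∈ (p.sys η).Pl (W.gb i) := fun T k => hy_an_norm p hp T k _
  have hV := ch_ag_valid W hT (fun Q => Q) hW hi hj hij m e ka σ0 rest hst hσ0 he hka hb hpl hreg
  have hkf := ch_ag_kf W (fun Q => Q) hW hi hj hij m e ka
  have hmem : ∀ a : Fin (W.lbs i j m).card, ((W.lbs i j m).equivFin.symm a).1 ∈ W.lbs i j m := fun a => ((W.lbs i j m).equivFin.symm a).2
  have hfin : ∀ a : Fin (W.lbs i j m).card, (W.seg i j m e ka).fin (W.iv j ((W.lbs i j m).equivFin.symm a).1) = W.pre j (W.iv j ((W.lbs i j m).equivFin.symm a).1) := by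
    intro a
    have h1 := ch_ag_run W (fun Q => Q) hW hi hj hij (W.iv j ((W.lbs i j m).equivFin.symm a).1)
    rw [(ch_ag_mem_lbs W i j m _).1 (hmem a)] at h1
    rw [← h1]
    unfold Xp.fin
    rw [hkf]
    rfl
  have h1 := H p hp (W.seg i j m e ka) hV σ0 rest hst hσ0 hlen r1 f1 A Lm Qx Rn ν hr1 (by rw [hkf]; exact hf1) hA hLm hML hν be0 K0 P0 mbe mK mP
    (fun a => Q ((W.lbs i j m).equivFin.symm a).1) (fun a => lst ((W.lbs i j m).equivFin.symm a).1)
    (by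
      intro a x hx
      rw [hkf]
      exact hin _ x hx)
    (fun a => hwid _) (fun a => hcard _)
    (by
      intro a S' hS' hno
      rw [hkf] at hno ⊢
      exact hnu _ (hmem a) S' hS' hno)
  rw [hkf] at h1
  rw [← ch_ag_sum W i j m (fun l => (p.sys η).en (W.T j l) (W.k j) (W.gb j)
          (fun x => W.th j l x * ({x : p.Om × ℝ × ℝ | ∃ c ∈ lst l, |p.X x.1 - c| ≤ r1 * ((2 : ℝ)⁻¹ ^ (W.k j - W.k i)) ^ Lm}).indicator (fun _ => (1 : ℝ)) x)
          (W.pre j (W.iv j l)))]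
  refine le_trans (le_of_eq ?_) h1
  refine Finset.sum_congr rfl (fun a _ => ?_)
  rw [← hfin a]
  rfl

end Claimed.Agent.R256
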