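import Claimed.Agent.R256.Chan.AdhLaw
import Claimed.Agent.R256.Chan.AdhGeo
import Claimed.Agent.R256.Chan.AdhDoc

/-!
# Row 256 (LS paper), CHAN, unit ADH, file 8: THE SHADOW SIDE          (architect helper218; prefix `ch_as_`)

* `ChShd η p W ε μ D`   what ADH uses of a shadow `SfSh (sfHy η) p W de ε μ D`, in the language of `ChyPar`;   `chShdOf` = the conversion (the ONLY place which sees `SfSh`)
* `ch_as_hits`          lists of angular cells: frame -> absolute units, re-covered by cells of the half width `h`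
* `ch_as_near_q`, `ch_as_near_l`   (NEAR) of `ch_ad_asm` on atoms
* `ch_as_lin_in`        the linearised end tests enclose the documented tests
-/

set_option autoImplicit false

namespace Claimed.Agent.R256

open MeasureTheory Claimed.Agent.R255

/-- the frame of a documented experiment -/
noncomputable def SfMD.frH {P : PkSys} (W : SfMD P) : SfFrame := sfFrameOf (tmL W.E.k0 W.E.i0) ((2 : ℝ)⁻¹ ^ W.E.k0) W.Q0

/-- what ADH uses of a hybrid shadow -/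
structure ChShd (η : ℝ) (p : ChyPar) (W : SfMD (p.sys η)) (ε μ : ℝ) (D : SfDoc) where
  lb : ∀ g, D.Row g → W.Lb g
  atm : ∀ g, D.Row g → Set (p.Om × ℝ × ℝ)
  hs : D.s = W.E.s
  hlen : ∀ g ∈ W.G, D.len g = (2 : ℝ)⁻¹ ^ (W.k g - W.E.k0)
  hr : ∀ g ∈ W.G, D.r g = W.r g / W.Q0.r
  hf : ∀ g ∈ W.G, D.f g = W.f g / W.Q0.f
  hek : D.ek = W.E.e / (W.E.ka * cyWt η W.Q0)
  at_meas : ∀ g ∈ W.G, ∀ ρ, MeasurableSet (atm g ρ)
  at_disj : ∀ g ∈ W.G, ∀ ρ ρ', lb g ρ = lb g ρ' → ρ ≠ ρ' → Disjoint (atm g ρ) (atm g ρ')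
  cov : ∀ g ∈ W.G, ∀ l x, W.th g l x ≠ 0 ↔ ∃ ρ, lb g ρ = l ∧ x ∈ atm g ρ
  law : ∀ g ∈ W.G, ∀ ρ, (D.P g).p ρ * W.tot g =
    (p.sys η).en (W.T g (lb g ρ)) (W.k g) (W.gb g) ((atm g ρ).indicator (W.th g (lb g ρ))) (W.pre g (W.iv g (lb g ρ)))
  hlab : ∀ g ∈ W.G, ∀ ρ, D.lab g ρ = W.frH.tst (sfTestAt (W.T g (lb g ρ)) (W.ts g (lb g ρ)))
  small : ∀ g ∈ W.G, ∀ ρ, ∀ x ∈ atm g ρ, (W.frH.ray (sfRayAt (W.T g (lb g ρ)) (p.co (W.T g (lb g ρ)) x))).dist (D.ray g ρ) ≤ W.E.s ^ μ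
  conn : ∀ i ∈ W.G, ∀ j ∈ W.G, ∀ ρ ρ', Relation.TransGen (chLk η p W D.Row lb atm (W.E.s ^ (-ε))) ⟨i, ρ⟩ ⟨j, ρ'⟩ → D.Conn i j ρ ρ'

/-- the conversion -/
def chShdOf (η : ℝ) (p : ChyPar) (W : SfMD (p.sys η)) (de ε μ : ℝ) (D : SfDoc) (sh : SfSh (sfHy η) p W de ε μ D) : ChShd η p W ε μ D where
  lb := sh.lb
  atm := sh.atm
  hs := sh.hs
  hlen := sh.hlen
  hr := sh.hr
  hf := sh.hf
  hek := sh.hek
  at_meas := sh.at_meas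
  at_disj := sh.at_disj
  cov := fun g hg l x =>
    ⟨fun h => (sh.at_cov g hg l x).1 ⟨h, fun hh => absurd hh (by simp [sfHy])⟩, fun h => ((sh.at_cov g hg l x).2 h).1⟩
  law := sh.law
  hlab := sh.hlab
  small := sh.small
  conn := fun i hi j hj ρ ρ' h => (sh.conn i hi j hj ρ ρ').2 h

theorem ch_as_eqns_cite : True := by
  have := @SfMD.frH.eq_1
  have := @chShdOf.eq_1
  trivial

theorem ch_as_fr_pos {P : PkSys} (W : SfMD P) (hr : 0 < W.Q0.r) (hf : 0 < W.Q0.f) : W.frH.Pos :=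
  ⟨by show (0 : ℝ) < (2 : ℝ)⁻¹ ^ W.E.k0; positivity, hr, hf⟩

section

variable {η : ℝ} {p : ChyPar} {W : SfMD (p.sys η)} {ε μ : ℝ} {D : SfDoc} (sh : ChShd η p W ε μ D)

/-- **lists of angular cells**: frame -> absolute units -/
theorem ch_as_hits {j : ℝ} (hj : j ∈ W.G) (hQr : 0 < W.Q0.r) (cl : SfTest → Finset ℝ) (Rn w h wd : ℝ) (hh : 0 < h) (hw : 0 ≤ w)
    (hcl : ∀ lam, ((cl lam).card : ℝ) ≤ Rn) (hwd : W.Q0.r * (wd + W.E.s ^ μ) ≤ w) :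
    ∃ lst : W.Lb j → Finset ℝ, (∀ l, ((lst l).card : ℝ) ≤ Rn * (w / h + 1)) ∧
      ∀ ρ, (∃ x ∈ cl (D.lab j ρ), |(D.ray j ρ).X - x| ≤ wd) → sh.atm j ρ ⊆ {x : p.Om × ℝ × ℝ | ∃ c ∈ lst (sh.lb j ρ), |p.X x.1 - c| ≤ h} := by
  classical
  choose F hF1 hF2 using fun y : ℝ => ch_al_cover y w h hh hw
  refine ⟨fun l => (cl (W.frH.tst (sfTestAt (W.T j l) (W.ts j l)))).biUnion (fun xc => F (W.Q0.x + W.Q0.r * xc)), fun l => ?_, fun ρ hρ x hx => ?_⟩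
  · have h1 : (((cl (W.frH.tst (sfTestAt (W.T j l) (W.ts j l)))).biUnion (fun xc => F (W.Q0.x + W.Q0.r * xc))).card : ℝ)
        ≤ ∑ xc ∈ cl (W.frH.tst (sfTestAt (W.T j l) (W.ts j l))), ((F (W.Q0.x + W.Q0.r * xc)).card : ℝ) := by
      exact_mod_cast Finset.card_biUnion_le
    have h2 : ∑ xc ∈ cl (W.frH.tst (sfTestAt (W.T j l) (W.ts j l))), ((F (W.Q0.x + W.Q0.r * xc)).card : ℝ)
        ≤ ∑ _xc ∈ cl (W.frH.tst (sfTestAt (W.T j l) (W.ts j l))), (w / h + 1) := Finset.sum_le_sum fun xc _ => hF1 _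
    rw [Finset.sum_const, nsmul_eq_mul] at h2
    exact (h1.trans h2).trans (mul_le_mul_of_nonneg_right (hcl _) (by positivity))
  · obtain ⟨xc, hxc, hd⟩ := hρ
    have hs := (ch_ah_dist_X _ _).trans (sh.small j hj ρ x hx)
    have eX : (W.frH.ray (sfRayAt (W.T j (sh.lb j ρ)) (p.co (W.T j (sh.lb j ρ)) x))).X = (p.X x.1 - W.Q0.x) / W.Q0.r := rfl
    rw [eX] at hs
    have h1 : |p.X x.1 - (W.Q0.x + W.Q0.r * xc)| ≤ w := by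
      have e : p.X x.1 - (W.Q0.x + W.Q0.r * xc) = W.Q0.r * (((p.X x.1 - W.Q0.x) / W.Q0.r - (D.ray j ρ).X) + ((D.ray j ρ).X - xc)) := by
        field_simp; ring
      rw [e, abs_mul, abs_of_pos hQr]
      refine le_trans (mul_le_mul_of_nonneg_left ?_ hQr.le) hwd
      refine (abs_add_le _ _).trans ?_
      linarith
    obtain ⟨c, hc, hcz⟩ := hF2 _ _ h1
    rw [sh.hlab j hj ρ] at hxc
    exact ⟨c, Finset.mem_biUnion.2 ⟨xc, hxc, hc⟩, hcz⟩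

include sh in
/-- the units of the gap in the frame -/
theorem ch_as_len {i : ℝ} (hi : i ∈ W.G) (hk : W.E.k0 ≤ W.k i) : (2 : ℝ)⁻¹ ^ W.k i / W.frH.L = D.len i := by
  rw [sh.hlen i hi]
  show (2 : ℝ)⁻¹ ^ W.k i / (2 : ℝ)⁻¹ ^ W.E.k0 = _
  rw [div_eq_iff (by positivity), ← pow_add, Nat.sub_add_cancel hk]

/-- **(NEAR) on atoms, positive curvature cost** -/
theorem ch_as_near_q (π : SfPar) (hc2 : π.c2 ≠ 0) (C0 a i j : ℝ) (hi : i ∈ W.G) (hj : j ∈ W.G) (hk : W.E.k0 ≤ W.k i) (hQr : 0 < W.Q0.r) (hQf : 0 < W.Q0.f)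
    (hrj : 0 < W.r j) (H : ChTwoD D π C0 a i j) (δ : ℝ)
    (h0 : 0 < D.s) (h18 : D.s ≤ 1 / 18) (ha : 0 < a) (ha1 : C0 + |π.q - π.J| + 1 ≤ 1 / a) (hμ : 1 / a ≤ μ)
    (hδ0 : 0 < δ) (hδ : δ ≤ D.s ^ ((j - i) - 2 * a)) (hl : D.len i ≤ D.s ^ (i - a))
    (ρ : D.Row i) (ρ' : D.Row j) (x : p.Om × ℝ × ℝ) (hx : x ∈ sh.atm i ρ) (hc : D.Conn i j ρ ρ') :
    chNear (chA π D.s a) π.Lraw (chQx π) δ ((2 : ℝ)⁻¹ ^ W.k i) (W.r j) (W.f j) (W.T j (sh.lb j ρ') - W.T i (sh.lb i ρ))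
      (W.ts i (sh.lb i ρ) : CyT).be (W.ts i (sh.lb i ρ) : CyT).K
      ((W.ts i (sh.lb i ρ) : CyT).al + 2 * (W.ts i (sh.lb i ρ) : CyT).be * p.X x.1
        - 2 * (W.ts i (sh.lb i ρ) : CyT).K * (p.B x.1 + W.T i (sh.lb i ρ) * p.X x.1))
      (p.X x.1) (p.B x.1 + W.T j (sh.lb j ρ') * p.X x.1) (W.ts j (sh.lb j ρ')) := by
  have hz := sh.small i hi ρ x hx
  rw [← sh.hs] at hz
  have hr0 : 0 < D.r j := by rw [sh.hr j hj]; positivity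
  obtain ⟨n1, n2, n3⟩ := ch_ah_near_q D π hc2 C0 a μ i j δ (D.f j) H h0 h18 ha ha1 hμ hδ0 hδ hl hr0 (le_refl _) ρ ρ' hc _ hz
  rw [sh.hlab i hi ρ, sh.hlab j hj ρ'] at n1 n2 n3
  rw [sh.hf j hj, sh.hr j hj] at n1 n2 n3
  rw [← ch_as_len sh hi hk] at n2
  exact ch_ae_trans W.frH (ch_as_fr_pos W hQr hQf) p _ _ _ _ x _ _ _ _ _ _ _ hrj n1 n2 n3

/-- **(NEAR) on atoms, pure linear cost**: linearised start and end tests -/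
theorem ch_as_near_l (π : SfPar) (hc2 : π.c2 = 0) (C0 a i j : ℝ) (hi : i ∈ W.G) (hj : j ∈ W.G) (hQr : 0 < W.Q0.r) (hQf : 0 < W.Q0.f)
    (hrj : 0 < W.r j) (H : ChTwoD D π C0 a i j) (δ f1 fS : ℝ) (hf1 : W.f j ≤ f1)
    (h0 : 0 < D.s) (h1 : D.s ≤ 1) (ha : 0 < a) (hδ0 : 0 < δ) (hδ : δ ≤ D.s ^ ((j - i) - 2 * a))
    (ρ : D.Row i) (ρ' : D.Row j) (x : p.Om × ℝ × ℝ) (hc : D.Conn i j ρ ρ') :
    chNear (chA π D.s a) π.Lraw (chQx π) δ ((2 : ℝ)⁻¹ ^ W.k i) (W.r j) f1 (W.T j (sh.lb j ρ') - W.T i (sh.lb i ρ))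
      (chLin W.frH.sg (W.T i (sh.lb i ρ)) (W.ts i (sh.lb i ρ)) fS).be (chLin W.frH.sg (W.T i (sh.lb i ρ)) (W.ts i (sh.lb i ρ)) fS).K
      ((chLin W.frH.sg (W.T i (sh.lb i ρ)) (W.ts i (sh.lb i ρ)) fS).al + 2 * (chLin W.frH.sg (W.T i (sh.lb i ρ)) (W.ts i (sh.lb i ρ)) fS).be * p.X x.1
        - 2 * (chLin W.frH.sg (W.T i (sh.lb i ρ)) (W.ts i (sh.lb i ρ)) fS).K * (p.B x.1 + W.T i (sh.lb i ρ) * p.X x.1))
      (p.X x.1) (p.B x.1 + W.T j (sh.lb j ρ') * p.X x.1) (chLin W.frH.sg (W.T j (sh.lb j ρ')) (W.ts j (sh.lb j ρ')) f1) := by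
  have hφ := ch_as_fr_pos W hQr hQf
  have hr0 : 0 < D.r j := by rw [sh.hr j hj]; positivity
  have hf1' : D.f j ≤ f1 / W.Q0.f := by rw [sh.hf j hj]; exact div_le_div_of_nonneg_right hf1 hQf.le
  obtain ⟨n0, n3⟩ := ch_ah_near_l D π hc2 C0 a i j δ (f1 / W.Q0.f) H h0 h1 ha hδ0 hδ hr0 hf1' ρ ρ' hc
  rw [sh.hlab i hi ρ, sh.hlab j hj ρ'] at n3
  rw [sh.hr j hj] at n0 n3
  obtain ⟨s1, s2, s3⟩ := ch_ae_lin_tst W.frH hφ (W.T i (sh.lb i ρ)) (W.ts i (sh.lb i ρ)) fS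
  obtain ⟨e1, e2, e3⟩ := ch_ae_lin_tst W.frH hφ (W.T j (sh.lb j ρ')) (W.ts j (sh.lb j ρ')) f1
  have n0' : 0 ≤ chA π D.s a * (f1 / W.frH.F0 / (W.r j / W.frH.r0) ^ 2) * δ ^ (-chQx π) := n0
  have n3' : |(W.frH.tst (sfTestAt (W.T i (sh.lb i ρ)) (W.ts i (sh.lb i ρ)))).Pc - (W.frH.tst (sfTestAt (W.T j (sh.lb j ρ')) (W.ts j (sh.lb j ρ')))).Pc|
      ≤ chA π D.s a * (f1 / W.frH.F0 / (W.r j / W.frH.r0)) * δ ^ (1 - π.Lraw) := n3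
  refine ch_ae_trans W.frH hφ p _ _ _ _ x _ _ _ _ _ _ _ hrj ?_ ?_ ?_
  · rw [s1]
    unfold SfTest.beAt
    rw [e1, e2]
    simpa using n0'
  · rw [s2, e2]
    simpa using n0'
  · unfold SfTest.Pd
    rw [s1, s2, s3, e1, e2, e3]
    simpa using n3'

/-- the curvature of a terminal label of a pure linear family is invisible at the width `s^(-4a) f_j` -/
theorem ch_as_lin_num (π : SfPar) (hc2 : π.c2 = 0) (hq : 0 ≤ π.q) (C0 a i j : ℝ) (H : ChTwoD D π C0 a i j) (h0 : 0 < D.s) (h1 : D.s ≤ 1) (hr0 : 0 < D.r j)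
    (ρ : D.Row j) : (|(D.lab j ρ).be| + D.len j * |(D.lab j ρ).K|) * D.r j ^ 2 ≤ D.s ^ (-(4 * a)) * D.f j := by
  have hB := H.cmpB ρ
  have hb2 : π.b2 j ≤ 0 := by
    unfold SfPar.b2
    have : j - 1 ≤ 0 := by linarith [H.j1]
    exact mul_nonpos_of_nonneg_of_nonpos hq this
  have t1 : D.s ^ (min (-π.c2) (min (π.b2 j) 0) - a) ≤ D.s ^ (π.b2 j - a) := by
    refine ch_an_le h0 h1 ?_
    have : π.b2 j ≤ min (-π.c2) (min (π.b2 j) 0) := by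
      rw [hc2]
      exact le_min (by linarith) (le_min (le_refl _) hb2)
    linarith
  have t2 : D.r j ^ 2 ≤ D.s ^ (2 * (π.u j - a)) := by
    have h2 := pow_le_pow_left₀ hr0.le H.hr.2 2
    rwa [← Real.rpow_natCast (D.s ^ (π.u j - a)) 2, ch_an_pow h0, mul_comm] at h2
  calc (|(D.lab j ρ).be| + D.len j * |(D.lab j ρ).K|) * D.r j ^ 2 ≤ D.s ^ (π.b2 j - a) * D.s ^ (2 * (π.u j - a)) :=
        mul_le_mul (hB.trans t1) t2 (by positivity) (by positivity)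
    _ = D.s ^ (-(4 * a)) * D.s ^ (π.n j + a) := by
        rw [ch_an_mul h0, ch_an_mul h0]
        congr 1
        unfold SfPar.b2 SfPar.u SfPar.n
        ring
    _ ≤ D.s ^ (-(4 * a)) * D.f j := mul_le_mul_of_nonneg_left H.hf.1 (by positivity)

include sh in
/-- **the linearised end tests enclose the documented tests** -/
theorem ch_as_lin_in (hW : W.Str (fun Q => Q)) (π : SfPar) (hc2 : π.c2 = 0) (hq : 0 ≤ π.q) (C0 a i j : ℝ) (hj : j ∈ W.G) (hQr : 0 < W.Q0.r) (hQf : 0 < W.Q0.f)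
    (H : ChTwoD D π C0 a i j) (h0 : 0 < D.s) (h1 : D.s ≤ 1) (ha : 0 ≤ a) (l : W.Lb j) (x : p.Om × ℝ × ℝ) (hx : W.th j l x ≠ 0) :
    cyIn (chLin W.frH.sg (W.T j l) (W.ts j l) (4 * D.s ^ (-(4 * a)) * W.f j)) ((2 : ℝ)⁻¹ ^ W.k j) (p.co (W.T j l) x) := by
  obtain ⟨ρ, hρ, -⟩ := (sh.cov j hj l x).1 hx
  obtain ⟨hwr, hwf⟩ := hW.width j hj l
  obtain ⟨hrj, hfj⟩ := hW.frame.2.2 j hj
  have hr0 : 0 < D.r j := by rw [sh.hr j hj]; positivity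
  have hnum := ch_as_lin_num π hc2 hq C0 a i j H h0 h1 hr0 ρ
  have hcell : cyIn (W.ts j l) ((2 : ℝ)⁻¹ ^ W.k j) (p.co (W.T j l) x) := hW.supp j hj l x hx
  have hk : W.E.k0 ≤ W.k j := (hW.k_rg j hj).1
  refine ch_ae_lin_in W.frH.sg (W.T j l) (W.ts j l) _ _ (by positivity) (by rw [hwr]; exact hrj.le) ?_ _ hcell
  -- back to absolute units
  rw [sh.hlab j hj ρ, hρ, ← ch_as_len sh hj hk, sh.hr j hj, sh.hf j hj] at hnum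
  have hL : (0 : ℝ) < W.frH.L := by show (0 : ℝ) < (2 : ℝ)⁻¹ ^ W.E.k0; positivity
  have hu : 0 < W.Q0.r ^ 2 / W.Q0.f := by positivity
  have eb : (W.frH.tst (sfTestAt (W.T j l) (W.ts j l))).be = ((W.ts j l : CyT).be - W.frH.sg.beAt (W.T j l)) * (W.Q0.r ^ 2 / W.Q0.f) := by
    show ((W.ts j l : CyT).be - W.frH.sg.beAt (W.T j l)) * W.Q0.r ^ 2 / W.Q0.f = _
    ring
  have eK : (W.frH.tst (sfTestAt (W.T j l) (W.ts j l))).K = ((W.ts j l : CyT).K - W.frH.sg.K) * (W.frH.L * (W.Q0.r ^ 2 / W.Q0.f)) := by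
    show ((W.ts j l : CyT).K - W.frH.sg.K) * W.frH.L * W.Q0.r ^ 2 / W.Q0.f = _
    ring
  rw [eb, eK, abs_mul, abs_mul, abs_of_pos hu, abs_of_pos (mul_pos hL hu)] at hnum
  have e2 : (|(W.ts j l : CyT).be - W.frH.sg.beAt (W.T j l)| * (W.Q0.r ^ 2 / W.Q0.f)
        + (2 : ℝ)⁻¹ ^ W.k j / W.frH.L * (|(W.ts j l : CyT).K - W.frH.sg.K| * (W.frH.L * (W.Q0.r ^ 2 / W.Q0.f)))) * (W.r j / W.Q0.r) ^ 2
      = ((|(W.ts j l : CyT).be - W.frH.sg.beAt (W.T j l)| + (2 : ℝ)⁻¹ ^ W.k j * |(W.ts j l : CyT).K - W.frH.sg.K|) * W.r j ^ 2) / W.Q0.f := by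
    field_simp
  rw [e2, ← mul_div_assoc, div_le_div_iff_of_pos_right hQf] at hnum
  have hone : 1 ≤ D.s ^ (-(4 * a)) := ch_an_one_le h0 h1 (by linarith)
  rw [hwr, hwf]
  nlinarith

end

end Claimed.Agent.R256
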