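import Claimed.Agent.R256.Chan.AdhSh

/-!
# Row 256 (LS paper), CHAN, unit ADH, file 10: (mem) AT TWO GATES, THE LEAVES          (architect helper218; prover helper86; prefix `ch_at_`)

* `ChTwoM η p W π a i j`   the matched-chain facts (`SfMD.Ext`) used at the two gates
* `ch_at_pr`               `P_j(U) tot_j ≤ Σ_l en (θ_l 1_hit)`
* `ch_at_cnt*`, `ch_at_dl*`, `ch_at_lst*`, `ch_at_q4`   the numeric hypotheses of `ch_am_num`
The assembly (`ch_at_core`, `ch_at_two`) is in `Chan/AdhTwo.lean`.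
-/

set_option autoImplicit false

namespace Claimed.Agent.R256

open MeasureTheory Claimed.Agent.R255

/-- the matched-chain facts at two gates -/
structure ChTwoM (η : ℝ) (p : ChyPar) (W : SfMD (p.sys η)) (π : SfPar) (a i j : ℝ) : Prop where
  gi : i ∈ W.G
  gj : j ∈ W.G
  depi : |((W.k i : ℝ) - W.E.k0) - i * W.E.n| ≤ a * W.E.n
  depj : |((W.k j : ℝ) - W.E.k0) - j * W.E.n| ≤ a * W.E.n
  cnt : ∑ l, (p.sys η).wt (W.ts j l) ≤ W.E.s ^ (-a) * (W.E.e / W.E.ka) * W.E.s ^ (-((π.p + π.d) * j))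
  en : ∑ m ∈ W.ivs i, ‖W.pre i m‖ ^ 2 ≤ W.E.s ^ (-a) * W.E.e * W.E.s ^ (-(π.d * i))
  reg : ∀ m ∈ W.ivs i, (p.sys η).Reg (tmL (W.k i) m) (W.k i) (W.gb i) (W.E.s ^ (-a) * W.E.ka * W.E.s ^ (π.p * i)) (W.pre i m)
  read : W.E.s ^ a * W.E.e * W.E.s ^ (-(π.d * j)) ≤ W.tot j

section

variable {η : ℝ} {p : ChyPar} {W : SfMD (p.sys η)} {ε μ : ℝ} {D : SfDoc}

/-- **the law of the shadow reads the masses of the atoms** -/
theorem ch_at_pr (sh : ChShd η p W ε μ D) (hp : p.Ok) (hW : W.Str (fun Q => Q)) {j : ℝ} (hj : j ∈ W.G) (U : D.Row j → Prop) (lst : W.Lb j → Finset ℝ) (h : ℝ)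
    (hU : ∀ ρ, U ρ → sh.atm j ρ ⊆ {x : p.Om × ℝ × ℝ | ∃ c ∈ lst (sh.lb j ρ), |p.X x.1 - c| ≤ h}) :
    (D.P j).pr U * W.tot j ≤ ∑ l, (p.sys η).en (W.T j l) (W.k j) (W.gb j)
      (fun x => W.th j l x * ({x : p.Om × ℝ × ℝ | ∃ c ∈ lst l, |p.X x.1 - c| ≤ h}).indicator (fun _ => (1 : ℝ)) x) (W.pre j (W.iv j l)) := by
  classical
  have hm : ∀ l, MeasurableSet {x : p.Om × ℝ × ℝ | ∃ c ∈ lst l, |p.X x.1 - c| ≤ h} := by
    intro l
    have e : {x : p.Om × ℝ × ℝ | ∃ c ∈ lst l, |p.X x.1 - c| ≤ h} = ⋃ c ∈ lst l, {x : p.Om × ℝ × ℝ | |p.X x.1 - c| ≤ h} := by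
      ext x; simp
    rw [e]
    refine Finset.measurableSet_biUnion _ (fun c _ => ?_)
    have hX := hp.mX
    exact measurableSet_le (by fun_prop) measurable_const
  have key := ch_al_law W (fun Q => Q) hW hj (D.Row j) (sh.lb j) (sh.atm j) (sh.at_meas j hj) (sh.at_disj j hj) U
    (fun l => {x : p.Om × ℝ × ℝ | ∃ c ∈ lst l, |p.X x.1 - c| ≤ h}) hm hU
  refine le_trans (le_of_eq ?_) key
  unfold FLaw.pr
  rw [Finset.sum_mul]
  refine Finset.sum_congr rfl (fun ρ _ => ?_)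
  split_ifs with hu
  · exact sh.law j hj ρ
  · exact zero_mul _

/-- the weight count in absolute units -/
theorem ch_at_cnt (hW : W.Str (fun Q => Q)) {j : ℝ} (hj : j ∈ W.G) :
    (Fintype.card (W.Lb j) : ℝ) * (W.r j ^ (3 + η) * W.f j ^ (1 - η)) = ∑ l, (p.sys η).wt (W.ts j l) := by
  have e : ∀ l, (p.sys η).wt (W.ts j l) = W.r j ^ (3 + η) * W.f j ^ (1 - η) := by
    intro l
    obtain ⟨h1, h2⟩ := hW.width j hj l
    have h1' : (W.ts j l : CyT).r = W.r j := h1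
    have h2' : (W.ts j l : CyT).f = W.f j := h2
    show cyWt η (W.ts j l) = _
    unfold cyWt
    rw [h1', h2']
  rw [Finset.sum_congr rfl (fun l _ => e l), Finset.sum_const, Finset.card_univ, nsmul_eq_mul]

/-- the count with the enlarged normal width -/
theorem ch_at_cnt1 (hη0 : 0 < η) (hη1 : η < 1) (hW : W.Str (fun Q => Q)) {j : ℝ} (hj : j ∈ W.G) (s a B f1 : ℝ) (h0 : 0 < s) (h1 : s ≤ 1) (ha : 0 ≤ a)
    (hB : ∑ l, (p.sys η).wt (W.ts j l) ≤ B) (hf2 : f1 ≤ 4 * s ^ (-(4 * a)) * W.f j) (hf0 : 0 ≤ f1) :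
    (Fintype.card (W.Lb j) : ℝ) * (W.r j ^ (3 + η) * f1 ^ (1 - η)) ≤ 4 * s ^ (-(4 * a)) * B := by
  obtain ⟨hr, hf⟩ := hW.frame.2.2 j hj
  have hone : 1 ≤ s ^ (-(4 * a)) := ch_an_one_le h0 h1 (by linarith)
  have hA : 1 ≤ 4 * s ^ (-(4 * a)) := by linarith
  have t1 : f1 ^ (1 - η) ≤ (4 * s ^ (-(4 * a)) * W.f j) ^ (1 - η) := Real.rpow_le_rpow hf0 hf2 (by linarith)
  have t2 : (4 * s ^ (-(4 * a)) * W.f j) ^ (1 - η) = (4 * s ^ (-(4 * a))) ^ (1 - η) * W.f j ^ (1 - η) :=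
    Real.mul_rpow (by positivity) hf.le
  have t3 : (4 * s ^ (-(4 * a))) ^ (1 - η) ≤ 4 * s ^ (-(4 * a)) := by
    have := Real.rpow_le_rpow_of_exponent_le hA (show 1 - η ≤ 1 by linarith)
    rwa [Real.rpow_one] at this
  have t4 : f1 ^ (1 - η) ≤ 4 * s ^ (-(4 * a)) * W.f j ^ (1 - η) := by
    rw [t2] at t1
    exact t1.trans (mul_le_mul_of_nonneg_right t3 (by positivity))
  calc (Fintype.card (W.Lb j) : ℝ) * (W.r j ^ (3 + η) * f1 ^ (1 - η))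
      ≤ (Fintype.card (W.Lb j) : ℝ) * (W.r j ^ (3 + η) * (4 * s ^ (-(4 * a)) * W.f j ^ (1 - η))) := by gcongr
    _ = 4 * s ^ (-(4 * a)) * ((Fintype.card (W.Lb j) : ℝ) * (W.r j ^ (3 + η) * W.f j ^ (1 - η))) := by ring
    _ = 4 * s ^ (-(4 * a)) * ∑ l, (p.sys η).wt (W.ts j l) := by rw [ch_at_cnt hW hj]
    _ ≤ 4 * s ^ (-(4 * a)) * B := mul_le_mul_of_nonneg_left hB (by positivity)

/-- the count in the units of the frame -/
theorem ch_at_cnt2 (sh : ChShd η p W ε μ D) (hW : W.Str (fun Q => Q)) {j : ℝ} (hj : j ∈ W.G) (C0 a x : ℝ) (h0 : 0 < D.s)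
    (hek : D.ek ≤ D.s ^ (-C0)) (hB : ∑ l, (p.sys η).wt (W.ts j l) ≤ D.s ^ (-a) * (W.E.e / W.E.ka) * D.s ^ x) :
    (Fintype.card (W.Lb j) : ℝ) * (D.r j ^ (3 + η) * D.f j ^ (1 - η)) ≤ D.s ^ (-a) * D.s ^ (-C0) * D.s ^ x := by
  obtain ⟨hr, hf⟩ := hW.frame.2.2 j hj
  obtain ⟨hr1, hf1⟩ := hW.frame.2.2 1 hW.gate.1
  have hQr : 0 < W.Q0.r := by rw [hW.frame.1]; exact hr1
  have hQf : 0 < W.Q0.f := by rw [hW.frame.2.1]; exact hf1
  have hw : 0 < cyWt η W.Q0 := by unfold cyWt; positivity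
  have e1 : (Fintype.card (W.Lb j) : ℝ) * (D.r j ^ (3 + η) * D.f j ^ (1 - η)) = (∑ l, (p.sys η).wt (W.ts j l)) / cyWt η W.Q0 := by
    rw [← ch_at_cnt hW hj, sh.hr j hj, sh.hf j hj, Real.div_rpow hr.le hQr.le, Real.div_rpow hf.le hQf.le]
    unfold cyWt
    field_simp
  rw [e1]
  calc (∑ l, (p.sys η).wt (W.ts j l)) / cyWt η W.Q0 ≤ (D.s ^ (-a) * (W.E.e / W.E.ka) * D.s ^ x) / cyWt η W.Q0 :=
        div_le_div_of_nonneg_right hB hw.le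
    _ = D.s ^ (-a) * D.ek * D.s ^ x := by
        rw [sh.hek, ← div_div]
        ring
    _ ≤ D.s ^ (-a) * D.s ^ (-C0) * D.s ^ x := by gcongr

/-- the Planck width at the gate `j` -/
theorem ch_at_dl (hW : W.Str (fun Q => Q)) {j : ℝ} (hj : j ∈ W.G) : p.dl (W.k j) ≤ W.f j := by
  obtain ⟨l⟩ := hW.lb_ne j
  have h1 : 0 < (W.ts j l : CyT).r ∧ 0 < (W.ts j l : CyT).f ∧ p.dl (W.k j) ≤ (W.ts j l : CyT).f := hW.ok j hj l
  have h2 : (W.ts j l : CyT).f = W.f j := (hW.width j hj l).2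
  rw [← h2]
  exact h1.2.2

/-- the normal width is polynomial in the Planck width -/
theorem ch_at_dl2 (sh : ChShd η p W ε μ D) (hp : p.Ok) (hW : W.Str (fun Q => Q)) {j : ℝ} (hj : j ∈ W.G) (a f1 : ℝ) (C : ℕ) (h0 : 0 < D.s) (h1 : D.s ≤ 1)
    (hH : D.s ^ (C : ℝ) ≤ p.H * 2 ^ W.E.k0 / W.Q0.f ^ 2) (hf : D.f j ≤ D.s ^ (-a)) (hf2 : f1 ≤ 4 * D.s ^ (-(4 * a)) * W.f j) :
    f1 / p.dl (W.k j) ≤ 4 * D.s ^ (-(5 * a + (C : ℝ) / 2)) := by
  obtain ⟨hr1, hf1⟩ := hW.frame.2.2 1 hW.gate.1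
  have hQf : 0 < W.Q0.f := by rw [hW.frame.2.1]; exact hf1
  have hk : W.E.k0 ≤ W.k j := (hW.k_rg j hj).1
  have hHp := hp.H_pos
  -- lower bound of the Planck width
  have d1 : D.s ^ ((C : ℝ) / 2) * W.Q0.f ≤ p.dl (W.k j) := by
    unfold ChyPar.dl
    refine Real.le_sqrt_of_sq_le ?_
    rw [le_div_iff₀ (by positivity)] at hH
    have e : (D.s ^ ((C : ℝ) / 2) * W.Q0.f) ^ 2 = D.s ^ (C : ℝ) * W.Q0.f ^ 2 := by
      rw [mul_pow, ← Real.rpow_natCast (D.s ^ ((C : ℝ) / 2)) 2, ch_an_pow h0]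
      congr 2
      push_cast
      ring
    rw [e]
    refine hH.trans (mul_le_mul_of_nonneg_left ?_ hHp.le)
    exact pow_le_pow_right₀ (by norm_num) hk
  have d0 : 0 < p.dl (W.k j) := lt_of_lt_of_le (by positivity) d1
  rw [div_le_iff₀ d0]
  have e2 : W.f j = D.f j * W.Q0.f := by rw [sh.hf j hj]; field_simp
  calc f1 ≤ 4 * D.s ^ (-(4 * a)) * W.f j := hf2
    _ = 4 * D.s ^ (-(4 * a)) * (D.f j * W.Q0.f) := by rw [e2]
    _ ≤ 4 * D.s ^ (-(4 * a)) * (D.s ^ (-a) * W.Q0.f) := by gcongr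
    _ = 4 * D.s ^ (-(5 * a + (C : ℝ) / 2)) * (D.s ^ ((C : ℝ) / 2) * W.Q0.f) := by
        have e3 : D.s ^ (-(4 * a)) * D.s ^ (-a) = D.s ^ (-(5 * a + (C : ℝ) / 2)) * D.s ^ ((C : ℝ) / 2) := by
          rw [ch_an_mul h0, ch_an_mul h0]
          congr 1
          ring
        calc 4 * D.s ^ (-(4 * a)) * (D.s ^ (-a) * W.Q0.f) = 4 * (D.s ^ (-(4 * a)) * D.s ^ (-a)) * W.Q0.f := by ring
          _ = 4 * (D.s ^ (-(5 * a + (C : ℝ) / 2)) * D.s ^ ((C : ℝ) / 2)) * W.Q0.f := by rw [e3]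
          _ = _ := by ring
    _ ≤ 4 * D.s ^ (-(5 * a + (C : ℝ) / 2)) * p.dl (W.k j) := mul_le_mul_of_nonneg_left d1 (by positivity)

/-- `2^((k_j - k_i)/4) = δ^(-1/4)` -/
theorem ch_at_q4 (ki kj : ℕ) (h : ki ≤ kj) : (2 : ℝ) ^ (((kj : ℝ) - ki) / 4) = ((2 : ℝ)⁻¹ ^ (kj - ki)) ^ (-(1 / 4 : ℝ)) := by
  rw [ch_an_two, Nat.cast_sub h]
  congr 1
  ring

/-- the atoms are smaller than the cells of the lists -/
theorem ch_at_lst1 (π : SfPar) (hJ0 : 0 ≤ π.J) (s a i j μ r' Q0r rj : ℝ) (h0 : 0 < s) (h1 : s ≤ 1) (ha : 0 < a) (ha1 : a ≤ 1) (hJ : π.J + π.Lraw + 1 ≤ 1 / a) (hμ : 1 / a ≤ μ)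
    (hi : 0 ≤ i) (hij : i < j) (hj : j ≤ 1) (hr : s ^ (π.u j + a) ≤ r') (hQ : 0 < Q0r) (hr' : r' = rj / Q0r) :
    Q0r * (r' * s ^ (π.Lraw * (j - i)) + s ^ μ) ≤ 2 * rj * s ^ (π.Lraw * (j - i)) := by
  have hL := ch_ah_L1 π
  have e1 : Q0r * r' = rj := by rw [hr']; field_simp
  have t1 : s ^ μ ≤ s ^ (π.u j + a + π.Lraw * (j - i)) := by
    refine ch_an_le h0 h1 ?_
    have u1 : π.u j ≤ π.J := by
      unfold SfPar.u
      have : π.J * (1 - j) ≤ π.J * 1 := mul_le_mul_of_nonneg_left (by linarith) hJ0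
      linarith
    have u2 : π.Lraw * (j - i) ≤ π.Lraw * 1 := mul_le_mul_of_nonneg_left (by linarith) (by linarith)
    linarith
  have t2 : s ^ μ ≤ r' * s ^ (π.Lraw * (j - i)) := by
    rw [← ch_an_mul h0] at t1
    exact t1.trans (mul_le_mul_of_nonneg_right hr (by positivity))
  calc Q0r * (r' * s ^ (π.Lraw * (j - i)) + s ^ μ) ≤ Q0r * (r' * s ^ (π.Lraw * (j - i)) + r' * s ^ (π.Lraw * (j - i))) := by gcongr
    _ = 2 * (Q0r * r') * s ^ (π.Lraw * (j - i)) := by ring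
    _ = 2 * rj * s ^ (π.Lraw * (j - i)) := by rw [e1]

/-- the number of cells of the half width `r_j δ^L` in a cell of the lists -/
theorem ch_at_lst2 (L s a x δ rj : ℝ) (hL : 0 ≤ L) (h0 : 0 < s) (h1 : s ≤ 1) (ha : 0 ≤ a) (hδ : s ^ (x + 2 * a) ≤ δ) (hr : 0 < rj) :
    2 * rj * s ^ (L * x) / (rj * δ ^ L) + 1 ≤ 3 * s ^ (-(2 * a * L)) := by
  have hδ0 : 0 < δ := lt_of_lt_of_le (by positivity) hδ
  have t1 : s ^ ((x + 2 * a) * L) ≤ δ ^ L := ch_an_lo h0 hδ hL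
  have hone : 1 ≤ s ^ (-(2 * a * L)) := ch_an_one_le h0 h1 (by have : 0 ≤ 2 * a * L := by positivity
                                                               linarith)
  have t2 : 2 * rj * s ^ (L * x) / (rj * δ ^ L) ≤ 2 * s ^ (-(2 * a * L)) := by
    rw [div_le_iff₀ (by positivity)]
    have e : s ^ (L * x) = s ^ (-(2 * a * L)) * s ^ ((x + 2 * a) * L) := by
      rw [ch_an_mul h0]
      congr 1
      ring
    calc 2 * rj * s ^ (L * x) = 2 * s ^ (-(2 * a * L)) * (rj * s ^ ((x + 2 * a) * L)) := by rw [e]; ring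
      _ ≤ 2 * s ^ (-(2 * a * L)) * (rj * δ ^ L) := by gcongr
  linarith

end

end Claimed.Agent.R256
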