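import Claimed.Agent.R256.Chan.AdhAsm
import Claimed.Agent.R256.Chan.AdhTwoL
import Claimed.Agent.R256.Chan.AdhNumMain

/-!
# Row 256 (LS paper), CHAN, unit ADH, file 11: (mem) AT TWO GATES          (architect helper218; prefix `ch_at_`)

* `ch_at_core`             (mem) at two gates, given enclosing end tests `Q` of the widths `(r_j, f1)` and start tests `Qs` with (NEAR)
* `ch_at_two`              (mem) at two gates
-/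

set_option autoImplicit false

namespace Claimed.Agent.R256

open MeasureTheory Claimed.Agent.R255

/-- **(mem) at two gates**, given the tests -/
theorem ch_at_core (η : ℝ) (hη0 : 0 < η) (hη1 : η < 1) (π : SfPar) (hv : π.Valid) (hπη : π.η = η) (hhy : π.hyb = true) (t C0 a : ℝ) (ht : 0 < t) (ha : 0 < a) (ha1 : a ≤ 1)
    (hJ : π.J + π.Lraw + 1 ≤ 1 / a) (ha4 : a * (33 + 10 * chQx π + 12 * π.Lraw) ≤ t) (C : ℕ) :
    ∃ s0 : ℝ, 0 < s0 ∧ s0 ≤ 1 / 18 ∧ ∀ (p : ChyPar), p.Ok → ∀ (W : SfMD (p.sys η)), W.Str (fun Q => Q) → W.E.st.length ≤ C →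
      W.E.s ^ (C : ℝ) ≤ p.H * 2 ^ W.E.k0 / W.Q0.f ^ 2 →
      ∀ (ε μ : ℝ) (D : SfDoc), 1 / ((C : ℝ) + 1) ≤ ε → 1 / a ≤ μ → ∀ (sh : ChShd η p W ε μ D) (i j : ℝ), ChTwoD D π C0 a i j → ChTwoM η p W π a i j →
      0 < D.s → D.s < s0 →
      ∀ (f1 : ℝ) (Qs : W.Lb i → CyT) (Q : W.Lb j → CyT), W.f j ≤ f1 → f1 ≤ 4 * D.s ^ (-(4 * a)) * W.f j →
      (∀ l x, W.th j l x ≠ 0 → cyIn (Q l) ((2 : ℝ)⁻¹ ^ W.k j) (p.co (W.T j l) x)) → (∀ l, (Q l).r = W.r j ∧ (Q l).f = f1) →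
      (∀ (ρ : D.Row i) (ρ' : D.Row j) (x : p.Om × ℝ × ℝ), x ∈ sh.atm i ρ → D.Conn i j ρ ρ' →
        chNear (chA π D.s a) π.Lraw (chQx π) ((2 : ℝ)⁻¹ ^ (W.k j - W.k i)) ((2 : ℝ)⁻¹ ^ W.k i) (W.r j) f1 (W.T j (sh.lb j ρ') - W.T i (sh.lb i ρ))
          (Qs (sh.lb i ρ)).be (Qs (sh.lb i ρ)).K
          ((Qs (sh.lb i ρ)).al + 2 * (Qs (sh.lb i ρ)).be * p.X x.1 - 2 * (Qs (sh.lb i ρ)).K * (p.B x.1 + W.T i (sh.lb i ρ) * p.X x.1))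
          (p.X x.1) (p.B x.1 + W.T j (sh.lb j ρ') * p.X x.1) (Q (sh.lb j ρ'))) →
      ∀ (R : ℝ) (cl : SfTest → Finset ℝ), 0 ≤ R → R ≤ π.mnum π.Lraw → (∀ lam, ((cl lam).card : ℝ) ≤ D.s ^ (-(R * (j - i)))) →
      (D.P j).pr (fun ρ => ∃ x ∈ cl (D.lab j ρ), |(D.ray j ρ).X - x| ≤ D.r j * D.s ^ (π.Lraw * (j - i)))
        ≤ D.s ^ (-t) * D.s ^ ((π.mnum π.Lraw - R) / 2 * (j - i)) := by
  subst hπη
  obtain ⟨cK, hcK, HA⟩ := ch_ad_asm π.η hη0 hη1 C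
  obtain ⟨s0, hs0, hs18, HN⟩ := ch_am_num π hv t C0 a cK C ht ha ha1 ha4 hcK
  refine ⟨s0, hs0, hs18, ?_⟩
  intro p hp W hW hlen hH ε μ D hε hμ sh i j H M h0 hss f1 Qs Q hf1 hf2 hin hwid hnear R cl hR0 hR hcl
  have hs := sh.hs
  have h1 : D.s ≤ 1 := by linarith
  obtain ⟨hk, -⟩ := hW.k_mono i M.gi j M.gj H.ij
  obtain ⟨d1, d2⟩ := ch_an_depth W.E.n W.E.k0 (W.k i) (W.k j) i j a hk M.depi M.depj
  set δ : ℝ := (2 : ℝ)⁻¹ ^ (W.k j - W.k i) with hδ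
  have hδ0 : 0 < δ := by positivity
  have d1' : D.s ^ ((j - i) + 2 * a) ≤ δ := by rw [hs]; exact d1
  have d2' : δ ≤ D.s ^ ((j - i) - 2 * a) := by rw [hs]; exact d2
  obtain ⟨hrj, hfj⟩ := hW.frame.2.2 j M.gj
  have hQr : 0 < W.Q0.r := by rw [hW.frame.1]; exact (hW.frame.2.2 1 hW.gate.1).1
  have hL1 := ch_ah_L1 π
  have hf10 : 0 < f1 := lt_of_lt_of_le hfj hf1
  have hdl0 : 0 < p.dl (W.k j) := by
    have := hp.H_pos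
    unfold ChyPar.dl; positivity
  have hdl1 : p.dl (W.k j) ≤ f1 := (ch_at_dl hW M.gj).trans hf1
  -- the matched chain in the scale of the shadow
  have hcnt := M.cnt
  have hen := M.en
  have hreg := M.reg
  have hread := M.read
  rw [← hs] at hcnt hen hreg hread hH
  -- lists
  obtain ⟨lst, hl1, hl2⟩ := ch_as_hits sh M.gj hQr cl (D.s ^ (-(R * (j - i)))) (2 * W.r j * D.s ^ (π.Lraw * (j - i))) (W.r j * δ ^ π.Lraw)
    (D.r j * D.s ^ (π.Lraw * (j - i))) (by positivity) (by positivity) hcl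
    (by rw [← hs]; exact ch_at_lst1 π hv.J0 D.s a i j μ (D.r j) W.Q0.r (W.r j) h0 h1 ha ha1 hJ hμ H.i0 H.ij H.j1 H.hr.1 hQr (sh.hr j M.gj))
  have hl1' : ∀ l, ((lst l).card : ℝ) ≤ D.s ^ (-(R * (j - i))) * (3 * D.s ^ (-(2 * a * π.Lraw))) := fun l =>
    (hl1 l).trans (mul_le_mul_of_nonneg_left (ch_at_lst2 π.Lraw D.s a (j - i) δ (W.r j) (by linarith) h0 h1 ha.le d1' hrj) (by positivity))
  -- the law
  have hpr := ch_at_pr sh hp hW M.gj _ lst (W.r j * δ ^ π.Lraw) hl2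
  -- the normal width
  have hfD : D.f j ≤ D.s ^ (-a) := by
    refine H.hf.2.trans (ch_an_le h0 h1 ?_)
    have hn : π.n j = (1 - j) / 2 := by
      unfold SfPar.n
      rw [hv.pl hhy]; ring
    rw [hn]
    linarith [H.j1]
  -- numerology
  obtain ⟨hΛ, hnum⟩ := HN D.s ε i j R W.E.e W.E.ka (Fintype.card (W.Lb j) : ℝ) (W.r j ^ (3 + π.η) * f1 ^ (1 - π.η)) (D.r j) (D.f j) δ (p.dl (W.k j)) f1 (W.tot j)
    (2 ^ (((W.k j : ℝ) - W.k i) / 4)) h0 hss hε H.i0 H.ij H.j1 hR0 hR hW.valid.e_pos hW.valid.ka_pos (by positivity) (by positivity)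
    (ch_at_cnt1 hη0 hη1 hW M.gj D.s a _ f1 h0 h1 ha.le hcnt hf2 hf10.le) H.hr.1 H.hf.1
    (ch_at_cnt2 sh hW M.gj C0 a _ h0 H.hek hcnt) d1' d2' (ch_at_q4 _ _ hk) hdl0 hdl1
    (ch_at_dl2 sh hp hW M.gj a f1 C h0 h1 hH hfD hf2) hread
  -- the analysis
  have he := hW.valid.e_pos
  have hka := hW.valid.ka_pos
  have hasm := HA p hp W hW hlen D.Row sh.lb sh.atm sh.cov i M.gi j M.gj H.ij (D.s ^ (-a) * W.E.e * D.s ^ (-(π.d * i))) (D.s ^ (-a) * W.E.ka * D.s ^ (π.p * i))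
    (by positivity) (by positivity) hen hreg (W.r j) f1 (chA π D.s a) π.Lraw (chQx π) (D.s ^ (-(R * (j - i))) * (3 * D.s ^ (-(2 * a * π.Lraw))))
    (D.s ^ (-ε) / 2 ^ (C + 1) - 1) (D.s ^ (-ε)) hrj hdl1 (ch_ah_A1 π h0 h1 ha.le) hL1 (ch_ah_ML π) (by positivity) hΛ
    (by
      have : (2 : ℝ) ^ (C + 1) * (D.s ^ (-ε) / 2 ^ (C + 1) - 1 + 1) = D.s ^ (-ε) := by field_simp; ring
      exact this.le)
    Qs Q lst hin hwid hl1'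
    (fun ρ ρ' x hx hc => hnear ρ ρ' x hx (sh.conn i M.gi j M.gj ρ ρ' (by rw [← hs]; exact hc)))
  have htot : 0 < W.tot j := lt_of_lt_of_le (by positivity) hread
  exact le_of_mul_le_mul_right (hpr.trans (hasm.trans hnum)) htot

/-- **(mem) at two gates** -/
theorem ch_at_two (η : ℝ) (hη0 : 0 < η) (hη1 : η < 1) (π : SfPar) (hv : π.Valid) (hπη : π.η = η) (hhy : π.hyb = true) (t C0 a : ℝ) (ht : 0 < t) (ha : 0 < a) (ha1 : a ≤ 1)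
    (hJ : π.J + π.Lraw + 1 ≤ 1 / a) (hC : C0 + |π.q - π.J| + 1 ≤ 1 / a) (ha4 : a * (33 + 10 * chQx π + 12 * π.Lraw) ≤ t) (C : ℕ) :
    ∃ s0 : ℝ, 0 < s0 ∧ ∀ (p : ChyPar), p.Ok → ∀ (W : SfMD (p.sys η)), W.Str (fun Q => Q) → W.E.st.length ≤ C →
      W.E.s ^ (C : ℝ) ≤ p.H * 2 ^ W.E.k0 / W.Q0.f ^ 2 →
      ∀ (ε μ : ℝ) (D : SfDoc), 1 / ((C : ℝ) + 1) ≤ ε → 1 / a ≤ μ → ChShd η p W ε μ D → ∀ (i j : ℝ), ChTwoD D π C0 a i j → ChTwoM η p W π a i j →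
      0 < D.s → D.s < s0 →
      ∀ (R : ℝ) (cl : SfTest → Finset ℝ), 0 ≤ R → R ≤ π.mnum π.Lraw → (∀ lam, ((cl lam).card : ℝ) ≤ D.s ^ (-(R * (j - i)))) →
      (D.P j).pr (fun ρ => ∃ x ∈ cl (D.lab j ρ), |(D.ray j ρ).X - x| ≤ D.r j * D.s ^ (π.Lraw * (j - i)))
        ≤ D.s ^ (-t) * D.s ^ ((π.mnum π.Lraw - R) / 2 * (j - i)) := by
  obtain ⟨s0, hs0, hs18, HC⟩ := ch_at_core η hη0 hη1 π hv hπη hhy t C0 a ht ha ha1 hJ ha4 C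
  refine ⟨s0, hs0, ?_⟩
  intro p hp W hW hlen hH ε μ D hε hμ sh i j H M h0 hss R cl hR0 hR hcl
  have hs := sh.hs
  have h18 : D.s ≤ 1 / 18 := by linarith
  have h1 : D.s ≤ 1 := by linarith
  obtain ⟨hk, -⟩ := hW.k_mono i M.gi j M.gj H.ij
  obtain ⟨-, d2⟩ := ch_an_depth W.E.n W.E.k0 (W.k i) (W.k j) i j a hk M.depi M.depj
  have hδ0 : (0 : ℝ) < (2 : ℝ)⁻¹ ^ (W.k j - W.k i) := by positivity
  have d2' : (2 : ℝ)⁻¹ ^ (W.k j - W.k i) ≤ D.s ^ ((j - i) - 2 * a) := by rw [hs]; exact d2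
  obtain ⟨hrj, hfj⟩ := hW.frame.2.2 j M.gj
  have hQr : 0 < W.Q0.r := by rw [hW.frame.1]; exact (hW.frame.2.2 1 hW.gate.1).1
  have hQf : 0 < W.Q0.f := by rw [hW.frame.2.1]; exact (hW.frame.2.2 1 hW.gate.1).2
  have hone : 1 ≤ D.s ^ (-(4 * a)) := ch_an_one_le h0 h1 (by linarith)
  by_cases hc2 : π.c2 = 0
  · have hq : 0 ≤ π.q := by
      rcases hv.fam with h | h | h
      · exact absurd hc2 h.1.ne'
      · rw [h.1] at hc2; norm_num at hc2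
      · rw [h.2.2]; linarith [h.2.1, hv.J0]
    have hf1 : W.f j ≤ 4 * D.s ^ (-(4 * a)) * W.f j := by nlinarith
    exact HC p hp W hW hlen hH ε μ D hε hμ sh i j H M h0 hss (4 * D.s ^ (-(4 * a)) * W.f j)
      (fun l => chLin W.frH.sg (W.T i l) (W.ts i l) 1) (fun l => chLin W.frH.sg (W.T j l) (W.ts j l) (4 * D.s ^ (-(4 * a)) * W.f j))
      hf1 (le_refl _) (fun l x hx => ch_as_lin_in sh hW π hc2 hq C0 a i j M.gj hQr hQf H h0 h1 ha.le l x hx)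
      (fun l => ⟨(hW.width j M.gj l).1, rfl⟩)
      (fun ρ ρ' x _ hc => ch_as_near_l sh π hc2 C0 a i j M.gi M.gj hQr hQf hrj H _ _ 1 hf1 h0 h1 ha hδ0 d2' ρ ρ' x hc)
      R cl hR0 hR hcl
  · have hk0 : W.E.k0 ≤ W.k i := (hW.k_rg i M.gi).1
    have hl : D.len i ≤ D.s ^ (i - a) := by
      rw [sh.hlen i M.gi, hs]
      exact (ch_an_len W.E.n W.E.k0 (W.k i) i a hk0 M.depi).2
    exact HC p hp W hW hlen hH ε μ D hε hμ sh i j H M h0 hss (W.f j) (W.ts i) (W.ts j) (le_refl _) (by nlinarith)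
      (fun l x hx => hW.supp j M.gj l x hx) (fun l => hW.width j M.gj l)
      (fun ρ ρ' x hx hc => ch_as_near_q sh π hc2 C0 a i j M.gi M.gj hk0 hQr hQf hrj H _ h0 h18 ha hC hμ hδ0 d2' hl ρ ρ' x hx hc)
      R cl hR0 hR hcl

end Claimed.Agent.R256
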