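-- KEEP
import Claimed.Agent.R256.Base.Cyl
import Claimed.Agent.R256.Gen.Hyp

/-!
# Row 256 (LS paper), CHAN = the scalar channel and the memory bound : DEFINITIONS          (chief helper130; prefix `ch_`)

* `chNear`     the comparison (A)/(F) between the data of a start label and an end test, in the units of the segment
* `ChSeg`      a classical memory segment in NORMALISED units (start interval `[0,1]`, end widths `r = f = 1`, relative end length `dl = δ`, REAL `δ`-separated label times), on an arbitrary measure space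
* `ChSeg.RT`   the tests for which regularity of the start measure is used: base width `δ^Lm`, normal width `≥ δ`, shear close to the start data of a particle of their base box
* `ChSeg.Ok`   its hypotheses
* `chBox`      scalar boxes of the hybrid model in coordinates sheared by functions of the exact index
Statements: `Chan/Contract.lean`.          v2 (21:20Z): real times, restricted regularity (consumers work on FINITE laws: `Soft/Doc.lean`).
-/

set_option autoImplicit false

namespace Claimed.Agent.R256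

open MeasureTheory
open scoped ENNReal

/-- the comparison (A)/(F) between start data `(be0, K0, P0)` (curvature coefficients at the START time, derivative on the ray) and an end test `Q` (coefficients at ITS time),
`dT` = time gap, `Xc`, `BT` = angle and horizontal position (at the time of `Q`) of the base ray; units: start length `l0`, end widths `r1, f1`; `dl = δ`. -/
def chNear (A Lm Qx dl l0 r1 f1 dT be0 K0 P0 Xc BT : ℝ) (Q : CyT) : Prop :=
  |be0 - (Q.be - dT * Q.K)| ≤ A * (f1 / r1 ^ 2) * dl ^ (-Qx) ∧ l0 * |K0 - Q.K| ≤ A * (f1 / r1 ^ 2) * dl ^ (-Qx) ∧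
    |P0 - (Q.al + 2 * Q.be * Xc - 2 * Q.K * BT)| ≤ A * (f1 / r1) * dl ^ (1 - Lm)

/-- a memory segment in normalised units -/
structure ChSeg (Om : Type) [MeasurableSpace Om] where
  /-- the row measure of the starting interval -/
  mu : Measure Om
  /-- coordinates at the starting time `0` -/
  X : Om → ℝ
  B : Om → ℝ
  Y : Om → ℝ
  N : Om → ℝ
  D : Om → ℝ
  /-- `δ` = relative length of the end intervals -/
  dl : ℝ
  /-- curvature coefficients of the start label owning the particle -/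
  be0 : Om → ℝ
  K0 : Om → ℝ
  /-- derivative of the start label on the ray of the particle (`g = 1`), or `g` guesses -/
  g : ℕ
  P0 : Fin g → Om → ℝ
  /-- end labels: time, test, fractional weight, list of centres of angle cells -/
  L : ℕ
  tm : Fin L → ℝ
  Q : Fin L → CyT
  th : Fin L → Om → ℝ
  lst : Fin L → Finset ℝ

namespace ChSeg

variable {Om : Type} [MeasurableSpace Om] (S : ChSeg Om)

/-- instantaneous coordinates -/
def co (T : ℝ) (ω : Om) : Cy5 := ⟨S.X ω, S.B ω + T * S.X ω, S.Y ω + T * S.X ω ^ 2, S.N ω, S.D ω + T * S.N ω⟩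

/-- the angle lies in a listed cell of half width `δ^Lm` -/
def hitS (Lm : ℝ) (l : Fin S.L) : Set Om := {ω | ∃ c ∈ S.lst l, |S.X ω - c| ≤ S.dl ^ Lm}

/-- the tests (at the starting time, length `1`) for which regularity is used -/
def RT (Lm Qx : ℝ) (Q : CyT) : Prop :=
  Q.r = S.dl ^ Lm ∧ S.dl ≤ Q.f ∧ ∃ (ω : Om) (a : Fin S.g), |S.X ω - Q.x| ≤ Q.r ∧ |S.B ω - Q.b| ≤ Q.r ∧
    |Q.be - S.be0 ω| ≤ 4 * S.dl ^ (-Qx) ∧ |Q.K - S.K0 ω| ≤ 4 * S.dl ^ (-Qx) ∧
    |Q.al + 2 * Q.be * S.X ω - 2 * Q.K * S.B ω - S.P0 a ω| ≤ 4 * S.dl ^ (1 - Lm)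

/-- hypotheses of the memory bound -/
structure Ok (η κ A Lm Qx Rn : ℝ) : Prop where
  fin : IsFiniteMeasure S.mu
  mX : Measurable S.X
  mB : Measurable S.B
  mY : Measurable S.Y
  mN : Measurable S.N
  mD : Measurable S.D
  mbe : Measurable S.be0
  mK : Measurable S.K0
  mP : ∀ a, Measurable (S.P0 a)
  mth : ∀ l, Measurable (S.th l)
  A1 : 1 ≤ A
  dl0 : 0 < S.dl
  dl1 : S.dl ≤ 1
  ka0 : 0 ≤ κ
  /-- (ML) -/
  L1 : 1 ≤ Lm
  ML : 1 + Qx ≤ 2 * Lm
  /-- ordinary regularity of the start measure -/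
  reg : ∀ Q : CyT, S.RT Lm Qx Q → (S.mu {ω | cyIn Q 1 (S.co 0 ω)}).toReal ≤ κ * cyWt η Q
  /-- label times: in `[0,1]`, `δ`-separated -/
  tm_rg : ∀ l, 0 ≤ S.tm l ∧ S.tm l ≤ 1
  tm_sep : ∀ l l', S.tm l ≠ S.tm l' → S.dl ≤ |S.tm l - S.tm l'|
  wid : ∀ l, (S.Q l).r = 1 ∧ (S.Q l).f = 1
  th_nn : ∀ l ω, 0 ≤ S.th l ω
  th_sum : ∀ l0 ω, ∑ l, (if S.tm l = S.tm l0 then S.th l ω else 0) ≤ 1
  th_in : ∀ l ω, S.th l ω ≠ 0 → cyIn (S.Q l) S.dl (S.co (S.tm l) ω)
  /-- (A), (F) on the particles that are read -/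
  near : ∀ l ω, S.th l ω ≠ 0 → ∃ a, chNear A Lm Qx S.dl 1 1 1 (S.tm l) (S.be0 ω) (S.K0 ω) (S.P0 a ω) (S.X ω) (S.B ω + S.tm l * S.X ω) (S.Q l)
  card : ∀ l, ((S.lst l).card : ℝ) ≤ Rn

end ChSeg

/-- scalar box of velocity width `f` and position width `l f` in the coordinates sheared by `(a ω, b ω)` -/
def chBox (p : ChyPar) (a b : p.Om → ℝ) (n c f l : ℝ) : Set (p.Om × ℝ × ℝ) :=
  {x | |x.2.2 - a x.1 - n| ≤ f ∧ |x.2.1 - b x.1 - c| ≤ l * f}

theorem ch_defs_eqns_cite : True := by
  have := @chNear.eq_1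
  have := @ChSeg.co.eq_1
  have := @ChSeg.hitS.eq_1
  have := @ChSeg.RT.eq_1
  have := @chBox.eq_1
  trivial

end Claimed.Agent.R256
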