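-- KEEP
import Claimed.Agent.R256.Chan.Defs

/-!
# Row 256 (LS paper), CHAN, unit CL2 : geometry of the keys of the classical memory bound          (architect helper111; prefix `ch_g_`, defs `chG*`)

PURE REAL ARITHMETIC (no measure, no model).   ALL PROVED (0 sorry).

Scales `s : ChSc` = `(d, rho, W1, W2, A)` = `(δ, ρ = δ^Lm, δ^(1-Lm), δ^-Qx, A)`; only `ChSc.Ok` is used: `0 < ρ ≤ δ ≤ 1`, `W1 ρ = δ`, `0 < W2`, `W2 ρ ≤ W1`, `1 ≤ A`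
(consequences: `0 < W1`, `W2 ρ² ≤ δ`, `ρ² ≤ ρ ≤ δ`).
A key `k : ChKey` = six integers = LEFT END POINTS  `xM = k1 ρ`, `bM = k2 ρ`, `vM = k3 ρ²`, `bt = k4 W2`, `Kt = k5 W2`, `pt = k6 W1`.
A particle `(X, B, Y, be0, K0, P0)` (coordinates at the starting time `0`) lies in the cell of `k` (`chGCell`) iff
  `X ∈ bin_ρ(k1)`, `B ∈ bin_ρ(k2)`, `Y - 2 xM B ∈ bin_ρ²(k3)`, `be0 ∈ bin_W2(k4)`, `K0 ∈ bin_W2(k5)`, `P0 - 2 bt X + 2 Kt B ∈ bin_W1(k6)`.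
A label = `(T, Q, lst)`, `0 ≤ T ≤ 1`, `Q.r = Q.f = 1`.   With `β0 = Q.be - T Q.K`, its keys (`chGKeyP`, as a Finset `chGKeys`) are
  (P1) `∃ c ∈ lst, c - 2ρ ≤ xM ≤ c + ρ`   (P2) `Q.b - T xM - 2δ - ρ ≤ bM ≤ Q.b - T xM + δ`   (P3) `V0 - 6δ - ρ² ≤ vM ≤ V0 + 6δ`, `V0 = Q.y - 2 xM Q.b + T xM²`
  (P4) `|bt - β0| ≤ (A+1) W2`   (P5) `|Kt - Q.K| ≤ (A+1) W2`   (P6) `|pt - Pc| ≤ (5A+5) W1`, `Pc = Q.al + 2 (β0 - bt) xM - 2 (Q.K - Kt) bM`.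

EXITS   `ch_g_card` (G1+G2),  `ch_g_cover`,  `ch_g_taylor` (G3),  `ch_g_reg` (G4),  `ch_g_cell_uniq`.

PROOFS (all identities are `ring` identities; write `X = xM + dX`, `B = bM + dB`, `Y - 2 xM B = vM + dV`, `0 ≤ dX, dB < ρ`, `0 ≤ dV < ρ²`, `B_T = B + T X`, `Y_T = Y + T X²`).
* cover.  k1..k6 := the floors (`ch_g_bin_ex`), in this order.  (P1) `|X - c| ≤ ρ`.  (P2) `|B_T - Q.b| ≤ δ`, `T X ∈ [T xM, T xM + δ]`.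
  (P3) `Y - 2 xM B = V0 + 2 (Q.x - xM)(B_T - Q.b) + cyTilt - T dX²`, `|Q.x - xM| ≤ 2`.   (P4), (P5) `|be0 - β0| ≤ A W2`, `0 ≤ be0 - bt < W2`.
  (P6) `Q.al + 2 Q.be X - 2 Q.K B_T = Q.al + 2 β0 X - 2 Q.K B`; `(P0 - 2 bt X + 2 Kt B) - Pc = 2 (β0 - bt) dX - 2 (Q.K - Kt) dB + err`, `|err| ≤ A W1`, `W2 ρ ≤ W1`: `≤ (5A+4) W1`.
* taylor.  `a' = Q.al - pt`, `b' = β0 - bt`, `K' = Q.K - Kt`, `P' = a' + 2 b' xM - 2 K' bM = Pc - pt`: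
  `Ns - Nn = cyVel + P' dX + b' dX² + K' dV - 2 K' dX dB`   (`≤ 1 + (9A+9) δ`),
  `Ds + T Ns - Cc = cyPos + P' dB_T + (b' + T K')(dV + T dX²) - K' dB_T²`, `dB_T = dB + T dX`   (`≤ (18A+19) δ`).
* card.  integers in `[a,b]`: `≤ b - a + 1`:  `4 #lst`, `3δ/ρ + 2 ≤ 5δ/ρ`, `12δ/ρ² + 2 ≤ 14δ/ρ²`, `2A+3 ≤ 5A` (twice), `10A+11 ≤ 21A`;  `4·5·14·25·21 = 147000`.
-/

set_option autoImplicit false

namespace Claimed.Agent.R256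

/-! ### bins and integer intervals -/

/-- `x` lies in the `k`-th bin of width `w` -/
def chGBin (w x : ℝ) (k : ℤ) : Prop := (k : ℝ) * w ≤ x ∧ x < ((k : ℝ) + 1) * w

theorem ch_g_bin_ex (w x : ℝ) (hw : 0 < w) : chGBin w x ⌊x / w⌋ := by
  refine ⟨?_, ?_⟩
  · have := Int.floor_le (x / w)
    rwa [le_div_iff₀ hw] at this
  · have := Int.lt_floor_add_one (x / w)
    rwa [div_lt_iff₀ hw] at this

theorem ch_g_bin_uniq (w x : ℝ) (hw : 0 < w) (k k' : ℤ) (h : chGBin w x k) (h' : chGBin w x k') : k = k' := by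
  have h1 : (k : ℝ) < (k' : ℝ) + 1 := by
    have := lt_of_le_of_lt h.1 h'.2
    exact lt_of_mul_lt_mul_right this hw.le
  have h2 : (k' : ℝ) < (k : ℝ) + 1 := by
    have := lt_of_le_of_lt h'.1 h.2
    exact lt_of_mul_lt_mul_right this hw.le
  have h3 : k < k' + 1 := by exact_mod_cast h1
  have h4 : k' < k + 1 := by exact_mod_cast h2
  omega

/-- the integers in `[a, b]` -/
noncomputable def chGI (a b : ℝ) : Finset ℤ := Finset.Icc ⌈a⌉ ⌊b⌋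

theorem ch_g_I_mem (a b : ℝ) (k : ℤ) : k ∈ chGI a b ↔ a ≤ (k : ℝ) ∧ (k : ℝ) ≤ b := by
  simp [chGI, Int.ceil_le, Int.le_floor]

theorem ch_g_I_card (a b : ℝ) (h : a ≤ b) : ((chGI a b).card : ℝ) ≤ b - a + 1 := by
  unfold chGI
  rw [Int.card_Icc]
  have h1 : ((⌊b⌋ : ℤ) : ℝ) ≤ b := Int.floor_le b
  have h2 : a ≤ ((⌈a⌉ : ℤ) : ℝ) := Int.le_ceil a
  rcases le_total 0 (⌊b⌋ + 1 - ⌈a⌉) with h0 | h0
  · have : (((⌊b⌋ + 1 - ⌈a⌉).toNat : ℤ) : ℝ) = ((⌊b⌋ + 1 - ⌈a⌉ : ℤ) : ℝ) := by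
      rw [Int.toNat_of_nonneg h0]
    have h3 : (((⌊b⌋ + 1 - ⌈a⌉).toNat : ℕ) : ℝ) = ((⌊b⌋ + 1 - ⌈a⌉ : ℤ) : ℝ) := by
      rw [← this]; norm_cast
    rw [h3]
    push_cast
    linarith
  · rw [Int.toNat_of_nonpos h0]
    simp only [Nat.cast_zero]
    linarith

theorem ch_g_card_bi {α β : Type} [DecidableEq β] (s : Finset α) (f : α → Finset β) (a b : ℝ) (ha : (s.card : ℝ) ≤ a)
    (hb : ∀ x ∈ s, ((f x).card : ℝ) ≤ b) (hb0 : 0 ≤ b) : ((s.biUnion f).card : ℝ) ≤ a * b := by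
  have h1 : ((s.biUnion f).card : ℝ) ≤ ∑ x ∈ s, ((f x).card : ℝ) := by
    exact_mod_cast Finset.card_biUnion_le
  have h2 : ∑ x ∈ s, ((f x).card : ℝ) ≤ ∑ _x ∈ s, b := Finset.sum_le_sum hb
  rw [Finset.sum_const, nsmul_eq_mul] at h2
  exact h1.trans (h2.trans (mul_le_mul_of_nonneg_right ha hb0))

/-! ### scales and keys -/

/-- the scales `(δ, ρ, W1, W2, A)` -/
structure ChSc where
  d : ℝ
  rho : ℝ
  W1 : ℝ
  W2 : ℝ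
  A : ℝ

/-- what is used of the scales -/
structure ChSc.Ok (s : ChSc) : Prop where
  rho_pos : 0 < s.rho
  rho_le : s.rho ≤ s.d
  d_le : s.d ≤ 1
  W1rho : s.W1 * s.rho = s.d
  W2_pos : 0 < s.W2
  W2rho : s.W2 * s.rho ≤ s.W1
  A1 : 1 ≤ s.A

/-- a key -/
structure ChKey where
  k1 : ℤ
  k2 : ℤ
  k3 : ℤ
  k4 : ℤ
  k5 : ℤ
  k6 : ℤ

noncomputable instance chGKeyDec : DecidableEq ChKey := Classical.decEq _

namespace ChKey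

variable (k : ChKey) (s : ChSc)

def xM : ℝ := (k.k1 : ℝ) * s.rho
def bM : ℝ := (k.k2 : ℝ) * s.rho
def vM : ℝ := (k.k3 : ℝ) * s.rho ^ 2
def bt : ℝ := (k.k4 : ℝ) * s.W2
def Kt : ℝ := (k.k5 : ℝ) * s.W2
def pt : ℝ := (k.k6 : ℝ) * s.W1

end ChKey

/-- the base box of a key -/
def chGBox (s : ChSc) (k : ChKey) (X B Y : ℝ) : Prop :=
  chGBin s.rho X k.k1 ∧ chGBin s.rho B k.k2 ∧ chGBin (s.rho ^ 2) (Y - 2 * k.xM s * B) k.k3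

/-- the cell of a key -/
def chGCell (s : ChSc) (k : ChKey) (X B Y be0 K0 P0 : ℝ) : Prop :=
  chGBox s k X B Y ∧ chGBin s.W2 be0 k.k4 ∧ chGBin s.W2 K0 k.k5 ∧ chGBin s.W1 (P0 - 2 * k.bt s * X + 2 * k.Kt s * B) k.k6

/-- centre of the sixth bin -/
def chGPc (s : ChSc) (T : ℝ) (Q : CyT) (k : ChKey) : ℝ :=
  Q.al + 2 * ((Q.be - T * Q.K) - k.bt s) * k.xM s - 2 * (Q.K - k.Kt s) * k.bM s

/-- the keys of a label, as a predicate -/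
def chGKeyP (s : ChSc) (T : ℝ) (Q : CyT) (lst : Finset ℝ) (k : ChKey) : Prop :=
  (∃ c ∈ lst, c - 2 * s.rho ≤ k.xM s ∧ k.xM s ≤ c + s.rho) ∧
  (Q.b - T * k.xM s - 2 * s.d - s.rho ≤ k.bM s ∧ k.bM s ≤ Q.b - T * k.xM s + s.d) ∧
  (Q.y - 2 * k.xM s * Q.b + T * k.xM s ^ 2 - 6 * s.d - s.rho ^ 2 ≤ k.vM s ∧ k.vM s ≤ Q.y - 2 * k.xM s * Q.b + T * k.xM s ^ 2 + 6 * s.d) ∧
  |k.bt s - (Q.be - T * Q.K)| ≤ (s.A + 1) * s.W2 ∧ |k.Kt s - Q.K| ≤ (s.A + 1) * s.W2 ∧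
  |k.pt s - chGPc s T Q k| ≤ (5 * s.A + 5) * s.W1

/-- the keys of a label, as a finite set -/
noncomputable def chGKeys (s : ChSc) (T : ℝ) (Q : CyT) (lst : Finset ℝ) : Finset ChKey :=
  (lst.biUnion fun c => chGI (c / s.rho - 2) (c / s.rho + 1)).biUnion fun k1 =>
  (chGI ((Q.b - T * ((k1 : ℝ) * s.rho) - 2 * s.d) / s.rho - 1) ((Q.b - T * ((k1 : ℝ) * s.rho) + s.d) / s.rho)).biUnion fun k2 =>
  (chGI ((Q.y - 2 * ((k1 : ℝ) * s.rho) * Q.b + T * ((k1 : ℝ) * s.rho) ^ 2 - 6 * s.d) / s.rho ^ 2 - 1)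
      ((Q.y - 2 * ((k1 : ℝ) * s.rho) * Q.b + T * ((k1 : ℝ) * s.rho) ^ 2 + 6 * s.d) / s.rho ^ 2)).biUnion fun k3 =>
  (chGI ((Q.be - T * Q.K) / s.W2 - (s.A + 1)) ((Q.be - T * Q.K) / s.W2 + (s.A + 1))).biUnion fun k4 =>
  (chGI (Q.K / s.W2 - (s.A + 1)) (Q.K / s.W2 + (s.A + 1))).biUnion fun k5 =>
  (chGI (chGPc s T Q ⟨k1, k2, k3, k4, k5, 0⟩ / s.W1 - (5 * s.A + 5)) (chGPc s T Q ⟨k1, k2, k3, k4, k5, 0⟩ / s.W1 + (5 * s.A + 5))).image fun k6 =>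
    (⟨k1, k2, k3, k4, k5, k6⟩ : ChKey)

/-- sheared normal velocity -/
def chGNs (s : ChSc) (k : ChKey) (X B Y N : ℝ) : ℝ := N - (k.pt s * X + k.bt s * X ^ 2 + k.Kt s * (Y - 2 * X * B))

/-- sheared normal position (at the starting time) -/
def chGDs (s : ChSc) (k : ChKey) (B Y D : ℝ) : ℝ := D - (k.pt s * B + k.bt s * Y - k.Kt s * B ^ 2)

/-- centre of the scalar velocity test of a label over a key -/
def chGNn (s : ChSc) (T : ℝ) (Q : CyT) (k : ChKey) : ℝ :=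
  Q.c + (Q.al - k.pt s) * k.xM s + ((Q.be - T * Q.K) - k.bt s) * k.xM s ^ 2 + (Q.K - k.Kt s) * k.vM s

/-- centre of the scalar position test of a label over a key -/
def chGCc (s : ChSc) (T : ℝ) (Q : CyT) (k : ChKey) : ℝ :=
  Q.d + (Q.al - k.pt s) * (k.bM s + T * k.xM s)
    + (((Q.be - T * Q.K) - k.bt s) + T * (Q.K - k.Kt s)) * (k.vM s + 2 * k.xM s * k.bM s + T * k.xM s ^ 2)
    - (Q.K - k.Kt s) * (k.bM s + T * k.xM s) ^ 2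

/-- the cylinder test = base box of the key x sheared scalar box -/
def chGTest (s : ChSc) (k : ChKey) (n b f : ℝ) : CyT :=
  ⟨k.xM s, k.bM s, k.vM s + 2 * k.xM s * k.bM s, s.rho, f, n, b, k.pt s, k.bt s, k.Kt s⟩

/-! ### consequences of `ChSc.Ok`, offsets -/

theorem ch_g_W1_pos (s : ChSc) (hs : s.Ok) : 0 < s.W1 := by
  have h1 : 0 < s.W1 * s.rho := by rw [hs.W1rho]; linarith [hs.rho_pos, hs.rho_le]
  exact (pos_iff_pos_of_mul_pos h1).mpr hs.rho_pos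

theorem ch_g_W2rho2 (s : ChSc) (hs : s.Ok) : s.W2 * s.rho ^ 2 ≤ s.d := by
  have := mul_le_mul_of_nonneg_right hs.W2rho hs.rho_pos.le
  rw [hs.W1rho] at this
  calc s.W2 * s.rho ^ 2 = s.W2 * s.rho * s.rho := by ring
    _ ≤ s.d := this

theorem ch_g_abs_mul_le (a x α ξ : ℝ) (ha : |a| ≤ α) (hx : |x| ≤ ξ) : |a * x| ≤ α * ξ := by
  rw [abs_mul]
  exact mul_le_mul ha hx (abs_nonneg _) (le_trans (abs_nonneg _) ha)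

/-- the offsets of a particle in the base box of a key -/
theorem ch_g_box_off (s : ChSc) (k : ChKey) (X B Y : ℝ) (hbox : chGBox s k X B Y) :
    (0 ≤ X - k.xM s ∧ X - k.xM s ≤ s.rho) ∧ (0 ≤ B - k.bM s ∧ B - k.bM s ≤ s.rho) ∧
      (0 ≤ Y - 2 * k.xM s * B - k.vM s ∧ Y - 2 * k.xM s * B - k.vM s ≤ s.rho ^ 2) := by
  obtain ⟨⟨hx1, hx2⟩, ⟨hb1, hb2⟩, ⟨hv1, hv2⟩⟩ := hbox
  unfold ChKey.bM ChKey.vM
  unfold ChKey.xM at *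
  refine ⟨⟨by linarith, by linarith⟩, ⟨by linarith, by linarith⟩, ⟨by linarith, by linarith⟩⟩

/-! ### the leaves -/

theorem ch_g_I_mem_sym (c w a : ℝ) (hw : 0 < w) (k : ℤ) : k ∈ chGI (c / w - a) (c / w + a) ↔ |(k : ℝ) * w - c| ≤ a * w := by
  obtain ⟨q, rfl⟩ : ∃ q, c = q * w := ⟨c / w, by field_simp⟩
  rw [ch_g_I_mem, abs_le, mul_div_assoc, div_self hw.ne', mul_one]
  have e1 : q - a ≤ (k : ℝ) ↔ -(a * w) ≤ (k : ℝ) * w - q * w := by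
    constructor
    · intro h; nlinarith
    · intro h; by_contra hc; push Not at hc; nlinarith
  have e2 : (k : ℝ) ≤ q + a ↔ (k : ℝ) * w - q * w ≤ a * w := by
    constructor
    · intro h; nlinarith
    · intro h; by_contra hc; push Not at hc; nlinarith
  rw [e1, e2]

theorem ch_g_I_mem_div (lo hi w a : ℝ) (hw : 0 < w) (k : ℤ) : k ∈ chGI (lo / w - a) (hi / w) ↔ lo - a * w ≤ (k : ℝ) * w ∧ (k : ℝ) * w ≤ hi := by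
  rw [ch_g_I_mem, sub_le_iff_le_add, div_le_iff₀ hw, le_div_iff₀ hw]
  constructor
  · rintro ⟨h1, h2⟩; constructor <;> nlinarith
  · rintro ⟨h1, h2⟩; constructor <;> nlinarith

/-- leaf CL2a -/
theorem ch_g_keys_mem (s : ChSc) (hs : s.Ok) (T : ℝ) (Q : CyT) (lst : Finset ℝ) (k : ChKey) :
    k ∈ chGKeys s T Q lst ↔ chGKeyP s T Q lst k := by
  have hρ := hs.rho_pos
  have hρ2 : 0 < s.rho ^ 2 := by positivity
  have hW1 := ch_g_W1_pos s hs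
  have hW2 := hs.W2_pos
  have hP : ∀ k1 k2 k3 k4 k5 k6 : ℤ, chGPc s T Q ⟨k1, k2, k3, k4, k5, 0⟩ = chGPc s T Q ⟨k1, k2, k3, k4, k5, k6⟩ := fun _ _ _ _ _ _ => rfl
  have h1 : ∀ (c : ℝ) (k1 : ℤ), k1 ∈ chGI (c / s.rho - 2) (c / s.rho + 1) ↔ c - 2 * s.rho ≤ (k1 : ℝ) * s.rho ∧ (k1 : ℝ) * s.rho ≤ c + s.rho := by
    intro c k1
    rw [ch_g_I_mem, sub_le_iff_le_add, div_le_iff₀ hρ, ← sub_le_iff_le_add, le_div_iff₀ hρ]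
    constructor
    · rintro ⟨h1, h2⟩; constructor <;> nlinarith
    · rintro ⟨h1, h2⟩; constructor <;> nlinarith
  unfold chGKeys chGKeyP
  simp only [Finset.mem_biUnion, Finset.mem_image]
  constructor
  · rintro ⟨k1, ⟨c, hc, m1⟩, k2, m2, k3, m3, k4, m4, k5, m5, k6, m6, rfl⟩
    rw [h1] at m1
    rw [ch_g_I_mem_div _ _ _ _ hρ] at m2
    rw [ch_g_I_mem_div _ _ _ _ hρ2] at m3
    rw [ch_g_I_mem_sym _ _ _ hW2] at m4 m5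
    rw [ch_g_I_mem_sym _ _ _ hW1, hP k1 k2 k3 k4 k5 k6] at m6
    refine ⟨⟨c, hc, m1⟩, ⟨?_, m2.2⟩, ⟨?_, m3.2⟩, m4, m5, m6⟩
    · have := m2.1
      show Q.b - T * ((k1 : ℝ) * s.rho) - 2 * s.d - s.rho ≤ (k2 : ℝ) * s.rho
      linarith
    · have := m3.1
      show Q.y - 2 * ((k1 : ℝ) * s.rho) * Q.b + T * ((k1 : ℝ) * s.rho) ^ 2 - 6 * s.d - s.rho ^ 2 ≤ (k3 : ℝ) * s.rho ^ 2
      linarith
  · rintro ⟨⟨c, hc, m1⟩, m2, m3, m4, m5, m6⟩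
    obtain ⟨k1, k2, k3, k4, k5, k6⟩ := k
    refine ⟨k1, ⟨c, hc, (h1 c k1).mpr m1⟩, k2, ?_, k3, ?_, k4, ?_, k5, ?_, k6, ?_, rfl⟩
    · rw [ch_g_I_mem_div _ _ _ _ hρ]
      refine ⟨?_, m2.2⟩
      have := m2.1
      change Q.b - T * ((k1 : ℝ) * s.rho) - 2 * s.d - s.rho ≤ (k2 : ℝ) * s.rho at this
      linarith
    · rw [ch_g_I_mem_div _ _ _ _ hρ2]
      refine ⟨?_, m3.2⟩
      have := m3.1
      change Q.y - 2 * ((k1 : ℝ) * s.rho) * Q.b + T * ((k1 : ℝ) * s.rho) ^ 2 - 6 * s.d - s.rho ^ 2 ≤ (k3 : ℝ) * s.rho ^ 2 at this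
      linarith
    · rw [ch_g_I_mem_sym _ _ _ hW2]; exact m4
    · rw [ch_g_I_mem_sym _ _ _ hW2]; exact m5
    · rw [ch_g_I_mem_sym _ _ _ hW1, hP k1 k2 k3 k4 k5 k6]; exact m6

/-- leaf CL2b : (G1) + (G2) -/
theorem ch_g_card (s : ChSc) (hs : s.Ok) (T : ℝ) (Q : CyT) (lst : Finset ℝ) :
    ((chGKeys s T Q lst).card : ℝ) ≤ (lst.card : ℝ) * (147000 * s.A ^ 3 * (s.d ^ 2 / s.rho ^ 3)) := by
  have hρ := hs.rho_pos
  have hA := hs.A1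
  have hd0 : 0 < s.d := lt_of_lt_of_le hρ hs.rho_le
  have q1 : 1 ≤ s.d / s.rho := by rw [le_div_iff₀ hρ]; linarith [hs.rho_le]
  have q2 : 1 ≤ s.d / s.rho ^ 2 := by
    rw [le_div_iff₀ (by positivity)]
    nlinarith [hs.rho_le, hs.d_le]
  have hfin : (lst.card : ℝ) * (147000 * s.A ^ 3 * (s.d ^ 2 / s.rho ^ 3))
      = (lst.card : ℝ) * 4 * ((5 * (s.d / s.rho)) * ((14 * (s.d / s.rho ^ 2)) * ((5 * s.A) * ((5 * s.A) * (21 * s.A))))) := by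
    field_simp
    ring
  rw [hfin]
  unfold chGKeys
  refine ch_g_card_bi _ _ _ _ ?_ (fun k1 _ => ?_) (by positivity)
  · refine ch_g_card_bi _ _ _ _ le_rfl (fun c _ => ?_) (by norm_num)
    refine (ch_g_I_card _ _ (by linarith)).trans (by linarith)
  refine ch_g_card_bi _ _ _ _ ?_ (fun k2 _ => ?_) (by positivity)
  · have e : (Q.b - T * ((k1 : ℝ) * s.rho) + s.d) / s.rho - ((Q.b - T * ((k1 : ℝ) * s.rho) - 2 * s.d) / s.rho - 1) = 3 * (s.d / s.rho) + 1 := by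
      field_simp; ring
    refine (ch_g_I_card _ _ (by linarith)).trans (by linarith)
  refine ch_g_card_bi _ _ _ _ ?_ (fun k3 _ => ?_) (by positivity)
  · have e : (Q.y - 2 * ((k1 : ℝ) * s.rho) * Q.b + T * ((k1 : ℝ) * s.rho) ^ 2 + 6 * s.d) / s.rho ^ 2
        - ((Q.y - 2 * ((k1 : ℝ) * s.rho) * Q.b + T * ((k1 : ℝ) * s.rho) ^ 2 - 6 * s.d) / s.rho ^ 2 - 1) = 12 * (s.d / s.rho ^ 2) + 1 := by
      field_simp; ring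
    refine (ch_g_I_card _ _ (by linarith)).trans (by linarith)
  refine ch_g_card_bi _ _ _ _ ?_ (fun k4 _ => ?_) (by positivity)
  · refine (ch_g_I_card _ _ (by linarith)).trans (by linarith)
  refine ch_g_card_bi _ _ _ _ ?_ (fun k5 _ => ?_) (by positivity)
  · refine (ch_g_I_card _ _ (by linarith)).trans (by linarith)
  refine (Nat.cast_le.mpr Finset.card_image_le).trans ?_
  refine (ch_g_I_card _ _ (by linarith)).trans (by linarith)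

/-- two cells of the same particle coincide -/
theorem ch_g_cell_uniq (s : ChSc) (hs : s.Ok) (k k' : ChKey) (X B Y be0 K0 P0 : ℝ)
    (h : chGCell s k X B Y be0 K0 P0) (h' : chGCell s k' X B Y be0 K0 P0) : k = k' := by
  obtain ⟨⟨a1, a2, a3⟩, a4, a5, a6⟩ := h
  obtain ⟨⟨b1, b2, b3⟩, b4, b5, b6⟩ := h'
  have hρ := hs.rho_pos
  have e1 := ch_g_bin_uniq _ _ hρ _ _ a1 b1
  have e2 := ch_g_bin_uniq _ _ hρ _ _ a2 b2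
  have e4 := ch_g_bin_uniq _ _ hs.W2_pos _ _ a4 b4
  have e5 := ch_g_bin_uniq _ _ hs.W2_pos _ _ a5 b5
  have e3 : k.k3 = k'.k3 := by
    have : k.xM s = k'.xM s := by unfold ChKey.xM; rw [e1]
    rw [this] at a3
    exact ch_g_bin_uniq _ _ (by positivity) _ _ a3 b3
  have e6 : k.k6 = k'.k6 := by
    have h1 : k.bt s = k'.bt s := by unfold ChKey.bt; rw [e4]
    have h2 : k.Kt s = k'.Kt s := by unfold ChKey.Kt; rw [e5]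
    rw [h1, h2] at a6
    exact ch_g_bin_uniq _ _ (ch_g_W1_pos s hs) _ _ a6 b6
  cases k; cases k'
  simp only at e1 e2 e3 e4 e5 e6
  subst e1 e2 e3 e4 e5 e6
  rfl

/-- bin, as offsets -/
theorem ch_g_bin_off (w x : ℝ) (k : ℤ) (h : chGBin w x k) : 0 ≤ x - (k : ℝ) * w ∧ x - (k : ℝ) * w ≤ w := by
  obtain ⟨h1, h2⟩ := h
  constructor <;> linarith

theorem ch_g_cov_p2 (d ρ T X B xM bM qb : ℝ) (hρd : ρ ≤ d) (hT0 : 0 ≤ T) (hT1 : T ≤ 1) (hX0 : 0 ≤ X - xM) (hX1 : X - xM ≤ ρ)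
    (hB0 : 0 ≤ B - bM) (hB1 : B - bM ≤ ρ) (i2 : |B + T * X - qb| ≤ d) :
    qb - T * xM - 2 * d - ρ ≤ bM ∧ bM ≤ qb - T * xM + d := by
  have hu : T * (X - xM) = T * X - T * xM := by ring
  have hTX0 : 0 ≤ T * (X - xM) := mul_nonneg hT0 hX0
  have hTX1 : T * (X - xM) ≤ ρ := by nlinarith
  rw [abs_le] at i2
  constructor <;> linarith [i2.1, i2.2]

theorem ch_g_cov_p3 (d ρ T X B Y xM vM qx qb qy : ℝ) (hρ : 0 < ρ) (hρd : ρ ≤ d) (hd1 : d ≤ 1) (hT0 : 0 ≤ T) (hT1 : T ≤ 1)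
    (hX0 : 0 ≤ X - xM) (hX1 : X - xM ≤ ρ) (hV0 : 0 ≤ Y - 2 * xM * B - vM) (hV1 : Y - 2 * xM * B - vM ≤ ρ ^ 2)
    (i1 : |X - qx| ≤ 1) (i2 : |B + T * X - qb| ≤ d) (i3 : |Y + T * X ^ 2 - qy - 2 * qx * (B + T * X - qb)| ≤ d) :
    qy - 2 * xM * qb + T * xM ^ 2 - 6 * d - ρ ^ 2 ≤ vM ∧ vM ≤ qy - 2 * xM * qb + T * xM ^ 2 + 6 * d := by
  have hid : Y - 2 * xM * B = qy - 2 * xM * qb + T * xM ^ 2 + 2 * ((qx - xM) * (B + T * X - qb))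
      + (Y + T * X ^ 2 - qy - 2 * qx * (B + T * X - qb)) - T * (X - xM) ^ 2 := by ring
  have a1 : |qx - xM| ≤ 2 := by
    rw [abs_le] at i1 ⊢
    constructor <;> linarith [i1.1, i1.2]
  have a2 := ch_g_abs_mul_le _ _ _ _ a1 i2
  have a3 : 0 ≤ T * (X - xM) ^ 2 := mul_nonneg hT0 (sq_nonneg _)
  have a4 : (X - xM) ^ 2 ≤ ρ ^ 2 := pow_le_pow_left₀ hX0 hX1 2
  have a5 : ρ ^ 2 ≤ d := by nlinarith
  have a6 : T * (X - xM) ^ 2 ≤ d := by nlinarith [sq_nonneg (X - xM)]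
  rw [abs_le] at a2 i3
  constructor <;> linarith [a2.1, a2.2, i3.1, i3.2]

theorem ch_g_cov_p4 (A W x bt c : ℝ) (h0 : 0 ≤ x - bt) (h1 : x - bt ≤ W) (h : |x - c| ≤ A * W) : |bt - c| ≤ (A + 1) * W := by
  rw [abs_le] at h ⊢
  constructor <;> linarith [h.1, h.2]

theorem ch_g_cov_p6 (A ρ W1 W2 T X B xM bM bt Kt pt P0 al be K : ℝ) (hA : 1 ≤ A) (hW : W2 * ρ ≤ W1)
    (hX0 : 0 ≤ X - xM) (hX1 : X - xM ≤ ρ) (hB0 : 0 ≤ B - bM) (hB1 : B - bM ≤ ρ)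
    (hb : |bt - (be - T * K)| ≤ (A + 1) * W2) (hK : |Kt - K| ≤ (A + 1) * W2)
    (h60 : 0 ≤ P0 - 2 * bt * X + 2 * Kt * B - pt) (h61 : P0 - 2 * bt * X + 2 * Kt * B - pt ≤ W1)
    (h3 : |P0 - (al + 2 * be * X - 2 * K * (B + T * X))| ≤ A * W1) :
    |pt - (al + 2 * ((be - T * K) - bt) * xM - 2 * (K - Kt) * bM)| ≤ (5 * A + 5) * W1 := by
  have hid : P0 - 2 * bt * X + 2 * Kt * B - (al + 2 * ((be - T * K) - bt) * xM - 2 * (K - Kt) * bM)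
      = (P0 - (al + 2 * be * X - 2 * K * (B + T * X))) - 2 * ((bt - (be - T * K)) * (X - xM)) + 2 * ((Kt - K) * (B - bM)) := by ring
  have aX : |X - xM| ≤ ρ := abs_le.mpr ⟨by linarith, hX1⟩
  have aB : |B - bM| ≤ ρ := abs_le.mpr ⟨by linarith, hB1⟩
  have w : (A + 1) * W2 * ρ ≤ (A + 1) * W1 := by
    rw [mul_assoc]; exact mul_le_mul_of_nonneg_left hW (by linarith)
  have t1 := (ch_g_abs_mul_le _ _ _ _ hb aX).trans w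
  have t2 := (ch_g_abs_mul_le _ _ _ _ hK aB).trans w
  rw [abs_le] at t1 t2 h3 ⊢
  constructor <;> linarith [t1.1, t1.2, t2.1, t2.2, h3.1, h3.2]

/-- leaf CL2c : a particle read by a label in a listed angle cell lies in the cell of a key of the label -/
theorem ch_g_cover (s : ChSc) (hs : s.Ok) (T : ℝ) (hT0 : 0 ≤ T) (hT1 : T ≤ 1) (Q : CyT) (hr : Q.r = 1) (hf : Q.f = 1) (lst : Finset ℝ)
    (X B Y N D be0 K0 P0 : ℝ) (hin : cyIn Q s.d ⟨X, B + T * X, Y + T * X ^ 2, N, D + T * N⟩)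
    (h1 : |be0 - (Q.be - T * Q.K)| ≤ s.A * s.W2) (h2 : |K0 - Q.K| ≤ s.A * s.W2)
    (h3 : |P0 - (Q.al + 2 * Q.be * X - 2 * Q.K * (B + T * X))| ≤ s.A * s.W1) (hc : ∃ c ∈ lst, |X - c| ≤ s.rho) :
    ∃ k, chGKeyP s T Q lst k ∧ chGCell s k X B Y be0 K0 P0 := by
  have hρ := hs.rho_pos
  have hW1 := ch_g_W1_pos s hs
  have hW2 := hs.W2_pos
  -- the six floors
  obtain ⟨k1, c1⟩ : ∃ k1 : ℤ, chGBin s.rho X k1 := ⟨_, ch_g_bin_ex _ _ hρ⟩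
  obtain ⟨k2, c2⟩ : ∃ k2 : ℤ, chGBin s.rho B k2 := ⟨_, ch_g_bin_ex _ _ hρ⟩
  obtain ⟨k3, c3⟩ : ∃ k3 : ℤ, chGBin (s.rho ^ 2) (Y - 2 * ((k1 : ℝ) * s.rho) * B) k3 := ⟨_, ch_g_bin_ex _ _ (by positivity)⟩
  obtain ⟨k4, c4⟩ : ∃ k4 : ℤ, chGBin s.W2 be0 k4 := ⟨_, ch_g_bin_ex _ _ hW2⟩
  obtain ⟨k5, c5⟩ : ∃ k5 : ℤ, chGBin s.W2 K0 k5 := ⟨_, ch_g_bin_ex _ _ hW2⟩
  obtain ⟨k6, c6⟩ : ∃ k6 : ℤ, chGBin s.W1 (P0 - 2 * ((k4 : ℝ) * s.W2) * X + 2 * ((k5 : ℝ) * s.W2) * B) k6 := ⟨_, ch_g_bin_ex _ _ hW1⟩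
  refine ⟨⟨k1, k2, k3, k4, k5, k6⟩, ?_, ⟨c1, c2, c3⟩, c4, c5, c6⟩
  obtain ⟨hX0, hX1⟩ := ch_g_bin_off _ _ _ c1
  obtain ⟨hB0, hB1⟩ := ch_g_bin_off _ _ _ c2
  obtain ⟨hV0, hV1⟩ := ch_g_bin_off _ _ _ c3
  obtain ⟨h40, h41⟩ := ch_g_bin_off _ _ _ c4
  obtain ⟨h50, h51⟩ := ch_g_bin_off _ _ _ c5
  obtain ⟨h60, h61⟩ := ch_g_bin_off _ _ _ c6
  obtain ⟨i1, i2, i3, -, -⟩ := hin
  rw [hr] at i1 i2 i3
  unfold cyTilt at i3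
  simp only [mul_one, one_pow] at i1 i2 i3
  obtain ⟨c, hcl, hc⟩ := hc
  have p4 := ch_g_cov_p4 _ _ _ _ _ h40 h41 h1
  have p5 := ch_g_cov_p4 _ _ _ _ _ h50 h51 h2
  rw [abs_le] at hc
  exact ⟨⟨c, hcl, by show c - 2 * s.rho ≤ (k1 : ℝ) * s.rho; linarith [hc.1, hc.2], by show (k1 : ℝ) * s.rho ≤ c + s.rho; linarith [hc.1, hc.2]⟩,
    ch_g_cov_p2 _ _ _ _ _ _ _ _ hs.rho_le hT0 hT1 hX0 hX1 hB0 hB1 i2,
    ch_g_cov_p3 _ _ _ _ _ _ _ _ _ _ _ hρ hs.rho_le hs.d_le hT0 hT1 hX0 hX1 hV0 hV1 i1 i2 i3, p4, p5,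
    ch_g_cov_p6 _ _ _ _ _ _ _ _ _ _ _ _ _ _ _ _ hs.A1 hs.W2rho hX0 hX1 hB0 hB1 p4 p5 h60 h61 h3⟩

theorem ch_g_tay_vel (A d ρ W1 W2 : ℝ) (hA : 1 ≤ A) (hd0 : 0 < d) (hd1 : d ≤ 1) (w1 : W1 * ρ = d) (w2 : W2 * ρ ^ 2 ≤ d)
    (P' b' K' dX dB dV vel : ℝ) (hP : |P'| ≤ (5 * A + 5) * W1) (hb : |b'| ≤ (A + 1) * W2) (hK : |K'| ≤ (A + 1) * W2)
    (hX0 : 0 ≤ dX) (hX1 : dX ≤ ρ) (hB0 : 0 ≤ dB) (hB1 : dB ≤ ρ) (hV0 : 0 ≤ dV) (hV1 : dV ≤ ρ ^ 2) (hvel : |vel| ≤ 1) :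
    |vel + P' * dX + b' * dX ^ 2 + K' * dV - 2 * (K' * (dX * dB))| ≤ 37 * A := by
  have aX : |dX| ≤ ρ := abs_le.mpr ⟨by linarith, hX1⟩
  have aB : |dB| ≤ ρ := abs_le.mpr ⟨by linarith, hB1⟩
  have aV : |dV| ≤ ρ ^ 2 := abs_le.mpr ⟨by linarith, hV1⟩
  have aX2 : |dX ^ 2| ≤ ρ ^ 2 := by
    rw [abs_pow]; exact pow_le_pow_left₀ (abs_nonneg _) aX 2
  have aXB : |dX * dB| ≤ ρ ^ 2 := by
    have := ch_g_abs_mul_le _ _ _ _ aX aB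
    calc |dX * dB| ≤ ρ * ρ := this
      _ = ρ ^ 2 := by ring
  have w1' : (5 * A + 5) * W1 * ρ = (5 * A + 5) * d := by rw [mul_assoc, w1]
  have w2' : (A + 1) * W2 * ρ ^ 2 ≤ (A + 1) * d := by
    rw [mul_assoc]; exact mul_le_mul_of_nonneg_left w2 (by linarith)
  have hAd : A * d ≤ A := by nlinarith
  have t1 := ch_g_abs_mul_le _ _ _ _ hP aX
  rw [w1'] at t1
  have t2 := (ch_g_abs_mul_le _ _ _ _ hb aX2).trans w2'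
  have t3 := (ch_g_abs_mul_le _ _ _ _ hK aV).trans w2'
  have t4 := (ch_g_abs_mul_le _ _ _ _ hK aXB).trans w2'
  have e1 := abs_le.mp hvel
  have e2 := abs_le.mp t1
  have e3 := abs_le.mp t2
  have e4 := abs_le.mp t3
  have e5 := abs_le.mp t4
  rw [abs_le]
  constructor <;> linarith [e1.1, e1.2, e2.1, e2.2, e3.1, e3.2, e4.1, e4.2, e5.1, e5.2]

theorem ch_g_tay_pos (A d ρ W1 W2 T : ℝ) (hA : 1 ≤ A) (hd0 : 0 < d) (w1 : W1 * ρ = d) (w2 : W2 * ρ ^ 2 ≤ d) (hT0 : 0 ≤ T) (hT1 : T ≤ 1)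
    (P' b' K' dX dB dV pos : ℝ) (hP : |P'| ≤ (5 * A + 5) * W1) (hb : |b'| ≤ (A + 1) * W2) (hK : |K'| ≤ (A + 1) * W2)
    (hX0 : 0 ≤ dX) (hX1 : dX ≤ ρ) (hB0 : 0 ≤ dB) (hB1 : dB ≤ ρ) (hV0 : 0 ≤ dV) (hV1 : dV ≤ ρ ^ 2) (hpos : |pos| ≤ d) :
    |pos + P' * (dB + T * dX) + (b' + T * K') * (dV + T * dX ^ 2) - K' * (dB + T * dX) ^ 2| ≤ 37 * A * d := by
  have aX : |dX| ≤ ρ := abs_le.mpr ⟨by linarith, hX1⟩
  have aX2 : |dX ^ 2| ≤ ρ ^ 2 := by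
    rw [abs_pow]; exact pow_le_pow_left₀ (abs_nonneg _) aX 2
  have aBT : |dB + T * dX| ≤ 2 * ρ := by
    have h1 : 0 ≤ T * dX := mul_nonneg hT0 hX0
    have h2 : T * dX ≤ ρ := by nlinarith
    exact abs_le.mpr ⟨by linarith, by linarith⟩
  have aBT2 : |(dB + T * dX) ^ 2| ≤ 4 * ρ ^ 2 := by
    rw [abs_pow]
    calc |dB + T * dX| ^ 2 ≤ (2 * ρ) ^ 2 := pow_le_pow_left₀ (abs_nonneg _) aBT 2
      _ = 4 * ρ ^ 2 := by ring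
  have aVT : |dV + T * dX ^ 2| ≤ 2 * ρ ^ 2 := by
    have h1 : 0 ≤ T * dX ^ 2 := mul_nonneg hT0 (sq_nonneg _)
    have h2 : dX ^ 2 ≤ ρ ^ 2 := le_trans (le_abs_self _) aX2
    have h3 : T * dX ^ 2 ≤ ρ ^ 2 := by nlinarith [sq_nonneg dX]
    exact abs_le.mpr ⟨by linarith, by linarith⟩
  have abK : |b' + T * K'| ≤ 2 * ((A + 1) * W2) := by
    have h1 : |T * K'| ≤ 1 * ((A + 1) * W2) := ch_g_abs_mul_le _ _ _ _ (abs_le.mpr ⟨by linarith, hT1⟩) hK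
    calc |b' + T * K'| ≤ |b'| + |T * K'| := abs_add_le _ _
      _ ≤ 2 * ((A + 1) * W2) := by linarith
  have w1' : (5 * A + 5) * W1 * ρ = (5 * A + 5) * d := by rw [mul_assoc, w1]
  have w2' : (A + 1) * W2 * ρ ^ 2 ≤ (A + 1) * d := by
    rw [mul_assoc]; exact mul_le_mul_of_nonneg_left w2 (by linarith)
  have hAd1 : d ≤ A * d := by nlinarith
  have t1 := ch_g_abs_mul_le _ _ _ _ hP aBT
  have t2 := ch_g_abs_mul_le _ _ _ _ abK aVT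
  have t3 := ch_g_abs_mul_le _ _ _ _ hK aBT2
  have t1' : |P' * (dB + T * dX)| ≤ 2 * ((5 * A + 5) * d) := by
    calc |P' * (dB + T * dX)| ≤ (5 * A + 5) * W1 * (2 * ρ) := t1
      _ = 2 * ((5 * A + 5) * W1 * ρ) := by ring
      _ = 2 * ((5 * A + 5) * d) := by rw [w1']
  have t2' : |(b' + T * K') * (dV + T * dX ^ 2)| ≤ 4 * ((A + 1) * d) := by
    calc |(b' + T * K') * (dV + T * dX ^ 2)| ≤ 2 * ((A + 1) * W2) * (2 * ρ ^ 2) := t2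
      _ = 4 * ((A + 1) * W2 * ρ ^ 2) := by ring
      _ ≤ 4 * ((A + 1) * d) := by linarith
  have t3' : |K' * (dB + T * dX) ^ 2| ≤ 4 * ((A + 1) * d) := by
    calc |K' * (dB + T * dX) ^ 2| ≤ (A + 1) * W2 * (4 * ρ ^ 2) := t3
      _ = 4 * ((A + 1) * W2 * ρ ^ 2) := by ring
      _ ≤ 4 * ((A + 1) * d) := by linarith
  have e1 := abs_le.mp hpos
  have e2 := abs_le.mp t1'
  have e3 := abs_le.mp t2'
  have e4 := abs_le.mp t3'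
  rw [abs_le]
  constructor <;> linarith [e1.1, e1.2, e2.1, e2.2, e3.1, e3.2, e4.1, e4.2]

/-- leaf CL2d : (G3) Taylor -/
theorem ch_g_taylor (s : ChSc) (hs : s.Ok) (T : ℝ) (hT0 : 0 ≤ T) (hT1 : T ≤ 1) (Q : CyT) (hr : Q.r = 1) (hf : Q.f = 1) (lst : Finset ℝ)
    (k : ChKey) (hk : chGKeyP s T Q lst k) (X B Y N D : ℝ) (hbox : chGBox s k X B Y)
    (hin : cyIn Q s.d ⟨X, B + T * X, Y + T * X ^ 2, N, D + T * N⟩) :
    |chGNs s k X B Y N - chGNn s T Q k| ≤ 37 * s.A ∧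
      |chGDs s k B Y D + T * chGNs s k X B Y N - chGCc s T Q k| ≤ 37 * s.A * s.d := by
  obtain ⟨⟨hX0, hX1⟩, ⟨hB0, hB1⟩, ⟨hV0, hV1⟩⟩ := ch_g_box_off s k X B Y hbox
  obtain ⟨-, -, -, hk4, hk5, hk6⟩ := hk
  obtain ⟨-, -, -, hvel, hpos⟩ := hin
  rw [hf] at hvel hpos
  rw [mul_one] at hpos
  have hd0 : 0 < s.d := lt_of_lt_of_le hs.rho_pos hs.rho_le
  have hW22 := ch_g_W2rho2 s hs
  rw [abs_sub_comm] at hk4 hk5 hk6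
  constructor
  · have hid : chGNs s k X B Y N - chGNn s T Q k
        = cyVel Q ⟨X, B + T * X, Y + T * X ^ 2, N, D + T * N⟩ + (chGPc s T Q k - k.pt s) * (X - k.xM s)
          + ((Q.be - T * Q.K) - k.bt s) * (X - k.xM s) ^ 2 + (Q.K - k.Kt s) * (Y - 2 * k.xM s * B - k.vM s)
          - 2 * ((Q.K - k.Kt s) * ((X - k.xM s) * (B - k.bM s))) := by
      unfold chGNs chGNn cyVel chGPc
      ring
    rw [hid]
    exact ch_g_tay_vel s.A s.d s.rho s.W1 s.W2 hs.A1 hd0 hs.d_le hs.W1rho hW22 _ _ _ _ _ _ _ hk6 hk4 hk5 hX0 hX1 hB0 hB1 hV0 hV1 hvel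
  · have hid : chGDs s k B Y D + T * chGNs s k X B Y N - chGCc s T Q k
        = cyPos Q ⟨X, B + T * X, Y + T * X ^ 2, N, D + T * N⟩ + (chGPc s T Q k - k.pt s) * ((B - k.bM s) + T * (X - k.xM s))
          + (((Q.be - T * Q.K) - k.bt s) + T * (Q.K - k.Kt s)) * ((Y - 2 * k.xM s * B - k.vM s) + T * (X - k.xM s) ^ 2)
          - (Q.K - k.Kt s) * ((B - k.bM s) + T * (X - k.xM s)) ^ 2 := by
      unfold chGDs chGNs chGCc cyPos chGPc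
      ring
    rw [hid]
    exact ch_g_tay_pos s.A s.d s.rho s.W1 s.W2 T hs.A1 hd0 hs.W1rho hW22 hT0 hT1 _ _ _ _ _ _ _ hk6 hk4 hk5 hX0 hX1 hB0 hB1 hV0 hV1 hpos

/-- (G4) -/
theorem ch_g_reg (s : ChSc) (hs : s.Ok) (k : ChKey) (X B Y N D n b f : ℝ) (hbox : chGBox s k X B Y)
    (h1 : |chGNs s k X B Y N - n| ≤ f) (h2 : |chGDs s k B Y D - b| ≤ f) :
    cyIn (chGTest s k n b f) 1 ⟨X, B + 0 * X, Y + 0 * X ^ 2, N, D + 0 * N⟩ := by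
  obtain ⟨⟨hX0, hX1⟩, ⟨hB0, hB1⟩, ⟨hV0, hV1⟩⟩ := ch_g_box_off s k X B Y hbox
  have hρ := hs.rho_pos
  unfold cyIn chGTest cyTilt cyVel cyPos
  simp only [zero_mul, add_zero, one_mul]
  refine ⟨abs_le.mpr ⟨by linarith, hX1⟩, abs_le.mpr ⟨by linarith, hB1⟩, abs_le.mpr ⟨?_, ?_⟩, ?_, ?_⟩
  · nlinarith
  · nlinarith
  · have : N - n - k.pt s * X - k.bt s * X ^ 2 - k.Kt s * (Y - 2 * X * B) = chGNs s k X B Y N - n := by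
      unfold chGNs; ring
    rw [this]; exact h1
  · have : D - b - k.pt s * B - k.bt s * Y + k.Kt s * B ^ 2 = chGDs s k B Y D - b := by
      unfold chGDs; ring
    rw [this]; exact h2

end Claimed.Agent.R256
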