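-- KEEP
import Claimed.Agent.R256.Chan.Defs

/-!
# Row 256 (LS paper), CHAN, unit CL1 : the classical scalar channel          (chief helper130; prefix `ch_scl_`)

03 l.232-245 (collision count).   Mathlib only.   Every `sorry` is a leaf: EDIT IN PLACE, statements are frozen (defects -> helper130).      v2 (21:20Z): REAL `τ`-separated sample times `Ts ⊆ [0,1]`.
Two rays are CLOSE at the sample time `t` if `|dN| ≤ 2f` and `|dD + t dN| ≤ 2 τ f`.
* `ch_scl_sep`      a `τ`-separated finite subset of an interval of length `lam` has `≤ lam/τ + 1` points      (`t ↦ ⌊(t-a)/τ⌋` is injective into `[0, lam/τ]`)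
* `ch_scl_count`    at most `4f/|dN| + 1` sample times            (`|t + dD/dN| ≤ 2τf/|dN|`)
* `ch_scl_kernel`   number of sample times `≤ Σ_i 6/(τ 2^i) 1[|dN|, |dD| ≤ 2^(i+2) τ f]`,   `i ≤ K+1`, `1 ≤ τ 2^K`
                    (`|dN| ≤ 2τf`: `i = 0`, count `≤ 1/τ + 1 ≤ 2/τ`, `|dD| ≤ 4τf`;   `2^i τ f < |dN| ≤ 2^(i+1) τ f`, `1 ≤ i ≤ K`: count `≤ 4f/|dN| + 1 ≤ 6f/|dN|`, `|dD| ≤ 2τf + |dN| ≤ 2|dN|`)
* `ch_scl_partner`  integrate the kernel: `Σ_i 6/(τ 2^i) b0 (2^(i+2) τ f)^(1-η) ≤ 24/(1-2^-η) b0 f^(1-η) τ^-η`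
* `ch_scl_main`     `Σ m_l² = ∫ Σ_l θ_l(ω) m_l dμ(ω)`, `m_l ≤ μ{ω' close to ω at tm l}` if `θ_l ω ≠ 0` (`θ ≤ 1`), `Σ_{l at t} θ_l ω ≤ 1`;   `Ts = image tm`.
-/

set_option autoImplicit false

namespace Claimed.Agent.R256

open MeasureTheory

theorem ch_scl_sep (τ a lam : ℝ) (hτ : 0 < τ) (hl : 0 ≤ lam) (Ts : Finset ℝ) (hin : ∀ t ∈ Ts, a ≤ t ∧ t ≤ a + lam)
    (hsep : ∀ t ∈ Ts, ∀ t' ∈ Ts, t ≠ t' → τ ≤ |t - t'|) : (Ts.card : ℝ) ≤ lam / τ + 1 := by
  have hnn : ∀ t ∈ Ts, 0 ≤ (t - a) / τ := fun t ht => div_nonneg (by linarith [(hin t ht).1]) hτ.le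
  have hmap : ∀ t ∈ Ts, ⌊(t - a) / τ⌋₊ ∈ Finset.range (⌊lam / τ⌋₊ + 1) := by
    intro t ht
    refine Finset.mem_range.mpr (Nat.lt_succ_of_le (Nat.floor_le_floor ?_))
    exact div_le_div_of_nonneg_right (by linarith [(hin t ht).2]) hτ.le
  have hinj : Set.InjOn (fun t : ℝ => ⌊(t - a) / τ⌋₊) (Ts : Set ℝ) := by
    intro t ht t' ht' hfl
    by_contra hne
    have h1 := hsep t ht t' ht' hne
    have hfl' : ⌊(t - a) / τ⌋₊ = ⌊(t' - a) / τ⌋₊ := hfl
    have a1 := Nat.floor_le (hnn t ht)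
    have a2 := Nat.lt_floor_add_one ((t - a) / τ)
    have b1 := Nat.floor_le (hnn t' ht')
    have b2 := Nat.lt_floor_add_one ((t' - a) / τ)
    rw [hfl'] at a1 a2
    have h2 : |(t - a) / τ - (t' - a) / τ| < 1 := by
      rw [abs_lt]; constructor <;> linarith
    have e : (t - a) / τ - (t' - a) / τ = (t - t') / τ := by ring
    rw [e, abs_div, abs_of_pos hτ, div_lt_one hτ] at h2
    linarith
  have hc := Finset.card_le_card_of_injOn _ hmap hinj
  rw [Finset.card_range] at hc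
  have hc' : (Ts.card : ℝ) ≤ (⌊lam / τ⌋₊ : ℝ) + 1 := by exact_mod_cast hc
  have := Nat.floor_le (div_nonneg hl hτ.le)
  linarith

theorem ch_scl_count (τ f dN dD : ℝ) (hτ : 0 < τ) (hf : 0 < f) (hN : dN ≠ 0) (Ts : Finset ℝ)
    (hsep : ∀ t ∈ Ts, ∀ t' ∈ Ts, t ≠ t' → τ ≤ |t - t'|) :
    ((Ts.filter fun t : ℝ => |dD + t * dN| ≤ 2 * (τ * f)).card : ℝ) ≤ 4 * f / |dN| + 1 := by
  have hpos : 0 < |dN| := abs_pos.mpr hN
  have h := ch_scl_sep τ (-dD / dN - 2 * (τ * f) / |dN|) (4 * (τ * f) / |dN|) hτ (by positivity)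
    (Ts.filter fun t : ℝ => |dD + t * dN| ≤ 2 * (τ * f)) ?_ ?_
  · refine h.trans (le_of_eq ?_)
    field_simp
  · intro t ht
    have h1 := (Finset.mem_filter.mp ht).2
    have e : dD + t * dN = (t - -dD / dN) * dN := by field_simp; ring
    rw [e, abs_mul, ← le_div_iff₀ hpos] at h1
    obtain ⟨h2, h3⟩ := abs_le.mp h1
    have e2 : 4 * (τ * f) / |dN| = 2 * (τ * f) / |dN| + 2 * (τ * f) / |dN| := by ring
    rw [e2]
    constructor <;> linarith
  · intro t ht t' ht' hne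
    exact hsep t (Finset.mem_filter.mp ht).1 t' (Finset.mem_filter.mp ht').1 hne

theorem ch_scl_kernel (τ f dN dD : ℝ) (hτ : 0 < τ) (hτ1 : τ ≤ 1) (hf : 0 < f) (h2 : |dN| ≤ 2 * f) (K : ℕ) (hK : 1 ≤ τ * 2 ^ K) (Ts : Finset ℝ)
    (hin : ∀ t ∈ Ts, 0 ≤ t ∧ t ≤ 1) (hsep : ∀ t ∈ Ts, ∀ t' ∈ Ts, t ≠ t' → τ ≤ |t - t'|) :
    ((Ts.filter fun t : ℝ => |dD + t * dN| ≤ 2 * (τ * f)).card : ℝ)
      ≤ ∑ i ∈ Finset.range (K + 2),
          6 / (τ * 2 ^ i) * (if |dN| ≤ 2 ^ (i + 2) * (τ * f) ∧ |dD| ≤ 2 ^ (i + 2) * (τ * f) then (1 : ℝ) else 0) := by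
  have hτf : 0 < τ * f := mul_pos hτ hf
  have hterm : ∀ i ∈ Finset.range (K + 2), (0:ℝ) ≤ 6 / (τ * 2 ^ i) *
      (if |dN| ≤ 2 ^ (i + 2) * (τ * f) ∧ |dD| ≤ 2 ^ (i + 2) * (τ * f) then (1 : ℝ) else 0) := by
    intro i _
    split_ifs <;> positivity
  rcases (Ts.filter fun t : ℝ => |dD + t * dN| ≤ 2 * (τ * f)).eq_empty_or_nonempty with h0 | ⟨t, ht⟩
  · rw [h0]; simp only [Finset.card_empty, Nat.cast_zero]
    exact Finset.sum_nonneg hterm
  obtain ⟨ht1, ht2⟩ := Finset.mem_filter.mp ht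
  obtain ⟨ht0, ht1'⟩ := hin t ht1
  have hD : |dD| ≤ 2 * (τ * f) + |dN| := by
    have e : dD = (dD + t * dN) - t * dN := by ring
    have h5 : |t * dN| ≤ |dN| := by
      rw [abs_mul, abs_of_nonneg ht0]
      nlinarith [abs_nonneg dN]
    calc |dD| = |(dD + t * dN) - t * dN| := by rw [← e]
      _ ≤ |dD + t * dN| + |t * dN| := abs_sub _ _
      _ ≤ 2 * (τ * f) + |dN| := add_le_add ht2 h5
  by_cases hA : |dN| ≤ 2 * (τ * f)
  · have hc : ((Ts.filter fun t : ℝ => |dD + t * dN| ≤ 2 * (τ * f)).card : ℝ) ≤ 1 / τ + 1 := by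
      have h6 := Finset.card_filter_le Ts (fun t : ℝ => |dD + t * dN| ≤ 2 * (τ * f))
      have h7 := ch_scl_sep τ 0 1 hτ zero_le_one Ts (by simpa using hin) hsep
      have h8 : ((Ts.filter fun t : ℝ => |dD + t * dN| ≤ 2 * (τ * f)).card : ℝ) ≤ Ts.card := by
        exact_mod_cast h6
      linarith
    have h0mem : 0 ∈ Finset.range (K + 2) := Finset.mem_range.mpr (by omega)
    refine le_trans ?_ (Finset.single_le_sum hterm h0mem)
    have e4 : (2:ℝ) ^ (0 + 2) * (τ * f) = 4 * (τ * f) := by norm_num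
    rw [if_pos]
    · simp only [pow_zero, mul_one]
      have h9 : 1 ≤ 1 / τ := (one_le_div hτ).mpr hτ1
      have e6 : 6 / τ = 6 * (1 / τ) := by ring
      rw [e6]; linarith
    · rw [e4]
      constructor <;> linarith
  · push Not at hA
    have hKK : |dN| ≤ 2 ^ (K + 1) * (τ * f) := by
      have : (2:ℝ) ^ (K + 1) * (τ * f) = 2 * f * (τ * 2 ^ K) := by rw [pow_succ]; ring
      rw [this]
      nlinarith
    have hex : ∃ i : ℕ, |dN| ≤ 2 ^ (i + 1) * (τ * f) := ⟨K, hKK⟩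
    classical
    obtain ⟨i, hi⟩ : ∃ i, i = Nat.find hex := ⟨_, rfl⟩
    have hi1 : |dN| ≤ 2 ^ (i + 1) * (τ * f) := by rw [hi]; exact Nat.find_spec hex
    have hik : i ≤ K := by rw [hi]; exact Nat.find_min' hex hKK
    have hi0 : i ≠ 0 := by
      intro h
      rw [h] at hi1
      simp only [zero_add, pow_one] at hi1
      linarith
    have hi2 : 2 ^ i * (τ * f) < |dN| := by
      have hlt : i - 1 < Nat.find hex := by rw [← hi]; omega
      have := Nat.find_min hex hlt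
      push Not at this
      have e : i - 1 + 1 = i := by omega
      rwa [e] at this
    have hNpos : 0 < |dN| := lt_trans (by positivity) hi2
    have hN : dN ≠ 0 := abs_pos.mp hNpos
    have hcnt := ch_scl_count τ f dN dD hτ hf hN Ts hsep
    have himem : i ∈ Finset.range (K + 2) := Finset.mem_range.mpr (by omega)
    refine le_trans ?_ (Finset.single_le_sum hterm himem)
    have e4 : (2:ℝ) ^ (i + 2) * (τ * f) = 2 * (2 ^ (i + 1) * (τ * f)) := by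
      rw [pow_succ 2 (i+1)]; ring
    have hq : 0 < (2:ℝ) ^ (i + 1) * (τ * f) := by positivity
    rw [if_pos, mul_one]
    · refine le_trans hcnt ?_
      have h6 : 1 ≤ 2 * f / |dN| := (one_le_div hNpos).mpr h2
      have h7 : 6 * f / |dN| ≤ 6 / (τ * 2 ^ i) := by
        rw [div_le_div_iff₀ hNpos (by positivity)]
        nlinarith
      have e6 : 6 * f / |dN| = 4 * f / |dN| + 2 * f / |dN| := by ring
      linarith
    · rw [e4]
      constructor <;> linarith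

theorem ch_scl_partner (η : ℝ) (hη0 : 0 < η) (hη1 : η < 1) {Om : Type} [MeasurableSpace Om] (μ : Measure Om) [IsFiniteMeasure μ]
    (N D : Om → ℝ) (hN : Measurable N) (hD : Measurable D) (τ f b0 : ℝ) (hτ : 0 < τ) (hτ1 : τ ≤ 1) (hf : 0 < f)
    (hreg : ∀ n b u : ℝ, τ * f ≤ u → (μ {ω | |N ω - n| ≤ u ∧ |D ω - b| ≤ u}).toReal ≤ b0 * u ^ (1 - η))
    (Ts : Finset ℝ) (hin : ∀ t ∈ Ts, 0 ≤ t ∧ t ≤ 1) (hsep : ∀ t ∈ Ts, ∀ t' ∈ Ts, t ≠ t' → τ ≤ |t - t'|) (n0 d0 : ℝ) :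
    ∑ t ∈ Ts, (μ {ω | |N ω - n0| ≤ 2 * f ∧ |(D ω - d0) + t * (N ω - n0)| ≤ 2 * (τ * f)}).toReal
      ≤ 24 / (1 - 2 ^ (-η)) * f ^ (1 - η) * τ ^ (-η) * b0 := by
  have hτf : 0 < τ * f := mul_pos hτ hf
  have hb0 : 0 ≤ b0 := by
    have h := hreg 0 0 (τ * f) le_rfl
    have h' : 0 ≤ b0 * (τ * f) ^ (1 - η) := le_trans ENNReal.toReal_nonneg h
    exact nonneg_of_mul_nonneg_left h' (Real.rpow_pos_of_pos hτf _)
  obtain ⟨K, hK⟩ : ∃ K : ℕ, 1 ≤ τ * 2 ^ K := by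
    obtain ⟨K, hK⟩ := pow_unbounded_of_one_lt (1 / τ) (one_lt_two : (1:ℝ) < 2)
    refine ⟨K, ?_⟩
    rw [div_lt_iff₀ hτ] at hK
    linarith
  obtain ⟨A, hAdef⟩ : ∃ A : ℝ → Set Om, A = fun t : ℝ => {ω | |N ω - n0| ≤ 2 * f ∧
      |(D ω - d0) + t * (N ω - n0)| ≤ 2 * (τ * f)} := ⟨_, rfl⟩
  obtain ⟨B, hBdef⟩ : ∃ B : ℕ → Set Om, B = fun i : ℕ => {ω | |N ω - n0| ≤ 2 ^ (i + 2) * (τ * f) ∧
      |D ω - d0| ≤ 2 ^ (i + 2) * (τ * f)} := ⟨_, rfl⟩
  have hA : ∀ t, MeasurableSet (A t) := by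
    intro t; rw [hAdef]
    have m1 : Measurable fun ω => |N ω - n0| := by fun_prop
    have m2 : Measurable fun ω => |(D ω - d0) + t * (N ω - n0)| := by fun_prop
    exact (measurableSet_le m1 measurable_const).inter (measurableSet_le m2 measurable_const)
  have hB : ∀ i, MeasurableSet (B i) := by
    intro i; rw [hBdef]
    have m1 : Measurable fun ω => |N ω - n0| := by fun_prop
    have m2 : Measurable fun ω => |D ω - d0| := by fun_prop
    exact (measurableSet_le m1 measurable_const).inter (measurableSet_le m2 measurable_const)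
  have hind : ∀ s : Set Om, MeasurableSet s →
      (μ s).toReal = ∫ ω, s.indicator (fun _ => (1:ℝ)) ω ∂μ := by
    intro s hs
    rw [integral_indicator_const _ hs]; simp [Measure.real]
  have hint : ∀ s : Set Om, MeasurableSet s → Integrable (s.indicator (fun _ => (1:ℝ))) μ :=
    fun s hs => (integrable_const (1:ℝ)).indicator hs
  have hL : ∑ t ∈ Ts, (μ {ω | |N ω - n0| ≤ 2 * f ∧
      |(D ω - d0) + t * (N ω - n0)| ≤ 2 * (τ * f)}).toReal
      = ∫ ω, ∑ t ∈ Ts, (A t).indicator (fun _ => (1:ℝ)) ω ∂μ := by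
    rw [integral_finsetSum _ (fun t _ => hint _ (hA t))]
    refine Finset.sum_congr rfl fun t _ => ?_
    rw [← hind _ (hA t), hAdef]
  rw [hL]
  have hpt : ∀ ω, ∑ t ∈ Ts, (A t).indicator (fun _ => (1:ℝ)) ω
      ≤ ∑ i ∈ Finset.range (K + 2), 6 / (τ * 2 ^ i) * (B i).indicator (fun _ => (1:ℝ)) ω := by
    intro ω
    by_cases h2 : |N ω - n0| ≤ 2 * f
    · have hk := ch_scl_kernel τ f (N ω - n0) (D ω - d0) hτ hτ1 hf h2 K hK Ts hin hsep
      have e1 : ∑ t ∈ Ts, (A t).indicator (fun _ => (1:ℝ)) ω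
          = ((Ts.filter fun t : ℝ => |(D ω - d0) + t * (N ω - n0)| ≤ 2 * (τ * f)).card : ℝ) := by
        rw [Finset.card_filter]
        push_cast
        refine Finset.sum_congr rfl fun t _ => ?_
        rw [hAdef]
        simp only [Set.indicator, Set.mem_ofPred_eq, h2, true_and]
      rw [e1]
      refine hk.trans (le_of_eq ?_)
      refine Finset.sum_congr rfl fun i _ => ?_
      rw [hBdef]
      simp only [Set.indicator, Set.mem_ofPred_eq]
    · have e1 : ∑ t ∈ Ts, (A t).indicator (fun _ => (1:ℝ)) ω = 0 := by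
        refine Finset.sum_eq_zero fun t _ => ?_
        rw [hAdef]
        simp only [Set.indicator, Set.mem_ofPred_eq, h2, false_and, if_false]
      rw [e1]
      refine Finset.sum_nonneg fun i _ => mul_nonneg (by positivity) ?_
      exact Set.indicator_nonneg (fun _ _ => zero_le_one) _
  have hI1 : Integrable (fun ω => ∑ t ∈ Ts, (A t).indicator (fun _ => (1:ℝ)) ω) μ :=
    integrable_finsetSum _ fun t _ => hint _ (hA t)
  have hI2 : Integrable (fun ω => ∑ i ∈ Finset.range (K + 2),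
      6 / (τ * 2 ^ i) * (B i).indicator (fun _ => (1:ℝ)) ω) μ :=
    integrable_finsetSum _ fun i _ => (hint _ (hB i)).const_mul _
  refine (integral_mono hI1 hI2 hpt).trans ?_
  rw [integral_finsetSum _ (fun i _ => (hint _ (hB i)).const_mul _)]
  obtain ⟨q, hq⟩ : ∃ q : ℝ, q = 2 ^ (-η) := ⟨_, rfl⟩
  have hq0 : 0 < q := by rw [hq]; positivity
  have hq1 : q < 1 := by
    rw [hq]; exact Real.rpow_lt_one_of_one_lt_of_neg (by norm_num) (by linarith)
  have hfη : 0 < f ^ (1 - η) := Real.rpow_pos_of_pos hf _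
  have hτη : 0 < τ ^ (-η) := Real.rpow_pos_of_pos hτ _
  have hterm : ∀ i ∈ Finset.range (K + 2),
      ∫ ω, 6 / (τ * 2 ^ i) * (B i).indicator (fun _ => (1:ℝ)) ω ∂μ
        ≤ 24 * f ^ (1 - η) * τ ^ (-η) * b0 * q ^ i := by
    intro i _
    rw [integral_const_mul, ← hind _ (hB i)]
    have hfi : τ * f ≤ 2 ^ (i + 2) * (τ * f) := by
      have : (1:ℝ) ≤ 2 ^ (i + 2) := one_le_pow₀ (by norm_num)
      nlinarith
    have h3 := hreg n0 d0 (2 ^ (i + 2) * (τ * f)) hfi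
    have h4 : (μ (B i)).toReal ≤ b0 * (2 ^ (i + 2) * (τ * f)) ^ (1 - η) := by
      rw [hBdef]; exact h3
    have h5 : (2 ^ (i + 2) * (τ * f) : ℝ) ^ (1 - η)
        = (2:ℝ) ^ (((i:ℝ) + 2) * (1 - η)) * (τ ^ (1 - η) * f ^ (1 - η)) := by
      have e : (2 ^ (i + 2) : ℝ) = (2:ℝ) ^ ((i:ℝ) + 2) := by
        rw [← Real.rpow_natCast]; push_cast; rfl
      rw [e, Real.mul_rpow (by positivity) hτf.le, Real.mul_rpow hτ.le hf.le,
        ← Real.rpow_mul (by norm_num)]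
    have h6 : (6 / (τ * 2 ^ i) : ℝ) = 6 * (τ ^ (-1:ℝ) * (2:ℝ) ^ (-(i:ℝ))) := by
      rw [Real.rpow_neg hτ.le, Real.rpow_one, Real.rpow_neg (by norm_num), Real.rpow_natCast]
      field_simp
    have h7 : q ^ i = (2:ℝ) ^ (-(η * i)) := by
      rw [hq, ← Real.rpow_natCast, ← Real.rpow_mul (by norm_num)]; congr 1; ring
    calc 6 / (τ * 2 ^ i) * (μ (B i)).toReal
        ≤ 6 / (τ * 2 ^ i) * (b0 * (2 ^ (i + 2) * (τ * f)) ^ (1 - η)) := by gcongr
      _ = 6 * ((2:ℝ) ^ (-(i:ℝ)) * (2:ℝ) ^ (((i:ℝ) + 2) * (1 - η))) * (τ ^ (-1:ℝ) * τ ^ (1 - η))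
            * f ^ (1 - η) * b0 := by
          rw [h5, h6]; ring
      _ = 6 * ((2:ℝ) ^ (2 * (1 - η)) * (2:ℝ) ^ (-(η * i))) * τ ^ (-η) * f ^ (1 - η) * b0 := by
          rw [← Real.rpow_add (by norm_num : (0:ℝ) < 2), ← Real.rpow_add (by norm_num : (0:ℝ) < 2),
            ← Real.rpow_add hτ]
          have e9 : -(i:ℝ) + ((i:ℝ) + 2) * (1 - η) = 2 * (1 - η) + -(η * i) := by ring
          have e10 : (-1:ℝ) + (1 - η) = -η := by ring
          rw [e9, e10]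
      _ ≤ 6 * (4 * (2:ℝ) ^ (-(η * i))) * τ ^ (-η) * f ^ (1 - η) * b0 := by
          have h8 : (2:ℝ) ^ (2 * (1 - η)) ≤ 4 := by
            calc (2:ℝ) ^ (2 * (1 - η)) ≤ (2:ℝ) ^ (2:ℝ) :=
                  Real.rpow_le_rpow_of_exponent_le (by norm_num) (by linarith)
              _ = 4 := by norm_num
          gcongr
      _ = 24 * f ^ (1 - η) * τ ^ (-η) * b0 * q ^ i := by rw [h7]; ring
  refine (Finset.sum_le_sum hterm).trans ?_
  rw [← Finset.mul_sum]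
  have hgeo : ∑ i ∈ Finset.range (K + 2), q ^ i ≤ 1 / (1 - q) := by
    have h9 : HasSum (fun i : ℕ => q ^ i) (1 - q)⁻¹ := hasSum_geometric_of_lt_one hq0.le hq1
    rw [one_div]
    exact sum_le_hasSum _ (fun i _ => by positivity) h9
  calc 24 * f ^ (1 - η) * τ ^ (-η) * b0 * ∑ i ∈ Finset.range (K + 2), q ^ i
      ≤ 24 * f ^ (1 - η) * τ ^ (-η) * b0 * (1 / (1 - q)) := by gcongr
    _ = 24 / (1 - 2 ^ (-η)) * f ^ (1 - η) * τ ^ (-η) * b0 := by rw [← hq]; ring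

/-- **(SC), classical** -/
theorem ch_scl_main (η : ℝ) (hη0 : 0 < η) (hη1 : η < 1) :
    ∃ C : ℝ, 0 < C ∧ ∀ {Om : Type} [MeasurableSpace Om] (μ : Measure Om) [IsFiniteMeasure μ] (N D : Om → ℝ), Measurable N → Measurable D →
      ∀ τ f b0 : ℝ, 0 < τ → τ ≤ 1 → 0 < f →
      (∀ n b u : ℝ, τ * f ≤ u → (μ {ω | |N ω - n| ≤ u ∧ |D ω - b| ≤ u}).toReal ≤ b0 * u ^ (1 - η)) →
      ∀ (L : ℕ) (tm : Fin L → ℝ) (nn cc : Fin L → ℝ) (θ : Fin L → Om → ℝ),
        (∀ l, 0 ≤ tm l ∧ tm l ≤ 1) → (∀ l l', tm l ≠ tm l' → τ ≤ |tm l - tm l'|) → (∀ l, Measurable (θ l)) → (∀ l ω, 0 ≤ θ l ω) →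
        (∀ l ω, θ l ω ≠ 0 → |N ω - nn l| ≤ f ∧ |D ω + tm l * N ω - cc l| ≤ τ * f) →
        (∀ l0 ω, ∑ l, (if tm l = tm l0 then θ l ω else 0) ≤ 1) →
        ∑ l, (∫ ω, θ l ω ∂μ) ^ 2 ≤ C * f ^ (1 - η) * τ ^ (-η) * b0 * (μ Set.univ).toReal := by
  have hq1 : (2:ℝ) ^ (-η) < 1 := Real.rpow_lt_one_of_one_lt_of_neg (by norm_num) (by linarith)
  refine ⟨24 / (1 - 2 ^ (-η)), div_pos (by norm_num) (by linarith), ?_⟩
  intro Om _ μ _ N D hN hD τ f b0 hτ hτ1 hf hreg L tm nn cc θ htm hsep hθm hθ0 hsupp hsum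
  classical
  have hθ1 : ∀ l ω, θ l ω ≤ 1 := by
    intro l ω
    refine le_trans ?_ (hsum l ω)
    have := Finset.single_le_sum (f := fun l' => if tm l' = tm l then θ l' ω else 0)
      (fun l' _ => by split_ifs <;> simp [hθ0]) (Finset.mem_univ l)
    simpa using this
  have hθi : ∀ l, Integrable (θ l) μ := by
    intro l
    refine Integrable.of_bound (hθm l).aestronglyMeasurable 1 (Filter.Eventually.of_forall fun ω => ?_)
    rw [Real.norm_eq_abs, abs_of_nonneg (hθ0 l ω)]; exact hθ1 l ω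
  obtain ⟨Ts, hTs⟩ : ∃ Ts : Finset ℝ, Ts = Finset.univ.image tm := ⟨_, rfl⟩
  have hTsmem : ∀ t ∈ Ts, ∃ l, tm l = t := by
    intro t ht; rw [hTs] at ht
    obtain ⟨l, _, hl⟩ := Finset.mem_image.mp ht
    exact ⟨l, hl⟩
  have hmemTs : ∀ l, tm l ∈ Ts := fun l => by
    rw [hTs]; exact Finset.mem_image_of_mem _ (Finset.mem_univ l)
  have hin : ∀ t ∈ Ts, 0 ≤ t ∧ t ≤ 1 := by
    intro t ht; obtain ⟨l, rfl⟩ := hTsmem t ht; exact htm l
  have hsepT : ∀ t ∈ Ts, ∀ t' ∈ Ts, t ≠ t' → τ ≤ |t - t'| := by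
    intro t ht t' ht' hne
    obtain ⟨l, rfl⟩ := hTsmem t ht
    obtain ⟨l', rfl⟩ := hTsmem t' ht'
    exact hsep l l' hne
  obtain ⟨P, hP⟩ : ∃ P : Om → ℝ → Set Om, P = fun (ω : Om) (t : ℝ) => {ω' | |N ω' - N ω| ≤ 2 * f ∧
      |(D ω' - D ω) + t * (N ω' - N ω)| ≤ 2 * (τ * f)} := ⟨_, rfl⟩
  have hPm : ∀ ω t, MeasurableSet (P ω t) := by
    intro ω t; rw [hP]
    have m1 : Measurable fun ω' => |N ω' - N ω| := by fun_prop
    have m2 : Measurable fun ω' => |(D ω' - D ω) + t * (N ω' - N ω)| := by fun_prop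
    exact (measurableSet_le m1 measurable_const).inter (measurableSet_le m2 measurable_const)
  obtain ⟨K, hK⟩ : ∃ K : ℝ, K = 24 / (1 - 2 ^ (-η)) * f ^ (1 - η) * τ ^ (-η) * b0 := ⟨_, rfl⟩
  have hpart : ∀ ω, ∑ t ∈ Ts, (μ (P ω t)).toReal ≤ K := by
    intro ω
    have := ch_scl_partner η hη0 hη1 μ N D hN hD τ f b0 hτ hτ1 hf hreg Ts hin hsepT (N ω) (D ω)
    rw [hK, hP]; exact this
  have hm : ∀ l ω, θ l ω ≠ 0 → ∫ ω', θ l ω' ∂μ ≤ (μ (P ω (tm l))).toReal := by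
    intro l ω hω
    have e : (μ (P ω (tm l))).toReal = ∫ ω', (P ω (tm l)).indicator (fun _ => (1:ℝ)) ω' ∂μ := by
      rw [integral_indicator_const _ (hPm _ _)]; simp [Measure.real]
    rw [e]
    refine integral_mono (hθi l) ((integrable_const (1:ℝ)).indicator (hPm _ _)) fun ω' => ?_
    by_cases h0 : θ l ω' = 0
    · rw [h0]; exact Set.indicator_nonneg (fun _ _ => zero_le_one) _
    · have hmem : ω' ∈ P ω (tm l) := by
        obtain ⟨a1, a2⟩ := hsupp l ω hω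
        obtain ⟨b1, b2⟩ := hsupp l ω' h0
        rw [hP]
        constructor
        · have e1 : N ω' - N ω = (N ω' - nn l) - (N ω - nn l) := by ring
          rw [e1]
          refine (abs_sub _ _).trans ?_
          linarith
        · have e1 : (D ω' - D ω) + tm l * (N ω' - N ω)
              = (D ω' + tm l * N ω' - cc l) - (D ω + tm l * N ω - cc l) := by
            ring
          rw [e1]
          refine (abs_sub _ _).trans ?_
          linarith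
      rw [Set.indicator_of_mem hmem]; exact hθ1 l ω'
  have hpt : ∀ ω, ∑ l, (∫ ω', θ l ω' ∂μ) * θ l ω ≤ K := by
    intro ω
    refine le_trans ?_ (hpart ω)
    calc ∑ l, (∫ ω', θ l ω' ∂μ) * θ l ω
        ≤ ∑ l, (μ (P ω (tm l))).toReal * θ l ω := by
          refine Finset.sum_le_sum fun l _ => ?_
          by_cases h0 : θ l ω = 0
          · rw [h0]; simp
          · exact mul_le_mul_of_nonneg_right (hm l ω h0) (hθ0 l ω)
      _ = ∑ l, ∑ t ∈ Ts, (μ (P ω t)).toReal * (if tm l = t then θ l ω else 0) := by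
          refine Finset.sum_congr rfl fun l _ => ?_
          rw [Finset.sum_eq_single (tm l)]
          · simp
          · intro t _ ht
            rw [if_neg (fun h => ht h.symm), mul_zero]
          · intro h; exact absurd (hmemTs l) h
      _ = ∑ t ∈ Ts, (μ (P ω t)).toReal * ∑ l, (if tm l = t then θ l ω else 0) := by
          rw [Finset.sum_comm]
          refine Finset.sum_congr rfl fun t _ => ?_
          rw [Finset.mul_sum]
      _ ≤ ∑ t ∈ Ts, (μ (P ω t)).toReal := by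
          refine Finset.sum_le_sum fun t ht => ?_
          obtain ⟨l0, rfl⟩ := hTsmem t ht
          exact mul_le_of_le_one_right ENNReal.toReal_nonneg (hsum l0 ω)
  have e0 : ∑ l, (∫ ω, θ l ω ∂μ) ^ 2 = ∫ ω, ∑ l, (∫ ω', θ l ω' ∂μ) * θ l ω ∂μ := by
    rw [integral_finsetSum _ (fun l _ => (hθi l).const_mul _)]
    refine Finset.sum_congr rfl fun l _ => ?_
    rw [integral_const_mul, sq]
  rw [e0, ← hK]
  have hI : Integrable (fun ω => ∑ l, (∫ ω', θ l ω' ∂μ) * θ l ω) μ :=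
    integrable_finsetSum _ fun l _ => (hθi l).const_mul _
  refine (integral_mono hI (integrable_const K) hpt).trans (le_of_eq ?_)
  rw [integral_const]; simp [Measure.real, mul_comm]

end Claimed.Agent.R256
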