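-- KEEP
import Claimed.Agent.R256.Chan.MemGeo
import Claimed.Agent.R256.Chan.ScCl

/-!
# Row 256 (LS paper), CHAN, unit CL3 : the classical memory bound in normalised units          (architect helper111; prefix `ch_c_`)

`ch_c_main` = `ch_mem_core` of `Chan/Contract.lean`.   ALL PROVED (0 sorry in this file).

* `ch_c_asm`      ABSTRACT assembly (measure theory + Cauchy-Schwarz, no geometry):  weights `φ l ∈ [0,1]`, cells `cell a k` (`a` = guess, `k` = key; disjoint in `k` for fixed `a`),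
                  `Keys l` (`≤ M` keys), cover, per key bound `Σ_{l ∋ k} m_{l,k}² ≤ c0 μ(cellK k)`, `cellK k = ⋃_a cell a k`   ⟹   `Σ_l ∫ φ l ≤ sqrt(L M c0 g μ(univ))`.
      Proof: `φ l ≤ Σ_{k ∈ Keys l} φ l 1_{cellK k}`;   `(Σ_{(l,k)} m)² ≤ #pairs Σ m²` (`sq_sum_le_card_mul_sum_sq` on `Finset.univ.sigma Keys`);   `#pairs ≤ L M`;
      `Σ_{(l,k)} m² = Σ_{k ∈ U} Σ_l [k ∈ Keys l] m² ≤ c0 Σ_{k ∈ U} μ(cellK k)`, `U = ⋃_l Keys l`;   `Σ_{k ∈ U} μ(cellK k) ≤ Σ_a Σ_{k ∈ U} μ(cell a k) ≤ g μ(univ)`.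
* `ch_c_sc_ok`    the scales `(δ, δ^Lm, δ^(1-Lm), δ^-Qx, A)` are `ChSc.Ok`.
* `ch_c_key_bd`   per key bound: `ch_scl_main` for `μ.restrict (cellK k)`, `N' = chGNs`, `D' = chGDs`, `b0 = κ ρ^(3+η)` (`ch_g_reg` + `S.Ok.reg`), `f = 37 A`, `τ = δ`,
                  (v2: `S.Ok.reg` only for `S.RT`: widths `u ≥ τ f ≥ δ`; witness = any particle of `cellK k`; `cellK k = ∅`: both sides vanish)
                  `θ l = [k ∈ keys l] th l 1_{hit l} 1_{cellK k}` (`ch_g_taylor`; `cellK k ⊆` base box of `k`).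
* `ch_c_arith`    powers of `δ`.
-/

set_option autoImplicit false

namespace Claimed.Agent.R256

open MeasureTheory

/-- leaf CL3a : **abstract assembly** -/
theorem ch_c_asm {Om : Type} [MeasurableSpace Om] (μ : Measure Om) [IsFiniteMeasure μ] {K : Type} [DecidableEq K] (g L : ℕ)
    (cell : Fin g → K → Set Om) (hcm : ∀ a k, MeasurableSet (cell a k)) (hcd : ∀ a k k', k ≠ k' → Disjoint (cell a k) (cell a k'))
    (φ : Fin L → Om → ℝ) (hφm : ∀ l, Measurable (φ l)) (hφ0 : ∀ l ω, 0 ≤ φ l ω) (hφ1 : ∀ l ω, φ l ω ≤ 1)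
    (Keys : Fin L → Finset K) (M c0 : ℝ) (hc0 : 0 ≤ c0) (hM : ∀ l, ((Keys l).card : ℝ) ≤ M)
    (hcov : ∀ l ω, φ l ω ≠ 0 → ∃ a, ∃ k ∈ Keys l, ω ∈ cell a k)
    (hkey : ∀ k, ∑ l, (if k ∈ Keys l then (∫ ω, φ l ω * (⋃ a, cell a k).indicator (fun _ => (1 : ℝ)) ω ∂μ) ^ 2 else 0)
        ≤ c0 * (μ (⋃ a, cell a k)).toReal) :
    ∑ l, ∫ ω, φ l ω ∂μ ≤ Real.sqrt ((L : ℝ) * M * (c0 * ((g : ℝ) * (μ Set.univ).toReal))) := by
  obtain ⟨cK, hcK⟩ : ∃ cK : K → Set Om, cK = fun k => ⋃ a, cell a k := ⟨_, rfl⟩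
  have hcKm : ∀ k, MeasurableSet (cK k) := by
    intro k; rw [hcK]; exact MeasurableSet.iUnion fun a => hcm a k
  obtain ⟨m, hm⟩ : ∃ m : Fin L → K → ℝ,
      m = fun l k => ∫ ω, φ l ω * (cK k).indicator (fun _ => (1 : ℝ)) ω ∂μ := ⟨_, rfl⟩
  have hkey' : ∀ k, ∑ l, (if k ∈ Keys l then (m l k) ^ 2 else 0) ≤ c0 * (μ (cK k)).toReal := by
    intro k; rw [hm, hcK]; exact hkey k
  have hφi : ∀ l, Integrable (φ l) μ := by
    intro l
    refine Integrable.of_bound (hφm l).aestronglyMeasurable 1 (Filter.Eventually.of_forall fun ω => ?_)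
    rw [Real.norm_eq_abs, abs_of_nonneg (hφ0 l ω)]; exact hφ1 l ω
  have hind0 : ∀ k ω, 0 ≤ (cK k).indicator (fun _ => (1 : ℝ)) ω :=
    fun k ω => Set.indicator_nonneg (fun _ _ => zero_le_one) _
  have hφki : ∀ l k, Integrable (fun ω => φ l ω * (cK k).indicator (fun _ => (1 : ℝ)) ω) μ := by
    intro l k
    have e : (fun ω => φ l ω * (cK k).indicator (fun _ => (1 : ℝ)) ω) = (cK k).indicator (φ l) := by
      funext ω
      by_cases h : ω ∈ cK k <;> simp [h]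
    rw [e]; exact (hφi l).indicator (hcKm k)
  -- step 1
  have h1 : ∀ l, ∫ ω, φ l ω ∂μ ≤ ∑ k ∈ Keys l, m l k := by
    intro l
    rw [hm]
    simp only []
    rw [← integral_finsetSum _ (fun k _ => hφki l k)]
    refine integral_mono (hφi l) (integrable_finsetSum _ fun k _ => hφki l k) fun ω => ?_
    by_cases h0 : φ l ω = 0
    · simp only [h0, zero_mul, Finset.sum_const_zero, le_refl]
    · obtain ⟨a, k, hk, hω⟩ := hcov l ω h0
      have hmem : ω ∈ cK k := by rw [hcK]; exact Set.mem_iUnion.mpr ⟨a, hω⟩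
      have := Finset.single_le_sum (f := fun k => φ l ω * (cK k).indicator (fun _ => (1 : ℝ)) ω)
        (fun k _ => mul_nonneg (hφ0 l ω) (hind0 k ω)) hk
      simpa [Set.indicator_of_mem hmem] using this
  -- step 2
  obtain ⟨Sg, hSg⟩ : ∃ Sg : Finset (Σ _ : Fin L, K), Sg = Finset.univ.sigma Keys := ⟨_, rfl⟩
  have h2 : ∑ l, ∑ k ∈ Keys l, m l k = ∑ p ∈ Sg, m p.1 p.2 := by
    rw [hSg, Finset.sum_sigma]
  have h2' : ∑ l, ∑ k ∈ Keys l, (m l k) ^ 2 = ∑ p ∈ Sg, (m p.1 p.2) ^ 2 := by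
    rw [hSg, Finset.sum_sigma]
  have hcard : (Sg.card : ℝ) ≤ (L : ℝ) * M := by
    rw [hSg, Finset.card_sigma]
    push_cast
    calc ∑ l, ((Keys l).card : ℝ) ≤ ∑ _l : Fin L, M := Finset.sum_le_sum fun l _ => hM l
      _ = (L : ℝ) * M := by simp
  have hLM : 0 ≤ (L : ℝ) * M := le_trans (Nat.cast_nonneg _) hcard
  have hCS : (∑ p ∈ Sg, m p.1 p.2) ^ 2 ≤ (Sg.card : ℝ) * ∑ p ∈ Sg, (m p.1 p.2) ^ 2 :=
    sq_sum_le_card_mul_sum_sq
  -- step 3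
  obtain ⟨U, hU⟩ : ∃ U : Finset K, U = Finset.univ.biUnion Keys := ⟨_, rfl⟩
  have hsubU : ∀ l, Keys l ⊆ U := by
    intro l k hk; rw [hU]; exact Finset.mem_biUnion.mpr ⟨l, Finset.mem_univ l, hk⟩
  have h3 : ∑ l, ∑ k ∈ Keys l, (m l k) ^ 2 ≤ c0 * ∑ k ∈ U, (μ (cK k)).toReal := by
    calc ∑ l, ∑ k ∈ Keys l, (m l k) ^ 2
        = ∑ l, ∑ k ∈ U, (if k ∈ Keys l then (m l k) ^ 2 else 0) := by
          refine Finset.sum_congr rfl fun l _ => ?_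
          rw [← Finset.sum_filter]
          refine Finset.sum_congr ?_ fun _ _ => rfl
          ext k
          simp only [Finset.mem_filter]
          exact ⟨fun h => ⟨hsubU l h, h⟩, fun h => h.2⟩
      _ = ∑ k ∈ U, ∑ l, (if k ∈ Keys l then (m l k) ^ 2 else 0) := Finset.sum_comm
      _ ≤ ∑ k ∈ U, c0 * (μ (cK k)).toReal := Finset.sum_le_sum fun k _ => hkey' k
      _ = c0 * ∑ k ∈ U, (μ (cK k)).toReal := by rw [Finset.mul_sum]
  -- step 4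
  have h4 : ∑ k ∈ U, (μ (cK k)).toReal ≤ (g : ℝ) * (μ Set.univ).toReal := by
    have a1 : ∀ k, (μ (cK k)).toReal ≤ ∑ a, (μ (cell a k)).toReal := by
      intro k
      rw [hcK, ← ENNReal.toReal_sum (fun a _ => measure_ne_top μ _)]
      exact ENNReal.toReal_mono (ENNReal.sum_ne_top.mpr fun a _ => measure_ne_top μ _)
        (measure_iUnion_fintype_le μ _)
    have a2 : ∀ a, ∑ k ∈ U, (μ (cell a k)).toReal ≤ (μ Set.univ).toReal := by
      intro a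
      rw [← ENNReal.toReal_sum (fun k _ => measure_ne_top μ _),
        ← measure_biUnion_finset (fun k _ k' _ hne => hcd a k k' hne) (fun k _ => hcm a k)]
      exact ENNReal.toReal_mono (measure_ne_top μ _) (measure_mono (Set.subset_univ _))
    calc ∑ k ∈ U, (μ (cK k)).toReal ≤ ∑ k ∈ U, ∑ a, (μ (cell a k)).toReal :=
          Finset.sum_le_sum fun k _ => a1 k
      _ = ∑ a, ∑ k ∈ U, (μ (cell a k)).toReal := Finset.sum_comm
      _ ≤ ∑ _a : Fin g, (μ Set.univ).toReal := Finset.sum_le_sum fun a _ => a2 a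
      _ = (g : ℝ) * (μ Set.univ).toReal := by simp
  refine (Finset.sum_le_sum fun l _ => h1 l).trans ?_
  rw [h2]
  refine Real.le_sqrt_of_sq_le (hCS.trans ?_)
  have hsq : 0 ≤ ∑ p ∈ Sg, (m p.1 p.2) ^ 2 := Finset.sum_nonneg fun p _ => sq_nonneg _
  calc (Sg.card : ℝ) * ∑ p ∈ Sg, (m p.1 p.2) ^ 2
      ≤ (L : ℝ) * M * ∑ p ∈ Sg, (m p.1 p.2) ^ 2 := mul_le_mul_of_nonneg_right hcard hsq
    _ ≤ (L : ℝ) * M * (c0 * ((g : ℝ) * (μ Set.univ).toReal)) := by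
        refine mul_le_mul_of_nonneg_left ?_ hLM
        rw [← h2']
        exact h3.trans (mul_le_mul_of_nonneg_left h4 hc0)

namespace ChSeg

variable {Om : Type} [MeasurableSpace Om] (S : ChSeg Om)

/-- the scales of a segment -/
noncomputable def sc (A Lm Qx : ℝ) : ChSc := ⟨S.dl, S.dl ^ Lm, S.dl ^ (1 - Lm), S.dl ^ (-Qx), A⟩

/-- the particles whose key (with the guess `a`) is `k` -/
def cellA (s : ChSc) (a : Fin S.g) (k : ChKey) : Set Om :=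
  {ω | chGCell s k (S.X ω) (S.B ω) (S.Y ω) (S.be0 ω) (S.K0 ω) (S.P0 a ω)}

/-- the keys of a label -/
noncomputable def keys (s : ChSc) (l : Fin S.L) : Finset ChKey := chGKeys s (S.tm l) (S.Q l) (S.lst l)

end ChSeg

section seg

variable {Om : Type} [MeasurableSpace Om] (S : ChSeg Om)

/-- leaf CL3b -/
theorem ch_c_sc_ok (A Lm Qx : ℝ) (hd0 : 0 < S.dl) (hd1 : S.dl ≤ 1) (hA : 1 ≤ A) (hL : 1 ≤ Lm) (hML : 1 + Qx ≤ 2 * Lm) : (S.sc A Lm Qx).Ok := by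
  refine ⟨Real.rpow_pos_of_pos hd0 _, ?_, hd1, ?_, Real.rpow_pos_of_pos hd0 _, ?_, hA⟩
  · have := Real.rpow_le_rpow_of_exponent_ge hd0 hd1 hL
    rwa [Real.rpow_one] at this
  · show S.dl ^ (1 - Lm) * S.dl ^ Lm = S.dl
    rw [← Real.rpow_add hd0]
    have : 1 - Lm + Lm = 1 := by ring
    rw [this, Real.rpow_one]
  · show S.dl ^ (-Qx) * S.dl ^ Lm ≤ S.dl ^ (1 - Lm)
    rw [← Real.rpow_add hd0]
    exact Real.rpow_le_rpow_of_exponent_ge hd0 hd1 (by linarith)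

/-- leaf CL3c -/
theorem ch_c_bin_meas (w : ℝ) (k : ℤ) (f : Om → ℝ) (hf : Measurable f) : MeasurableSet {ω | chGBin w (f ω) k} :=
  (measurableSet_le measurable_const hf).inter (measurableSet_lt hf measurable_const)

theorem ch_c_cell_meas {η κ A Lm Qx Rn : ℝ} (h : S.Ok η κ A Lm Qx Rn) (s : ChSc) (a : Fin S.g) (k : ChKey) : MeasurableSet (S.cellA s a k) := by
  have m1 := ch_c_bin_meas s.rho k.k1 S.X h.mX
  have m2 := ch_c_bin_meas s.rho k.k2 S.B h.mB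
  have m3 := ch_c_bin_meas (s.rho ^ 2) k.k3 (fun ω => S.Y ω - 2 * k.xM s * S.B ω) (h.mY.sub (h.mB.const_mul _))
  have m4 := ch_c_bin_meas s.W2 k.k4 S.be0 h.mbe
  have m5 := ch_c_bin_meas s.W2 k.k5 S.K0 h.mK
  have m6 := ch_c_bin_meas s.W1 k.k6 (fun ω => S.P0 a ω - 2 * k.bt s * S.X ω + 2 * k.Kt s * S.B ω)
    (((h.mP a).sub (h.mX.const_mul _)).add (h.mB.const_mul _))
  exact ((m1.inter (m2.inter m3)).inter (m4.inter (m5.inter m6)))

theorem ch_c_cell_disj (s : ChSc) (hs : s.Ok) (a : Fin S.g) (k k' : ChKey) (hk : k ≠ k') : Disjoint (S.cellA s a k) (S.cellA s a k') := by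
  rw [Set.disjoint_left]
  intro ω h h'
  exact hk (ch_g_cell_uniq s hs k k' _ _ _ _ _ _ h h')

theorem ch_c_hit_meas {η κ A Lm Qx Rn : ℝ} (h : S.Ok η κ A Lm Qx Rn) (l : Fin S.L) : MeasurableSet (S.hitS Lm l) := by
  have : S.hitS Lm l = ⋃ c ∈ S.lst l, {ω | |S.X ω - c| ≤ S.dl ^ Lm} := by
    ext ω
    simp only [ChSeg.hitS, Set.mem_ofPred_eq, Set.mem_iUnion, exists_prop]
  rw [this]
  exact Finset.measurableSet_biUnion _ fun c _ => measurableSet_le ((h.mX.sub_const c).abs) measurable_const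

theorem ch_c_th_le {η κ A Lm Qx Rn : ℝ} (h : S.Ok η κ A Lm Qx Rn) (l : Fin S.L) (ω : Om) : S.th l ω ≤ 1 := by
  refine le_trans ?_ (h.th_sum l ω)
  have := Finset.single_le_sum (f := fun l' => if S.tm l' = S.tm l then S.th l' ω else 0)
    (fun l' _ => by split_ifs; exacts [h.th_nn l' ω, le_rfl]) (Finset.mem_univ l)
  simpa using this

/-- cover, from `ch_g_cover` + `ch_g_keys_mem` -/
theorem ch_c_cover {η κ A Lm Qx Rn : ℝ} (h : S.Ok η κ A Lm Qx Rn) (l : Fin S.L) (ω : Om)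
    (hω : S.th l ω * (S.hitS Lm l).indicator (fun _ => (1 : ℝ)) ω ≠ 0) :
    ∃ a, ∃ k ∈ S.keys (S.sc A Lm Qx) l, ω ∈ S.cellA (S.sc A Lm Qx) a k := by
  have hs := ch_c_sc_ok S A Lm Qx h.dl0 h.dl1 h.A1 h.L1 h.ML
  have hth : S.th l ω ≠ 0 := left_ne_zero_of_mul hω
  have hhit : ω ∈ S.hitS Lm l := by
    by_contra hc
    exact hω (by rw [Set.indicator_of_notMem hc, mul_zero])
  obtain ⟨a, n1, n2, n3⟩ := h.near l ω hth
  simp only [one_pow, div_one, mul_one, one_mul] at n1 n2 n3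
  obtain ⟨k, hk, hc⟩ := ch_g_cover (S.sc A Lm Qx) hs (S.tm l) (h.tm_rg l).1 (h.tm_rg l).2 (S.Q l) (h.wid l).1 (h.wid l).2 (S.lst l)
    (S.X ω) (S.B ω) (S.Y ω) (S.N ω) (S.D ω) (S.be0 ω) (S.K0 ω) (S.P0 a ω) (h.th_in l ω hth) n1 n2 n3 hhit
  exact ⟨a, k, (ch_g_keys_mem _ hs _ _ _ _).mpr hk, hc⟩

end seg

/-- leaf CL3d : **the bound over one key** -/
theorem ch_c_rt {Om : Type} [MeasurableSpace Om] (S : ChSeg Om) (A Lm Qx : ℝ) (k : ChKey) (n b u : ℝ) (hu : S.dl ≤ u) (hd0 : 0 < S.dl)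
    (ω : Om) (a : Fin S.g) (hω : ω ∈ S.cellA (S.sc A Lm Qx) a k) : S.RT Lm Qx (chGTest (S.sc A Lm Qx) k n b u) := by
  obtain ⟨hbox, c4, c5, c6⟩ := hω
  obtain ⟨⟨hX0, hX1⟩, ⟨hB0, hB1⟩, -⟩ := ch_g_box_off _ k _ _ _ hbox
  obtain ⟨h40, h41⟩ := ch_g_bin_off _ _ _ c4
  obtain ⟨h50, h51⟩ := ch_g_bin_off _ _ _ c5
  obtain ⟨h60, h61⟩ := ch_g_bin_off _ _ _ c6
  have w1 : 0 < S.dl ^ (1 - Lm) := Real.rpow_pos_of_pos hd0 _
  have w2 : 0 < S.dl ^ (-Qx) := Real.rpow_pos_of_pos hd0 _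
  have r0 : 0 < S.dl ^ Lm := Real.rpow_pos_of_pos hd0 _
  refine ⟨rfl, hu, ω, a, abs_le.mpr ⟨?_, hX1⟩, abs_le.mpr ⟨?_, hB1⟩, abs_le.mpr ⟨?_, ?_⟩, abs_le.mpr ⟨?_, ?_⟩, abs_le.mpr ⟨?_, ?_⟩⟩
  · show -(S.dl ^ Lm) ≤ S.X ω - k.xM (S.sc A Lm Qx)
    linarith
  · show -(S.dl ^ Lm) ≤ S.B ω - k.bM (S.sc A Lm Qx)
    linarith
  · change S.be0 ω - (k.k4 : ℝ) * S.dl ^ (-Qx) ≤ S.dl ^ (-Qx) at h41
    show -(4 * S.dl ^ (-Qx)) ≤ (k.k4 : ℝ) * S.dl ^ (-Qx) - S.be0 ω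
    linarith
  · change 0 ≤ S.be0 ω - (k.k4 : ℝ) * S.dl ^ (-Qx) at h40
    show (k.k4 : ℝ) * S.dl ^ (-Qx) - S.be0 ω ≤ 4 * S.dl ^ (-Qx)
    linarith
  · change S.K0 ω - (k.k5 : ℝ) * S.dl ^ (-Qx) ≤ S.dl ^ (-Qx) at h51
    show -(4 * S.dl ^ (-Qx)) ≤ (k.k5 : ℝ) * S.dl ^ (-Qx) - S.K0 ω
    linarith
  · change 0 ≤ S.K0 ω - (k.k5 : ℝ) * S.dl ^ (-Qx) at h50
    show (k.k5 : ℝ) * S.dl ^ (-Qx) - S.K0 ω ≤ 4 * S.dl ^ (-Qx)
    linarith
  · change S.P0 a ω - 2 * k.bt (S.sc A Lm Qx) * S.X ω + 2 * k.Kt (S.sc A Lm Qx) * S.B ω - k.pt (S.sc A Lm Qx) ≤ S.dl ^ (1 - Lm) at h61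
    show -(4 * S.dl ^ (1 - Lm)) ≤ k.pt (S.sc A Lm Qx) + 2 * k.bt (S.sc A Lm Qx) * S.X ω - 2 * k.Kt (S.sc A Lm Qx) * S.B ω - S.P0 a ω
    linarith
  · change 0 ≤ S.P0 a ω - 2 * k.bt (S.sc A Lm Qx) * S.X ω + 2 * k.Kt (S.sc A Lm Qx) * S.B ω - k.pt (S.sc A Lm Qx) at h60
    show k.pt (S.sc A Lm Qx) + 2 * k.bt (S.sc A Lm Qx) * S.X ω - 2 * k.Kt (S.sc A Lm Qx) * S.B ω - S.P0 a ω ≤ 4 * S.dl ^ (1 - Lm)
    linarith

theorem ch_c_key_bd (η : ℝ) (hη0 : 0 < η) (hη1 : η < 1) :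
    ∃ C : ℝ, 0 < C ∧ ∀ {Om : Type} [MeasurableSpace Om] (S : ChSeg Om) (κ A Lm Qx Rn : ℝ), S.Ok η κ A Lm Qx Rn → ∀ k : ChKey,
      ∑ l, (if k ∈ S.keys (S.sc A Lm Qx) l then
          (∫ ω, (S.th l ω * (S.hitS Lm l).indicator (fun _ => (1 : ℝ)) ω)
            * (⋃ a, S.cellA (S.sc A Lm Qx) a k).indicator (fun _ => (1 : ℝ)) ω ∂S.mu) ^ 2 else 0)
        ≤ (C * (37 * A) ^ (1 - η) * S.dl ^ (-η) * (κ * (S.dl ^ Lm) ^ (3 + η))) * (S.mu (⋃ a, S.cellA (S.sc A Lm Qx) a k)).toReal := by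
  obtain ⟨C, hC, H⟩ := ch_scl_main η hη0 hη1
  refine ⟨C, hC, ?_⟩
  intro Om _ S κ A Lm Qx Rn h k
  have := h.fin
  have hs := ch_c_sc_ok S A Lm Qx h.dl0 h.dl1 h.A1 h.L1 h.ML
  have hA := h.A1
  have hd0 := h.dl0
  obtain ⟨cK, hcK⟩ : ∃ cK : Set Om, cK = ⋃ a, S.cellA (S.sc A Lm Qx) a k := ⟨_, rfl⟩
  rw [← hcK]
  have hcKm : MeasurableSet cK := by rw [hcK]; exact MeasurableSet.iUnion fun a => ch_c_cell_meas S h _ a k
  have hbox : ∀ ω ∈ cK, chGBox (S.sc A Lm Qx) k (S.X ω) (S.B ω) (S.Y ω) := by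
    intro ω hω
    rw [hcK] at hω
    obtain ⟨a, ha⟩ := Set.mem_iUnion.mp hω
    exact ha.1
  rcases Set.eq_empty_or_nonempty cK with hemp | ⟨ω0, hω0⟩
  · rw [hemp]
    simp
  have hω0' := hω0
  rw [hcK] at hω0'
  obtain ⟨a0, ha0⟩ := Set.mem_iUnion.mp hω0'
  have mN : Measurable fun ω => chGNs (S.sc A Lm Qx) k (S.X ω) (S.B ω) (S.Y ω) (S.N ω) := by
    have := h.mX; have := h.mB; have := h.mY; have := h.mN
    unfold chGNs
    fun_prop
  have mD : Measurable fun ω => chGDs (S.sc A Lm Qx) k (S.B ω) (S.Y ω) (S.D ω) := by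
    have := h.mB; have := h.mY; have := h.mD
    unfold chGDs
    fun_prop
  have hreg : ∀ n b u : ℝ, S.dl * (37 * A) ≤ u →
      ((S.mu.restrict cK) {ω | |chGNs (S.sc A Lm Qx) k (S.X ω) (S.B ω) (S.Y ω) (S.N ω) - n| ≤ u
        ∧ |chGDs (S.sc A Lm Qx) k (S.B ω) (S.Y ω) (S.D ω) - b| ≤ u}).toReal ≤ κ * (S.dl ^ Lm) ^ (3 + η) * u ^ (1 - η) := by
    intro n b u hu
    have hu' : S.dl ≤ u := by nlinarith
    rw [Measure.restrict_apply' hcKm]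
    refine le_trans (ENNReal.toReal_mono (measure_ne_top _ _) (measure_mono ?_))
      ((h.reg (chGTest (S.sc A Lm Qx) k n b u) (ch_c_rt S A Lm Qx k n b u hu' hd0 ω0 a0 ha0)).trans (le_of_eq ?_))
    · rintro ω ⟨⟨h1, h2⟩, hω⟩
      exact ch_g_reg _ hs k _ _ _ _ _ n b u (hbox ω hω) h1 h2
    · show κ * ((S.dl ^ Lm) ^ (3 + η) * u ^ (1 - η)) = _
      ring
  have hi0 : ∀ (E : Set Om) ω, 0 ≤ E.indicator (fun _ => (1 : ℝ)) ω := fun E ω => Set.indicator_nonneg (fun _ _ => zero_le_one) _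
  have hi1 : ∀ (E : Set Om) ω, E.indicator (fun _ => (1 : ℝ)) ω ≤ 1 := by
    intro E ω
    by_cases hω : ω ∈ E
    · rw [Set.indicator_of_mem hω]
    · rw [Set.indicator_of_notMem hω]; exact zero_le_one
  have key := H (S.mu.restrict cK) _ _ mN mD S.dl (37 * A) (κ * (S.dl ^ Lm) ^ (3 + η)) hd0 h.dl1 (by linarith) hreg S.L S.tm
    (fun l => chGNn (S.sc A Lm Qx) (S.tm l) (S.Q l) k) (fun l => chGCc (S.sc A Lm Qx) (S.tm l) (S.Q l) k)
    (fun l ω => if k ∈ S.keys (S.sc A Lm Qx) l then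
      (S.th l ω * (S.hitS Lm l).indicator (fun _ => (1 : ℝ)) ω) * cK.indicator (fun _ => (1 : ℝ)) ω else 0)
    h.tm_rg h.tm_sep
    (fun l => by
      by_cases hk : k ∈ S.keys (S.sc A Lm Qx) l
      · simp only [hk, if_true]
        exact ((h.mth l).mul (measurable_const.indicator (ch_c_hit_meas S h l))).mul (measurable_const.indicator hcKm)
      · simp only [hk, if_false]
        exact measurable_const)
    (fun l ω => by
      split_ifs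
      · exact mul_nonneg (mul_nonneg (h.th_nn l ω) (hi0 _ ω)) (hi0 _ ω)
      · exact le_rfl)
    (fun l ω hθ => by
      by_cases hk : k ∈ S.keys (S.sc A Lm Qx) l
      · simp only [hk, if_true] at hθ
        have hth : S.th l ω ≠ 0 := left_ne_zero_of_mul (left_ne_zero_of_mul hθ)
        have hω : ω ∈ cK := by
          by_contra hc
          exact hθ (by rw [Set.indicator_of_notMem hc, mul_zero])
        have := ch_g_taylor _ hs (S.tm l) (h.tm_rg l).1 (h.tm_rg l).2 (S.Q l) (h.wid l).1 (h.wid l).2 (S.lst l) k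
          ((ch_g_keys_mem _ hs _ _ _ _).mp hk) (S.X ω) (S.B ω) (S.Y ω) (S.N ω) (S.D ω) (hbox ω hω) (h.th_in l ω hth)
        refine ⟨this.1, this.2.trans (le_of_eq ?_)⟩
        show 37 * A * S.dl = S.dl * (37 * A)
        ring
      · simp only [hk, if_false, ne_eq, not_true_eq_false] at hθ)
    (fun l0 ω => by
      refine le_trans (Finset.sum_le_sum fun l _ => ?_) (h.th_sum l0 ω)
      by_cases ht : S.tm l = S.tm l0
      · simp only [ht, if_true]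
        split_ifs
        · have a1 := h.th_nn l ω
          have a2 := hi0 (S.hitS Lm l) ω
          have a3 := hi1 (S.hitS Lm l) ω
          have a4 := hi0 cK ω
          have a5 := hi1 cK ω
          have a6 : S.th l ω * (S.hitS Lm l).indicator (fun _ => (1 : ℝ)) ω ≤ S.th l ω := by nlinarith
          have a7 : 0 ≤ S.th l ω * (S.hitS Lm l).indicator (fun _ => (1 : ℝ)) ω := mul_nonneg a1 a2
          nlinarith
        · exact h.th_nn l ω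
      · simp only [ht, if_false, le_refl])
  rw [Measure.restrict_apply_univ] at key
  refine le_trans (le_of_eq (Finset.sum_congr rfl fun l _ => ?_)) key
  by_cases hk : k ∈ S.keys (S.sc A Lm Qx) l
  · simp only [hk, if_true]
    congr 1
    symm
    refine setIntegral_eq_integral_of_forall_compl_eq_zero fun ω hω => ?_
    rw [Set.indicator_of_notMem hω, mul_zero]
  · simp only [hk, if_false, integral_zero]
    norm_num

/-- leaf CL3e : powers of `δ` -/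
theorem ch_c_arith (η : ℝ) (hη0 : 0 < η) (hη1 : η < 1) (d : ℝ) (hd0 : 0 < d) (hd1 : d ≤ 1) (C κ A Lm g L Rn m : ℝ) (hC : 0 ≤ C) (hκ : 0 ≤ κ) (hA : 1 ≤ A)
    (hg : 0 ≤ g) (hL : 0 ≤ L) (hR : 0 ≤ Rn) (hm : 0 ≤ m) :
    L * (Rn * (147000 * A ^ 3 * (d ^ 2 / (d ^ Lm) ^ 3)))
        * ((C * (37 * A) ^ (1 - η) * d ^ (-η) * (κ * (d ^ Lm) ^ (3 + η))) * (g * m))
      ≤ (147000 * 37 * C) * (A ^ 2) ^ 2
        * (g * L * Rn * d ^ (2 - 3 * Lm) * (κ * d ^ ((3 + η) * Lm - η)) * m) := by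
  have e1 : d ^ 2 / (d ^ Lm) ^ 3 = d ^ (2 - 3 * Lm) := by
    rw [← Real.rpow_natCast (d ^ Lm) 3, ← Real.rpow_mul hd0.le, ← Real.rpow_natCast d 2, ← Real.rpow_sub hd0]
    congr 1
    push_cast
    ring
  have e2 : d ^ (-η) * (d ^ Lm) ^ (3 + η) = d ^ ((3 + η) * Lm - η) := by
    rw [← Real.rpow_mul hd0.le, ← Real.rpow_add hd0]
    congr 1
    ring
  have e3 : (37 * A) ^ (1 - η) ≤ 37 * A := by
    have := Real.rpow_le_rpow_of_exponent_le (x := 37 * A) (by linarith) (show 1 - η ≤ 1 by linarith)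
    rwa [Real.rpow_one] at this
  have p1 : 0 < d ^ (2 - 3 * Lm) := Real.rpow_pos_of_pos hd0 _
  have p2 : 0 < d ^ ((3 + η) * Lm - η) := Real.rpow_pos_of_pos hd0 _
  have hA0 : 0 ≤ A := by linarith
  rw [e1]
  calc L * (Rn * (147000 * A ^ 3 * d ^ (2 - 3 * Lm))) * ((C * (37 * A) ^ (1 - η) * d ^ (-η) * (κ * (d ^ Lm) ^ (3 + η))) * (g * m))
      = (147000 * C * A ^ 3 * (g * L * Rn * d ^ (2 - 3 * Lm) * (κ * (d ^ (-η) * (d ^ Lm) ^ (3 + η))) * m)) * (37 * A) ^ (1 - η) := by ring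
    _ ≤ (147000 * C * A ^ 3 * (g * L * Rn * d ^ (2 - 3 * Lm) * (κ * (d ^ (-η) * (d ^ Lm) ^ (3 + η))) * m)) * (37 * A) := by
        refine mul_le_mul_of_nonneg_left e3 ?_
        rw [e2]
        positivity
    _ = _ := by rw [e2]; ring

/-- **(mem), classical, normalised** -/
theorem ch_c_main (η : ℝ) (hη0 : 0 < η) (hη1 : η < 1) :
    ∃ C : ℝ, 0 < C ∧ ∀ {Om : Type} [MeasurableSpace Om] (S : ChSeg Om) (κ A Lm Qx Rn : ℝ), S.Ok η κ A Lm Qx Rn →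
      ∑ l, ∫ ω, S.th l ω * (S.hitS Lm l).indicator (fun _ => (1 : ℝ)) ω ∂S.mu
        ≤ C * A ^ 2 * Real.sqrt ((S.g : ℝ) * S.L * Rn * S.dl ^ (2 - 3 * Lm) * (κ * S.dl ^ ((3 + η) * Lm - η)) * (S.mu Set.univ).toReal) := by
  obtain ⟨C, hC, H⟩ := ch_c_key_bd η hη0 hη1
  refine ⟨Real.sqrt (147000 * 37 * C), Real.sqrt_pos.mpr (by positivity), ?_⟩
  intro Om _ S κ A Lm Qx Rn h
  have := h.fin
  have hs := ch_c_sc_ok S A Lm Qx h.dl0 h.dl1 h.A1 h.L1 h.ML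
  have hκ := h.ka0
  have hA0 : (0 : ℝ) ≤ A := by linarith [h.A1]
  rcases Nat.eq_zero_or_pos S.L with hL0 | hL0
  · have : IsEmpty (Fin S.L) := by rw [hL0]; infer_instance
    rw [Finset.univ_eq_empty, Finset.sum_empty]
    positivity
  have hR : 0 ≤ Rn := le_trans (Nat.cast_nonneg _) (h.card ⟨0, hL0⟩)
  have hd := h.dl0
  have key := ch_c_asm S.mu S.g S.L (S.cellA (S.sc A Lm Qx)) (ch_c_cell_meas S h _) (ch_c_cell_disj S _ hs)
    (fun l ω => S.th l ω * (S.hitS Lm l).indicator (fun _ => (1 : ℝ)) ω)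
    (fun l => (h.mth l).mul (measurable_const.indicator (ch_c_hit_meas S h l)))
    (fun l ω => mul_nonneg (h.th_nn l ω) (Set.indicator_nonneg (fun _ _ => zero_le_one) _))
    (fun l ω => by
      have h1 := ch_c_th_le S h l ω
      have h2 : (S.hitS Lm l).indicator (fun _ => (1 : ℝ)) ω ≤ 1 := by
        by_cases hω : ω ∈ S.hitS Lm l <;> simp [hω]
      have h3 : 0 ≤ (S.hitS Lm l).indicator (fun _ => (1 : ℝ)) ω := Set.indicator_nonneg (fun _ _ => zero_le_one) _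
      nlinarith [h.th_nn l ω])
    (S.keys (S.sc A Lm Qx)) (Rn * (147000 * A ^ 3 * (S.dl ^ 2 / (S.dl ^ Lm) ^ 3)))
    (C * (37 * A) ^ (1 - η) * S.dl ^ (-η) * (κ * (S.dl ^ Lm) ^ (3 + η))) (by positivity)
    (fun l => (ch_g_card _ hs _ _ _).trans (mul_le_mul_of_nonneg_right (h.card l) (by
      show 0 ≤ 147000 * A ^ 3 * (S.dl ^ 2 / (S.dl ^ Lm) ^ 3)
      positivity)))
    (ch_c_cover S h) (H S κ A Lm Qx Rn h)
  refine key.trans ?_
  have har := ch_c_arith η hη0 hη1 S.dl h.dl0 h.dl1 C κ A Lm S.g S.L Rn (S.mu Set.univ).toReal hC.le hκ h.A1 (Nat.cast_nonneg _) (Nat.cast_nonneg _) hR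
    ENNReal.toReal_nonneg
  refine (Real.sqrt_le_sqrt har).trans (le_of_eq ?_)
  rw [Real.sqrt_mul (by positivity), Real.sqrt_mul (by positivity), Real.sqrt_sq (by positivity)]

end Claimed.Agent.R256
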