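-- KEEP
import Mathlib

/-!
# Row 256 (LS paper), CHAN, unit MH (post BP-256-CHAN-MH), file 2 : the abstract assembly          (architect helper86; prefix `ch_mh_`)

FINITE SUMS OF REALS ONLY.   Labels `l : Fin L`, keys `k ∈ Keys l`, base keys `base k ∈ Bs l`.
  `m l ≤ Σ_{b ∈ Bs l} mb l b`   (orthogonality of the base boxes),     `√(mb l b) ≤ Σ_{k ∈ Keys l, base k = b} √(mk l k) + √ν`   (triangle inequality over the `≤ nA` keys of one box),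
  `Σ_{l ∋ k} (mk l k)² ≤ c0 W k`   (scalar channel over one key),     `Σ_{k ∈ U} W k ≤ e`   (disjoint cells)
  ⟹   `Σ_l m l ≤ (nA + 1) (√(L nK c0 e) + L nB ν)`.
-/

set_option autoImplicit false

namespace Claimed.Agent.R256

/-- Cauchy-Schwarz with one extra term -/
theorem ch_mh_cs_one {κ : Type} (F : Finset κ) (a : κ → ℝ) (ν x n : ℝ) (ha : ∀ k, 0 ≤ a k) (hν : 0 ≤ ν) (hx : 0 ≤ x)
    (h : Real.sqrt x ≤ ∑ k ∈ F, Real.sqrt (a k) + Real.sqrt ν) (hn : (F.card : ℝ) ≤ n) : x ≤ (n + 1) * (∑ k ∈ F, a k + ν) := by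
  obtain ⟨g, hg⟩ : ∃ g : Option κ → ℝ, g = fun o => o.elim (Real.sqrt ν) (fun k => Real.sqrt (a k)) := ⟨_, rfl⟩
  have h1 : ∑ o ∈ Finset.insertNone F, g o = Real.sqrt ν + ∑ k ∈ F, Real.sqrt (a k) := by
    rw [Finset.sum_insertNone, hg]
    rfl
  have h2 : ∑ o ∈ Finset.insertNone F, (g o) ^ 2 = ν + ∑ k ∈ F, a k := by
    rw [Finset.sum_insertNone, hg]
    show Real.sqrt ν ^ 2 + ∑ k ∈ F, Real.sqrt (a k) ^ 2 = _
    rw [Real.sq_sqrt hν]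
    congr 1
    exact Finset.sum_congr rfl fun k _ => Real.sq_sqrt (ha k)
  have h3 : (∑ o ∈ Finset.insertNone F, g o) ^ 2 ≤ ((Finset.insertNone F).card : ℝ) * ∑ o ∈ Finset.insertNone F, (g o) ^ 2 :=
    sq_sum_le_card_mul_sum_sq
  rw [h1, h2, Finset.card_insertNone] at h3
  have h4 : x ≤ (Real.sqrt ν + ∑ k ∈ F, Real.sqrt (a k)) ^ 2 := by
    calc x = Real.sqrt x ^ 2 := (Real.sq_sqrt hx).symm
      _ ≤ (Real.sqrt ν + ∑ k ∈ F, Real.sqrt (a k)) ^ 2 := pow_le_pow_left₀ (Real.sqrt_nonneg _) (by linarith) 2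
  have h5 : 0 ≤ ν + ∑ k ∈ F, a k := add_nonneg hν (Finset.sum_nonneg fun k _ => ha k)
  calc x ≤ ((F.card + 1 : ℕ) : ℝ) * (ν + ∑ k ∈ F, a k) := h4.trans h3
    _ ≤ (n + 1) * (ν + ∑ k ∈ F, a k) := by
        refine mul_le_mul_of_nonneg_right ?_ h5
        push_cast
        linarith
    _ = (n + 1) * (∑ k ∈ F, a k + ν) := by ring

/-- Cauchy-Schwarz over the pairs (label, key) -/
theorem ch_mh_pairs {κ : Type} [DecidableEq κ] (L : ℕ) (Keys : Fin L → Finset κ) (mk : Fin L → κ → ℝ) (W : κ → ℝ) (nK c0 e : ℝ) (hc0 : 0 ≤ c0)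
    (H4 : ∀ l, ((Keys l).card : ℝ) ≤ nK) (H5 : ∀ k, ∑ l, (if k ∈ Keys l then (mk l k) ^ 2 else 0) ≤ c0 * W k)
    (H6 : ∀ U : Finset κ, ∑ k ∈ U, W k ≤ e) : ∑ l, ∑ k ∈ Keys l, mk l k ≤ Real.sqrt ((L : ℝ) * nK * (c0 * e)) := by
  obtain ⟨Sg, hSg⟩ : ∃ Sg : Finset (Σ _ : Fin L, κ), Sg = Finset.univ.sigma Keys := ⟨_, rfl⟩
  have h2 : ∑ l, ∑ k ∈ Keys l, mk l k = ∑ p ∈ Sg, mk p.1 p.2 := by
    rw [hSg, Finset.sum_sigma]
  have h2' : ∑ l, ∑ k ∈ Keys l, (mk l k) ^ 2 = ∑ p ∈ Sg, (mk p.1 p.2) ^ 2 := by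
    rw [hSg, Finset.sum_sigma]
  have hcard : (Sg.card : ℝ) ≤ (L : ℝ) * nK := by
    rw [hSg, Finset.card_sigma]
    push_cast
    calc ∑ l, ((Keys l).card : ℝ) ≤ ∑ _l : Fin L, nK := Finset.sum_le_sum fun l _ => H4 l
      _ = (L : ℝ) * nK := by simp
  have hLM : 0 ≤ (L : ℝ) * nK := le_trans (Nat.cast_nonneg _) hcard
  have hCS : (∑ p ∈ Sg, mk p.1 p.2) ^ 2 ≤ (Sg.card : ℝ) * ∑ p ∈ Sg, (mk p.1 p.2) ^ 2 := sq_sum_le_card_mul_sum_sq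
  obtain ⟨U, hU⟩ : ∃ U : Finset κ, U = Finset.univ.biUnion Keys := ⟨_, rfl⟩
  have hsubU : ∀ l, Keys l ⊆ U := by
    intro l k hk; rw [hU]; exact Finset.mem_biUnion.mpr ⟨l, Finset.mem_univ l, hk⟩
  have h3 : ∑ l, ∑ k ∈ Keys l, (mk l k) ^ 2 ≤ c0 * e := by
    calc ∑ l, ∑ k ∈ Keys l, (mk l k) ^ 2
        = ∑ l, ∑ k ∈ U, (if k ∈ Keys l then (mk l k) ^ 2 else 0) := by
          refine Finset.sum_congr rfl fun l _ => ?_
          rw [← Finset.sum_filter]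
          refine Finset.sum_congr ?_ fun _ _ => rfl
          ext k
          simp only [Finset.mem_filter]
          exact ⟨fun h => ⟨hsubU l h, h⟩, fun h => h.2⟩
      _ = ∑ k ∈ U, ∑ l, (if k ∈ Keys l then (mk l k) ^ 2 else 0) := Finset.sum_comm
      _ ≤ ∑ k ∈ U, c0 * W k := Finset.sum_le_sum fun k _ => H5 k
      _ = c0 * ∑ k ∈ U, W k := by rw [Finset.mul_sum]
      _ ≤ c0 * e := mul_le_mul_of_nonneg_left (H6 U) hc0
  rw [h2]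
  refine Real.le_sqrt_of_sq_le (hCS.trans ?_)
  have hsq : 0 ≤ ∑ p ∈ Sg, (mk p.1 p.2) ^ 2 := Finset.sum_nonneg fun p _ => sq_nonneg _
  calc (Sg.card : ℝ) * ∑ p ∈ Sg, (mk p.1 p.2) ^ 2
      ≤ (L : ℝ) * nK * ∑ p ∈ Sg, (mk p.1 p.2) ^ 2 := mul_le_mul_of_nonneg_right hcard hsq
    _ ≤ (L : ℝ) * nK * (c0 * e) := by
        refine mul_le_mul_of_nonneg_left ?_ hLM
        rw [← h2']
        exact h3

/-- **the abstract assembly** -/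
theorem ch_mh_asm {κ β : Type} [DecidableEq κ] [DecidableEq β] (L : ℕ) (Keys : Fin L → Finset κ) (base : κ → β) (Bs : Fin L → Finset β)
    (hb : ∀ l, ∀ k ∈ Keys l, base k ∈ Bs l)
    (m : Fin L → ℝ) (mb : Fin L → β → ℝ) (mk : Fin L → κ → ℝ) (W : κ → ℝ) (nA nB nK c0 e ν : ℝ)
    (hmk : ∀ l k, 0 ≤ mk l k) (hmb : ∀ l b, 0 ≤ mb l b) (hν : 0 ≤ ν) (hc0 : 0 ≤ c0) (hnA : 0 ≤ nA)
    (H1 : ∀ l, m l ≤ ∑ b ∈ Bs l, mb l b)
    (H2 : ∀ l, ∀ b ∈ Bs l, Real.sqrt (mb l b) ≤ ∑ k ∈ (Keys l).filter (fun k => base k = b), Real.sqrt (mk l k) + Real.sqrt ν)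
    (H3 : ∀ l b, (((Keys l).filter (fun k => base k = b)).card : ℝ) ≤ nA)
    (H4 : ∀ l, ((Bs l).card : ℝ) ≤ nB) (H4' : ∀ l, ((Keys l).card : ℝ) ≤ nK)
    (H5 : ∀ k, ∑ l, (if k ∈ Keys l then (mk l k) ^ 2 else 0) ≤ c0 * W k)
    (H6 : ∀ U : Finset κ, ∑ k ∈ U, W k ≤ e) :
    ∑ l, m l ≤ (nA + 1) * (Real.sqrt ((L : ℝ) * nK * (c0 * e)) + (L : ℝ) * nB * ν) := by
  have hA1 : 0 ≤ nA + 1 := by linarith
  have s1 : ∀ l, m l ≤ (nA + 1) * (∑ k ∈ Keys l, mk l k + nB * ν) := by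
    intro l
    calc m l ≤ ∑ b ∈ Bs l, mb l b := H1 l
      _ ≤ ∑ b ∈ Bs l, (nA + 1) * (∑ k ∈ (Keys l).filter (fun k => base k = b), mk l k + ν) :=
          Finset.sum_le_sum fun b hbm => ch_mh_cs_one _ (mk l) ν (mb l b) nA (hmk l) hν (hmb l b) (H2 l b hbm) (H3 l b)
      _ = (nA + 1) * (∑ b ∈ Bs l, ∑ k ∈ (Keys l).filter (fun k => base k = b), mk l k + ((Bs l).card : ℝ) * ν) := by
          rw [← Finset.mul_sum, Finset.sum_add_distrib, Finset.sum_const, nsmul_eq_mul]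
      _ = (nA + 1) * (∑ k ∈ Keys l, mk l k + ((Bs l).card : ℝ) * ν) := by
          rw [Finset.sum_fiberwise_of_maps_to (hb l)]
      _ ≤ (nA + 1) * (∑ k ∈ Keys l, mk l k + nB * ν) := by
          refine mul_le_mul_of_nonneg_left ?_ hA1
          have := mul_le_mul_of_nonneg_right (H4 l) hν
          linarith
  calc ∑ l, m l ≤ ∑ l, (nA + 1) * (∑ k ∈ Keys l, mk l k + nB * ν) := Finset.sum_le_sum fun l _ => s1 l
    _ = (nA + 1) * (∑ l, ∑ k ∈ Keys l, mk l k + (L : ℝ) * nB * ν) := by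
        rw [← Finset.mul_sum, Finset.sum_add_distrib, Finset.sum_const, nsmul_eq_mul]
        simp only [Finset.card_univ, Fintype.card_fin]
        ring
    _ ≤ (nA + 1) * (Real.sqrt ((L : ℝ) * nK * (c0 * e)) + (L : ℝ) * nB * ν) := by
        refine mul_le_mul_of_nonneg_left ?_ hA1
        have := ch_mh_pairs L Keys mk W nK c0 e hc0 H4' H5 H6
        linarith

end Claimed.Agent.R256
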