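-- KEEP
import Claimed.Agent.R256.Hyb.Contract
import Claimed.Agent.R256.Gen.BasC

/-!
# Row 256 (LS paper), CHAN, unit MH (post BP-256-CHAN-MH), file 3 : events of the exact index commute with everything          (architect helper86; prefix `ch_mh_`)

`ch_mh_comm` :   `en θ (run st (tz (M 1_{ω ∈ S}) v)) = en (θ 1_{ω ∈ S}) (run st (tz M v))`      (from `hy_run_rows`: the hybrid system acts fibre by fibre over the exact index).
`ch_mh_tz_sum` : `tz` is additive in the mask.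
-/

set_option autoImplicit false

namespace Claimed.Agent.R256

open MeasureTheory

theorem ch_mh_tr_zero (φ : HyF) {E : Type} [NormedAddCommGroup E] [NormedSpace ℂ E] (T : ℝ) (k : ℕ) (T' : ℝ) (k' : ℕ) :
    φ.tr T k T' k' (fun _ => (0 : E)) = fun _ => 0 := by
  funext ρ
  simp [HyF.tr]

theorem ch_mh_br_zero (φ : HyF) {E : Type} [NormedAddCommGroup E] [NormedSpace ℂ E] (k' i : ℕ) (l : List HyStg) (T : ℝ) (k : ℕ) :
    φ.br k' i l T k (fun _ => (0 : E)) = fun _ => 0 := by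
  induction l generalizing T k with
  | nil =>
    simp only [HyF.br]
    exact ch_mh_tr_zero φ T k _ _
  | cons σ l ih =>
    simp only [HyF.br]
    rw [ch_mh_tr_zero]
    simp only [smul_zero]
    exact ih _ _

/-- the rows of a branch started from a row function restricted to a set of exact indices -/
theorem ch_mh_rows_ind (p : ChyPar) (h : p.Ok) (η : ℝ) (k' i : ℕ) (st : List (Stg (p.sys η))) (hst : ∀ σ ∈ st, ∀ j, IsMask (σ.M j))
    (T : ℝ) (k : ℕ) (F F' : Lp p.Fb 2 p.rw) (S : Set p.Om) [DecidablePred (· ∈ S)]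
    (hF : ∀ᵐ x ∂p.rw, (F' : p.Om × ℝ × ℝ → p.Fb) x = if x.1 ∈ S then (F : p.Om × ℝ × ℝ → p.Fb) x else 0) :
    ∀ᵐ x ∂p.rw, (p.an (tmL k' i) k' (Xp.run (P := p.sys η) k' i st (ContinuousLinearMap.adjoint (p.an T k) F')) : p.Om × ℝ × ℝ → p.Fb) x
      = if x.1 ∈ S then (p.an (tmL k' i) k' (Xp.run (P := p.sys η) k' i st (ContinuousLinearMap.adjoint (p.an T k) F)) : p.Om × ℝ × ℝ → p.Fb) x else 0 := by
  have r := hy_run_rows p h η k' i st hst T k F
  have r' := hy_run_rows p h η k' i st hst T k F'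
  have hfib := hy_i3_fib_ae p h hF
  have hbr : ∀ᵐ ω ∂p.m, (p.fib ω).br k' i (st.map (p.fst η ω)) T k (fun ρ => (F' : p.Om × ℝ × ℝ → p.Fb) (ω, ρ))
      = if ω ∈ S then (p.fib ω).br k' i (st.map (p.fst η ω)) T k (fun ρ => (F : p.Om × ℝ × ℝ → p.Fb) (ω, ρ)) else fun _ => 0 := by
    filter_upwards [hfib] with ω hω
    by_cases hS : ω ∈ S
    · rw [if_pos hS]
      apply hy_i3_br_congr
      filter_upwards [hω] with ρ hρ
      rw [hρ, if_pos hS]
    · rw [if_neg hS, ← ch_mh_br_zero (p.fib ω) k' i (st.map (p.fst η ω)) T k]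
      apply hy_i3_br_congr
      filter_upwards [hω] with ρ hρ
      rw [hρ, if_neg hS]
  filter_upwards [r, r', hy_i3_lift_ae p hbr] with x h1 h2 h3
  rw [h2, h3]
  by_cases hS : x.1 ∈ S
  · rw [if_pos hS, if_pos hS, h1]
  · rw [if_neg hS, if_neg hS]

/-- **events of the exact index commute with the stack** -/
theorem ch_mh_comm (p : ChyPar) (h : p.Ok) (η : ℝ) (k' i : ℕ) (st : List (Stg (p.sys η))) (hst : ∀ σ ∈ st, ∀ j, IsMask (σ.M j)) (T : ℝ) (k b b' : ℕ)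
    (M θ : p.Om × ℝ × ℝ → ℝ) (hM : IsMask M) (S : Set p.Om) (hS : MeasurableSet S) (v : (p.sys η).Kc) :
    (p.sys η).en (tmL k' i) k' b' θ (Xp.run k' i st ((p.sys η).tz T k b (fun x => M x * S.indicator (fun _ => (1 : ℝ)) x.1) v))
      = (p.sys η).en (tmL k' i) k' b' (fun x => θ x * S.indicator (fun _ => (1 : ℝ)) x.1) (Xp.run k' i st ((p.sys η).tz T k b M v)) := by
  classical
  have hI : IsMask (fun x : p.Om × ℝ × ℝ => S.indicator (fun _ => (1 : ℝ)) x.1) := by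
    have : (fun x : p.Om × ℝ × ℝ => S.indicator (fun _ => (1 : ℝ)) x.1) = (Prod.fst ⁻¹' S).indicator fun _ => (1 : ℝ) := by
      funext x
      rfl
    rw [this]
    exact gn_mask_ind (measurable_fst hS)
  have hM' : IsMask (fun x : p.Om × ℝ × ℝ => M x * S.indicator (fun _ => (1 : ℝ)) x.1) := gn_mask_mul hM hI
  obtain ⟨A, hA⟩ : ∃ A : Lp p.Fb 2 p.rw, A = (p.sys η).An T k b v := ⟨_, rfl⟩
  obtain ⟨F, hFd⟩ : ∃ F : Lp p.Fb 2 p.rw, F = (p.sys η).mulR k M A := ⟨_, rfl⟩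
  obtain ⟨F', hFd'⟩ : ∃ F' : Lp p.Fb 2 p.rw, F' = (p.sys η).mulR k (fun x => M x * S.indicator (fun _ => (1 : ℝ)) x.1) A := ⟨_, rfl⟩
  have hF : ∀ᵐ x ∂p.rw, (F' : p.Om × ℝ × ℝ → p.Fb) x = if x.1 ∈ S then (F : p.Om × ℝ × ℝ → p.Fb) x else 0 := by
    have a1 : (F : p.Om × ℝ × ℝ → p.Fb) =ᵐ[p.rw] fun x => ((M x : ℝ) : ℂ) • (A : p.Om × ℝ × ℝ → p.Fb) x := by
      rw [hFd]
      exact hy_i3_mulR p η k hM A
    have a2 : (F' : p.Om × ℝ × ℝ → p.Fb) =ᵐ[p.rw] fun x => ((M x * S.indicator (fun _ => (1 : ℝ)) x.1 : ℝ) : ℂ) • (A : p.Om × ℝ × ℝ → p.Fb) x := by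
      rw [hFd']
      exact hy_i3_mulR p η k hM' A
    filter_upwards [a1, a2] with x h1 h2
    rw [h1, h2]
    by_cases hx : x.1 ∈ S
    · rw [if_pos hx, Set.indicator_of_mem hx, mul_one]
    · rw [if_neg hx, Set.indicator_of_notMem hx, mul_zero]
      simp
  have rows := ch_mh_rows_ind p h η k' i st hst T k F F' S hF
  have e1 : (p.sys η).tz T k b (fun x => M x * S.indicator (fun _ => (1 : ℝ)) x.1) v = ContinuousLinearMap.adjoint (p.an T k) F' := by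
    rw [hFd', hA]
    rfl
  have e2 : (p.sys η).tz T k b M v = ContinuousLinearMap.adjoint (p.an T k) F := by
    rw [hFd, hA]
    rfl
  rw [e1, e2]
  show ∫ x, θ x * ‖(p.an (tmL k' i) k' (Xp.run (P := p.sys η) k' i st (ContinuousLinearMap.adjoint (p.an T k) F')) : p.Om × ℝ × ℝ → p.Fb) x‖ ^ 2 ∂p.rw
    = ∫ x, (θ x * S.indicator (fun _ => (1 : ℝ)) x.1)
        * ‖(p.an (tmL k' i) k' (Xp.run (P := p.sys η) k' i st (ContinuousLinearMap.adjoint (p.an T k) F)) : p.Om × ℝ × ℝ → p.Fb) x‖ ^ 2 ∂p.rw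
  refine integral_congr_ae ?_
  filter_upwards [rows] with x hx
  rw [hx]
  by_cases hxS : x.1 ∈ S
  · rw [if_pos hxS, Set.indicator_of_mem hxS, mul_one]
  · rw [if_neg hxS, Set.indicator_of_notMem hxS]
    simp

/-- `tz` is additive in the mask -/
theorem ch_mh_tz_sum {P : PkSys} (T : ℝ) (k b : ℕ) {ι : Type} (J : Finset ι) (Mk : ι → P.X → ℝ) (hM : ∀ j ∈ J, IsMask (Mk j)) {M : P.X → ℝ} (hM' : IsMask M)
    (hs : ∀ x, ∑ j ∈ J, Mk j x = M x) (v : P.Kc) : ∑ j ∈ J, P.tz T k b (Mk j) v = P.tz T k b M v := by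
  unfold PkSys.tz
  rw [← map_sum, gn_mulR_sum k J Mk hM hM' hs]

end Claimed.Agent.R256
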