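-- KEEP
import Claimed.Agent.R256.Chan.MemGeo

/-!
# Row 256 (LS paper), CHAN, unit MH (post BP-256-CHAN-MH), file 1 : units, base keys, counts          (architect helper86; prefix `ch_mh_`, defs `chMh*`)

PURE REAL ARITHMETIC (no measure, no model).
* `chMhNrm`, `chMhDen`, `chMhNz`     tests and instantaneous coordinates in the units `(l0, r1, f1)`; `ch_mh_cov`, `ch_mh_cov_den` (covariance of the five inequalities), `ch_mh_near` (covariance of (A)/(F))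
* `chMhFt`                           the base part of a test; `ch_mh_cover` (= `ch_g_cover` without normal coordinates), `ch_mh_cover_box`
* `chMhBs`                           the base keys `(k1,k2,k3)` of a label: `ch_mh_bs_mem`, `ch_mh_bs_card` (`≤ 280 #lst δ²/ρ³`), `ch_mh_fib_card` (`≤ 525 A³` keys over one base key), `ch_mh_box_uniq`
* `ch_mh_taylor`, `ch_mh_reg`        (G3), (G4) in absolute normal units
-/

set_option autoImplicit false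

namespace Claimed.Agent.R256

/-! ### units -/

/-- a test in the units `(l0, r1, f1)` -/
noncomputable def chMhNrm (l0 r1 f1 : ℝ) (Q : CyT) : CyT :=
  ⟨Q.x / r1, Q.b / (l0 * r1), Q.y / (l0 * r1 ^ 2), Q.r / r1, Q.f / f1, Q.c / f1, Q.d / (l0 * f1), Q.al * (r1 / f1), Q.be * (r1 ^ 2 / f1),
    Q.K * (l0 * r1 ^ 2 / f1)⟩

/-- back to absolute units -/
noncomputable def chMhDen (l0 r1 f1 : ℝ) (Q : CyT) : CyT :=
  ⟨Q.x * r1, Q.b * (l0 * r1), Q.y * (l0 * r1 ^ 2), Q.r * r1, Q.f * f1, Q.c * f1, Q.d * (l0 * f1), Q.al * (f1 / r1), Q.be * (f1 / r1 ^ 2),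
    Q.K * (f1 / (l0 * r1 ^ 2))⟩

/-- instantaneous coordinates in the units `(l0, r1, f1)` -/
noncomputable def chMhNz (l0 r1 f1 : ℝ) (z : Cy5) : Cy5 := ⟨z.X / r1, z.B / (l0 * r1), z.Y / (l0 * r1 ^ 2), z.N / f1, z.D / (l0 * f1)⟩

theorem ch_mh_unit_eqns_cite : True := by
  have := @chMhNrm.eq_1
  have := @chMhDen.eq_1
  have := @chMhNz.eq_1
  trivial

theorem ch_mh_abs_div (a w c : ℝ) (hc : 0 < c) : |a / c| ≤ w / c ↔ |a| ≤ w := by
  rw [abs_div, abs_of_pos hc, div_le_div_iff_of_pos_right hc]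

/-- covariance of the five inequalities -/
theorem ch_mh_cov (l0 r1 f1 l : ℝ) (h0 : 0 < l0) (hr : 0 < r1) (hf : 0 < f1) (Q : CyT) (z : Cy5) :
    cyIn (chMhNrm l0 r1 f1 Q) l (chMhNz l0 r1 f1 z) ↔ cyIn Q (l0 * l) z := by
  have c2 : 0 < l0 * r1 := by positivity
  have c3 : 0 < l0 * r1 ^ 2 := by positivity
  have c5 : 0 < l0 * f1 := by positivity
  have e1 : z.X / r1 - Q.x / r1 = (z.X - Q.x) / r1 := by ring
  have e2 : z.B / (l0 * r1) - Q.b / (l0 * r1) = (z.B - Q.b) / (l0 * r1) := by ring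
  have e2' : l * (Q.r / r1) = (l0 * l * Q.r) / (l0 * r1) := by field_simp
  have e3 : cyTilt (chMhNrm l0 r1 f1 Q) (chMhNz l0 r1 f1 z) = cyTilt Q z / (l0 * r1 ^ 2) := by
    unfold cyTilt chMhNrm chMhNz
    field_simp
  have e3' : l * (Q.r / r1) ^ 2 = (l0 * l * Q.r ^ 2) / (l0 * r1 ^ 2) := by field_simp
  have e4 : cyVel (chMhNrm l0 r1 f1 Q) (chMhNz l0 r1 f1 z) = cyVel Q z / f1 := by
    unfold cyVel chMhNrm chMhNz
    field_simp
  have e5 : cyPos (chMhNrm l0 r1 f1 Q) (chMhNz l0 r1 f1 z) = cyPos Q z / (l0 * f1) := by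
    unfold cyPos chMhNrm chMhNz
    field_simp
  have e5' : l * (Q.f / f1) = (l0 * l * Q.f) / (l0 * f1) := by field_simp
  unfold cyIn
  rw [e3, e4, e5]
  show (|z.X / r1 - Q.x / r1| ≤ Q.r / r1 ∧ |z.B / (l0 * r1) - Q.b / (l0 * r1)| ≤ l * (Q.r / r1) ∧ |cyTilt Q z / (l0 * r1 ^ 2)| ≤ l * (Q.r / r1) ^ 2 ∧
    |cyVel Q z / f1| ≤ Q.f / f1 ∧ |cyPos Q z / (l0 * f1)| ≤ l * (Q.f / f1)) ↔ _
  rw [e1, e2, e2', e3', e5', ch_mh_abs_div _ _ _ hr, ch_mh_abs_div _ _ _ c2, ch_mh_abs_div _ _ _ c3, ch_mh_abs_div _ _ _ hf, ch_mh_abs_div _ _ _ c5]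

theorem ch_mh_nrm_den (l0 r1 f1 : ℝ) (h0 : 0 < l0) (hr : 0 < r1) (hf : 0 < f1) (Q : CyT) : chMhNrm l0 r1 f1 (chMhDen l0 r1 f1 Q) = Q := by
  obtain ⟨x, b, y, r, f, c, d, al, be, K⟩ := Q
  unfold chMhNrm chMhDen
  simp only [CyT.mk.injEq]
  refine ⟨by field_simp, by field_simp, by field_simp, by field_simp, by field_simp, by field_simp, by field_simp, by field_simp, by field_simp, by field_simp⟩

theorem ch_mh_cov_den (l0 r1 f1 l : ℝ) (h0 : 0 < l0) (hr : 0 < r1) (hf : 0 < f1) (Q : CyT) (z : Cy5) :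
    cyIn (chMhDen l0 r1 f1 Q) (l0 * l) z ↔ cyIn Q l (chMhNz l0 r1 f1 z) := by
  rw [← ch_mh_cov l0 r1 f1 l h0 hr hf, ch_mh_nrm_den l0 r1 f1 h0 hr hf]

/-- covariance of the comparison (A)/(F) -/
theorem ch_mh_near (A Lm Qx dl l0 r1 f1 t be0 K0 P0 Xc BT : ℝ) (h0 : 0 < l0) (hr : 0 < r1) (hf : 0 < f1) (Q : CyT)
    (h : chNear A Lm Qx dl l0 r1 f1 (l0 * t) be0 K0 P0 Xc BT Q) :
    chNear A Lm Qx dl 1 1 1 t (be0 * (r1 ^ 2 / f1)) (K0 * (l0 * r1 ^ 2 / f1)) (P0 * (r1 / f1)) (Xc / r1) (BT / (l0 * r1)) (chMhNrm l0 r1 f1 Q) := by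
  obtain ⟨h1, h2, h3⟩ := h
  have c1 : 0 < r1 ^ 2 / f1 := by positivity
  have c3 : 0 < r1 / f1 := by positivity
  refine ⟨?_, ?_, ?_⟩
  · have e : be0 * (r1 ^ 2 / f1) - (Q.be * (r1 ^ 2 / f1) - t * (Q.K * (l0 * r1 ^ 2 / f1))) = (be0 - (Q.be - l0 * t * Q.K)) * (r1 ^ 2 / f1) := by ring
    show |be0 * (r1 ^ 2 / f1) - (Q.be * (r1 ^ 2 / f1) - t * (Q.K * (l0 * r1 ^ 2 / f1)))| ≤ _
    rw [e, abs_mul, abs_of_pos c1]
    refine (mul_le_mul_of_nonneg_right h1 c1.le).trans (le_of_eq ?_)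
    field_simp
  · have e : K0 * (l0 * r1 ^ 2 / f1) - Q.K * (l0 * r1 ^ 2 / f1) = (K0 - Q.K) * l0 * (r1 ^ 2 / f1) := by ring
    show 1 * |K0 * (l0 * r1 ^ 2 / f1) - Q.K * (l0 * r1 ^ 2 / f1)| ≤ _
    rw [e, abs_mul, abs_mul, abs_of_pos c1, abs_of_pos h0, one_mul, mul_comm |K0 - Q.K| l0]
    refine (mul_le_mul_of_nonneg_right h2 c1.le).trans (le_of_eq ?_)
    field_simp
  · have e : P0 * (r1 / f1) - (Q.al * (r1 / f1) + 2 * (Q.be * (r1 ^ 2 / f1)) * (Xc / r1) - 2 * (Q.K * (l0 * r1 ^ 2 / f1)) * (BT / (l0 * r1)))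
        = (P0 - (Q.al + 2 * Q.be * Xc - 2 * Q.K * BT)) * (r1 / f1) := by
      field_simp
    show |P0 * (r1 / f1) - (Q.al * (r1 / f1) + 2 * (Q.be * (r1 ^ 2 / f1)) * (Xc / r1) - 2 * (Q.K * (l0 * r1 ^ 2 / f1)) * (BT / (l0 * r1)))| ≤ _
    rw [e, abs_mul, abs_of_pos c3]
    refine (mul_le_mul_of_nonneg_right h3 c3.le).trans (le_of_eq ?_)
    field_simp

/-- the scales of a segment -/
theorem ch_mh_sc_ok (d A Lm Qx : ℝ) (hd0 : 0 < d) (hd1 : d ≤ 1) (hA : 1 ≤ A) (hL : 1 ≤ Lm) (hML : 1 + Qx ≤ 2 * Lm) :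
    (⟨d, d ^ Lm, d ^ (1 - Lm), d ^ (-Qx), A⟩ : ChSc).Ok := by
  refine ⟨Real.rpow_pos_of_pos hd0 _, ?_, hd1, ?_, Real.rpow_pos_of_pos hd0 _, ?_, hA⟩
  · have := Real.rpow_le_rpow_of_exponent_ge hd0 hd1 hL
    rwa [Real.rpow_one] at this
  · show d ^ (1 - Lm) * d ^ Lm = d
    rw [← Real.rpow_add hd0]
    have : 1 - Lm + Lm = 1 := by ring
    rw [this, Real.rpow_one]
  · show d ^ (-Qx) * d ^ Lm ≤ d ^ (1 - Lm)
    rw [← Real.rpow_add hd0]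
    exact Real.rpow_le_rpow_of_exponent_ge hd0 hd1 (by linarith)

/-! ### the base part of a test -/

/-- the base part of the five inequalities (instantaneous coordinates) -/
def chMhFt (Q : CyT) (l X B Y : ℝ) : Prop := |X - Q.x| ≤ Q.r ∧ |B - Q.b| ≤ l * Q.r ∧ |Y - Q.y - 2 * Q.x * (B - Q.b)| ≤ l * Q.r ^ 2

theorem ch_mh_ft_eqns_cite : True := by
  have := @chMhFt.eq_1
  trivial

theorem ch_mh_ft_of_in {Q : CyT} {l : ℝ} {z : Cy5} (h : cyIn Q l z) : chMhFt Q l z.X z.B z.Y := ⟨h.1, h.2.1, h.2.2.1⟩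

theorem ch_mh_in_of_ft {Q : CyT} {l X B Y : ℝ} (hl : 0 ≤ l) (hf : 0 ≤ Q.f) (h : chMhFt Q l X B Y) : ∃ N D, cyIn Q l ⟨X, B, Y, N, D⟩ := by
  refine ⟨Q.c + Q.al * X + Q.be * X ^ 2 + Q.K * (Y - 2 * X * B), Q.d + Q.al * B + Q.be * Y - Q.K * B ^ 2, h.1, h.2.1, h.2.2, ?_, ?_⟩
  · have : cyVel Q ⟨X, B, Y, Q.c + Q.al * X + Q.be * X ^ 2 + Q.K * (Y - 2 * X * B), Q.d + Q.al * B + Q.be * Y - Q.K * B ^ 2⟩ = 0 := by
      unfold cyVel
      ring
    rw [this, abs_zero]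
    exact hf
  · have : cyPos Q ⟨X, B, Y, Q.c + Q.al * X + Q.be * X ^ 2 + Q.K * (Y - 2 * X * B), Q.d + Q.al * B + Q.be * Y - Q.K * B ^ 2⟩ = 0 := by
      unfold cyPos
      ring
    rw [this, abs_zero]
    exact mul_nonneg hl hf

/-- `ch_g_cover` without normal coordinates -/
theorem ch_mh_cover (s : ChSc) (hs : s.Ok) (T : ℝ) (hT0 : 0 ≤ T) (hT1 : T ≤ 1) (Q : CyT) (hr : Q.r = 1) (hf : Q.f = 1) (lst : Finset ℝ)
    (X B Y be0 K0 P0 : ℝ) (hft : chMhFt Q s.d X (B + T * X) (Y + T * X ^ 2))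
    (h1 : |be0 - (Q.be - T * Q.K)| ≤ s.A * s.W2) (h2 : |K0 - Q.K| ≤ s.A * s.W2)
    (h3 : |P0 - (Q.al + 2 * Q.be * X - 2 * Q.K * (B + T * X))| ≤ s.A * s.W1) (hc : ∃ c ∈ lst, |X - c| ≤ s.rho) :
    ∃ k, chGKeyP s T Q lst k ∧ chGCell s k X B Y be0 K0 P0 := by
  have hd0 : 0 ≤ s.d := le_trans hs.rho_pos.le hs.rho_le
  obtain ⟨N, D, hin⟩ := ch_mh_in_of_ft hd0 (by rw [hf]; exact zero_le_one) hft
  have e : D - T * N + T * N = D := by ring
  exact ch_g_cover s hs T hT0 hT1 Q hr hf lst X B Y N (D - T * N) be0 K0 P0 (by rw [e]; exact hin) h1 h2 h3 hc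

/-- the base ray of a particle read by a label in a listed angle cell lies in the base box of a key of the label -/
theorem ch_mh_cover_box (s : ChSc) (hs : s.Ok) (T : ℝ) (hT0 : 0 ≤ T) (hT1 : T ≤ 1) (Q : CyT) (hr : Q.r = 1) (hf : Q.f = 1) (lst : Finset ℝ)
    (X B Y : ℝ) (hft : chMhFt Q s.d X (B + T * X) (Y + T * X ^ 2)) (hc : ∃ c ∈ lst, |X - c| ≤ s.rho) :
    ∃ k, chGKeyP s T Q lst k ∧ chGBox s k X B Y := by
  have hA : 0 ≤ s.A := le_trans zero_le_one hs.A1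
  have w1 : 0 ≤ s.A * s.W1 := mul_nonneg hA (ch_g_W1_pos s hs).le
  have w2 : 0 ≤ s.A * s.W2 := mul_nonneg hA hs.W2_pos.le
  obtain ⟨k, hk, hc⟩ := ch_mh_cover s hs T hT0 hT1 Q hr hf lst X B Y (Q.be - T * Q.K) Q.K (Q.al + 2 * Q.be * X - 2 * Q.K * (B + T * X)) hft
    (by rw [sub_self, abs_zero]; exact w2) (by rw [sub_self, abs_zero]; exact w2) (by rw [sub_self, abs_zero]; exact w1) hc
  exact ⟨k, hk, hc.1⟩

/-! ### base keys -/

/-- the base part of a key -/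
def ChKey.bs (k : ChKey) : ℤ × ℤ × ℤ := (k.k1, k.k2, k.k3)

/-- a key over a base key -/
def chMhKb (β : ℤ × ℤ × ℤ) : ChKey := ⟨β.1, β.2.1, β.2.2, 0, 0, 0⟩

/-- the base keys of a label -/
noncomputable def chMhBs (s : ChSc) (T : ℝ) (Q : CyT) (lst : Finset ℝ) : Finset (ℤ × ℤ × ℤ) :=
  (lst.biUnion fun c => chGI (c / s.rho - 2) (c / s.rho + 1)).biUnion fun k1 =>
  (chGI ((Q.b - T * ((k1 : ℝ) * s.rho) - 2 * s.d) / s.rho - 1) ((Q.b - T * ((k1 : ℝ) * s.rho) + s.d) / s.rho)).biUnion fun k2 =>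
  (chGI ((Q.y - 2 * ((k1 : ℝ) * s.rho) * Q.b + T * ((k1 : ℝ) * s.rho) ^ 2 - 6 * s.d) / s.rho ^ 2 - 1)
      ((Q.y - 2 * ((k1 : ℝ) * s.rho) * Q.b + T * ((k1 : ℝ) * s.rho) ^ 2 + 6 * s.d) / s.rho ^ 2)).image fun k3 => (k1, k2, k3)

theorem ch_mh_bs_eqns_cite : True := by
  have := @ChKey.bs.eq_1
  have := @chMhKb.eq_1
  have := @chMhBs.eq_1
  trivial

theorem ch_mh_box_kb (s : ChSc) (k : ChKey) (X B Y : ℝ) : chGBox s k X B Y ↔ chGBox s (chMhKb k.bs) X B Y := Iff.rfl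

theorem ch_mh_bs_mem (s : ChSc) (T : ℝ) (Q : CyT) (lst : Finset ℝ) (k : ChKey) (hk : k ∈ chGKeys s T Q lst) : k.bs ∈ chMhBs s T Q lst := by
  unfold chGKeys at hk
  unfold chMhBs
  simp only [Finset.mem_biUnion, Finset.mem_image] at hk ⊢
  obtain ⟨k1, ⟨c, hc, h1⟩, k2, h2, k3, h3, k4, h4, k5, h5, k6, h6, rfl⟩ := hk
  exact ⟨k1, ⟨c, hc, h1⟩, k2, h2, k3, h3, rfl⟩

theorem ch_mh_bs_card (s : ChSc) (hs : s.Ok) (T : ℝ) (Q : CyT) (lst : Finset ℝ) :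
    ((chMhBs s T Q lst).card : ℝ) ≤ (lst.card : ℝ) * (280 * (s.d ^ 2 / s.rho ^ 3)) := by
  have hρ := hs.rho_pos
  have hd0 : 0 < s.d := lt_of_lt_of_le hρ hs.rho_le
  have q1 : 1 ≤ s.d / s.rho := by rw [le_div_iff₀ hρ]; linarith [hs.rho_le]
  have q2 : 1 ≤ s.d / s.rho ^ 2 := by
    rw [le_div_iff₀ (by positivity)]
    nlinarith [hs.rho_le, hs.d_le]
  have hfin : (lst.card : ℝ) * (280 * (s.d ^ 2 / s.rho ^ 3)) = (lst.card : ℝ) * 4 * ((5 * (s.d / s.rho)) * (14 * (s.d / s.rho ^ 2))) := by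
    field_simp
    ring
  rw [hfin]
  unfold chMhBs
  refine ch_g_card_bi _ _ _ _ ?_ (fun k1 _ => ?_) (by positivity)
  · refine ch_g_card_bi _ _ _ _ le_rfl (fun c _ => ?_) (by norm_num)
    refine (ch_g_I_card _ _ (by linarith)).trans (by linarith)
  refine ch_g_card_bi _ _ _ _ ?_ (fun k2 _ => ?_) (by positivity)
  · have e : (Q.b - T * ((k1 : ℝ) * s.rho) + s.d) / s.rho - ((Q.b - T * ((k1 : ℝ) * s.rho) - 2 * s.d) / s.rho - 1) = 3 * (s.d / s.rho) + 1 := by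
      field_simp; ring
    refine (ch_g_I_card _ _ (by linarith)).trans (by linarith)
  refine (Nat.cast_le.mpr Finset.card_image_le).trans ?_
  have e : (Q.y - 2 * ((k1 : ℝ) * s.rho) * Q.b + T * ((k1 : ℝ) * s.rho) ^ 2 + 6 * s.d) / s.rho ^ 2
      - ((Q.y - 2 * ((k1 : ℝ) * s.rho) * Q.b + T * ((k1 : ℝ) * s.rho) ^ 2 - 6 * s.d) / s.rho ^ 2 - 1) = 12 * (s.d / s.rho ^ 2) + 1 := by
    field_simp; ring
  refine (ch_g_I_card _ _ (by linarith)).trans (by linarith)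

/-- at most `525 A³` keys of a label over one base key -/
theorem ch_mh_fib_card (s : ChSc) (hs : s.Ok) (T : ℝ) (Q : CyT) (lst : Finset ℝ) (β : ℤ × ℤ × ℤ) :
    (((chGKeys s T Q lst).filter fun k => k.bs = β).card : ℝ) ≤ 525 * s.A ^ 3 := by
  have hA := hs.A1
  obtain ⟨G, hG⟩ : ∃ G : Finset ChKey, G =
      (chGI ((Q.be - T * Q.K) / s.W2 - (s.A + 1)) ((Q.be - T * Q.K) / s.W2 + (s.A + 1))).biUnion fun k4 =>
      (chGI (Q.K / s.W2 - (s.A + 1)) (Q.K / s.W2 + (s.A + 1))).biUnion fun k5 =>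
      (chGI (chGPc s T Q ⟨β.1, β.2.1, β.2.2, k4, k5, 0⟩ / s.W1 - (5 * s.A + 5)) (chGPc s T Q ⟨β.1, β.2.1, β.2.2, k4, k5, 0⟩ / s.W1 + (5 * s.A + 5))).image fun k6 =>
        (⟨β.1, β.2.1, β.2.2, k4, k5, k6⟩ : ChKey) := ⟨_, rfl⟩
  have hsub : ((chGKeys s T Q lst).filter fun k => k.bs = β) ⊆ G := by
    intro k hk
    rw [Finset.mem_filter] at hk
    obtain ⟨hk, hb⟩ := hk
    unfold chGKeys at hk
    rw [hG]
    simp only [Finset.mem_biUnion, Finset.mem_image] at hk ⊢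
    obtain ⟨k1, ⟨c, hc, h1⟩, k2, h2, k3, h3, k4, h4, k5, h5, k6, h6, rfl⟩ := hk
    subst hb
    exact ⟨k4, h4, k5, h5, k6, h6, rfl⟩
  refine (Nat.cast_le.mpr (Finset.card_le_card hsub)).trans ?_
  have hfin : 525 * s.A ^ 3 = (5 * s.A) * ((5 * s.A) * (21 * s.A)) := by ring
  rw [hfin, hG]
  refine ch_g_card_bi _ _ _ _ ?_ (fun k4 _ => ?_) (by positivity)
  · refine (ch_g_I_card _ _ (by linarith)).trans (by linarith)
  refine ch_g_card_bi _ _ _ _ ?_ (fun k5 _ => ?_) (by positivity)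
  · refine (ch_g_I_card _ _ (by linarith)).trans (by linarith)
  refine (Nat.cast_le.mpr Finset.card_image_le).trans ?_
  refine (ch_g_I_card _ _ (by linarith)).trans (by linarith)

/-- two base boxes of the same base ray coincide -/
theorem ch_mh_box_uniq (s : ChSc) (hs : s.Ok) (k k' : ChKey) (X B Y : ℝ) (h : chGBox s k X B Y) (h' : chGBox s k' X B Y) : k.bs = k'.bs := by
  obtain ⟨a1, a2, a3⟩ := h
  obtain ⟨b1, b2, b3⟩ := h'
  have hρ := hs.rho_pos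
  have e1 := ch_g_bin_uniq _ _ hρ _ _ a1 b1
  have e2 := ch_g_bin_uniq _ _ hρ _ _ a2 b2
  have e3 : k.k3 = k'.k3 := by
    have : k.xM s = k'.xM s := by unfold ChKey.xM; rw [e1]
    rw [this] at a3
    exact ch_g_bin_uniq _ _ (by positivity) _ _ a3 b3
  unfold ChKey.bs
  rw [e1, e2, e3]

/-! ### (G3), (G4) in absolute normal units -/

/-- the velocity shear of a key (normalised base coordinates) -/
def chMhSa (s : ChSc) (k : ChKey) (X B Y : ℝ) : ℝ := k.pt s * X + k.bt s * X ^ 2 + k.Kt s * (Y - 2 * X * B)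

/-- the position shear of a key (normalised base coordinates, starting time) -/
def chMhSb (s : ChSc) (k : ChKey) (B Y : ℝ) : ℝ := k.pt s * B + k.bt s * Y - k.Kt s * B ^ 2

theorem ch_mh_shear_eqns_cite : True := by
  have := @chMhSa.eq_1
  have := @chMhSb.eq_1
  trivial

/-- (G3) with normal coordinates `(N, D)` in absolute units, `D` = INSTANTANEOUS position at the time of the label -/
theorem ch_mh_taylor (s : ChSc) (hs : s.Ok) (T : ℝ) (hT0 : 0 ≤ T) (hT1 : T ≤ 1) (Q : CyT) (hr : Q.r = 1) (hf : Q.f = 1) (lst : Finset ℝ)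
    (k : ChKey) (hk : chGKeyP s T Q lst k) (X B Y : ℝ) (hbox : chGBox s k X B Y) (l0 f1 N D : ℝ) (h0 : 0 < l0) (hf1 : 0 < f1)
    (hin : cyIn Q s.d ⟨X, B + T * X, Y + T * X ^ 2, N / f1, D / (l0 * f1)⟩) :
    |N - f1 * chMhSa s k X B Y - f1 * chGNn s T Q k| ≤ 37 * s.A * f1 ∧
      |D - (l0 * f1 * chMhSb s k B Y + l0 * T * (f1 * chMhSa s k X B Y)) - l0 * f1 * chGCc s T Q k| ≤ l0 * s.d * (37 * s.A * f1) := by
  have e : D / (l0 * f1) - T * (N / f1) + T * (N / f1) = D / (l0 * f1) := by ring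
  obtain ⟨a1, a2⟩ := ch_g_taylor s hs T hT0 hT1 Q hr hf lst k hk X B Y (N / f1) (D / (l0 * f1) - T * (N / f1)) hbox (by rw [e]; exact hin)
  have c5 : 0 < l0 * f1 := by positivity
  constructor
  · have e1 : N - f1 * chMhSa s k X B Y - f1 * chGNn s T Q k = (chGNs s k X B Y (N / f1) - chGNn s T Q k) * f1 := by
      unfold chGNs chMhSa
      field_simp
    rw [e1, abs_mul, abs_of_pos hf1]
    exact mul_le_mul_of_nonneg_right a1 hf1.le
  · have e2 : D - (l0 * f1 * chMhSb s k B Y + l0 * T * (f1 * chMhSa s k X B Y)) - l0 * f1 * chGCc s T Q k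
        = (chGDs s k B Y (D / (l0 * f1) - T * (N / f1)) + T * chGNs s k X B Y (N / f1) - chGCc s T Q k) * (l0 * f1) := by
      unfold chGNs chGDs chMhSa chMhSb
      field_simp
      ring
    rw [e2, abs_mul, abs_of_pos c5]
    refine (mul_le_mul_of_nonneg_right a2 c5.le).trans (le_of_eq ?_)
    ring

/-- (G4) in absolute units: base box of the key x sheared scalar box lies in ONE cylinder test at the starting time -/
theorem ch_mh_reg (s : ChSc) (hs : s.Ok) (k : ChKey) (l0 r1 f1 : ℝ) (h0 : 0 < l0) (hr : 0 < r1) (hf1 : 0 < f1) (z : Cy5) (nn cc f : ℝ)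
    (hbox : chGBox s k (z.X / r1) (z.B / (l0 * r1)) (z.Y / (l0 * r1 ^ 2)))
    (h1 : |z.N - f1 * chMhSa s k (z.X / r1) (z.B / (l0 * r1)) (z.Y / (l0 * r1 ^ 2)) - nn| ≤ f)
    (h2 : |z.D - l0 * f1 * chMhSb s k (z.B / (l0 * r1)) (z.Y / (l0 * r1 ^ 2)) - cc| ≤ l0 * f) :
    cyIn (chMhDen l0 r1 f1 (chGTest s k (nn / f1) (cc / (l0 * f1)) (f / f1))) l0 z := by
  have c5 : 0 < l0 * f1 := by positivity
  have key := ch_mh_cov_den l0 r1 f1 1 h0 hr hf1 (chGTest s k (nn / f1) (cc / (l0 * f1)) (f / f1)) z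
  rw [mul_one] at key
  rw [key]
  have a1 : |chGNs s k (z.X / r1) (z.B / (l0 * r1)) (z.Y / (l0 * r1 ^ 2)) (z.N / f1) - nn / f1| ≤ f / f1 := by
    have e1 : chGNs s k (z.X / r1) (z.B / (l0 * r1)) (z.Y / (l0 * r1 ^ 2)) (z.N / f1) - nn / f1
        = (z.N - f1 * chMhSa s k (z.X / r1) (z.B / (l0 * r1)) (z.Y / (l0 * r1 ^ 2)) - nn) / f1 := by
      unfold chGNs chMhSa
      field_simp
    rw [e1, ch_mh_abs_div _ _ _ hf1]
    exact h1
  have a2 : |chGDs s k (z.B / (l0 * r1)) (z.Y / (l0 * r1 ^ 2)) (z.D / (l0 * f1)) - cc / (l0 * f1)| ≤ f / f1 := by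
    have e2 : chGDs s k (z.B / (l0 * r1)) (z.Y / (l0 * r1 ^ 2)) (z.D / (l0 * f1)) - cc / (l0 * f1)
        = (z.D - l0 * f1 * chMhSb s k (z.B / (l0 * r1)) (z.Y / (l0 * r1 ^ 2)) - cc) / (l0 * f1) := by
      unfold chGDs chMhSb
      field_simp
    have e3 : f / f1 = (l0 * f) / (l0 * f1) := by field_simp
    rw [e2, e3, ch_mh_abs_div _ _ _ c5]
    exact h2
  have := ch_g_reg s hs k _ _ _ _ _ _ _ _ hbox a1 a2
  simp only [zero_mul, add_zero] at this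
  exact this

end Claimed.Agent.R256
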