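-- KEEP
import Claimed.Agent.R256.Chan.MhUnit
import Claimed.Agent.R256.Chan.MhFib
import Claimed.Agent.R256.Chan.MhAsm

/-!
# Row 256 (LS paper), CHAN, unit MH (post BP-256-CHAN-MH), file 4 : the record of `ch_mem_hyb`          (architect helper86; prefix `ch_mh_`)      DEFINITIONS ONLY

ALL data of `ch_mem_hyb` (`Chan/Contract.lean`) are bundled in ONE record `X : ChMh`, all hypotheses in ONE Prop `X.Ok`.   Every leaf `L-256-CHAN-MH*` is a statement about `(X, h : X.Ok)`.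
Units of the segment: `T0 = tmL k0 i0`, `l0 = 2^-k0`, `(r1, f1)`, `δ = E.s = 2^-n`;  `Tl l` = time of the label `l`, `τ l = (Tl l - T0)/l0 ∈ [0,1]`.
* `X.sc`                 the scales `(δ, δ^Lm, δ^(1-Lm), δ^-Qx, A)` of `Chan/MemGeo.lean`
* `X.Xh, X.Bh, X.Yh`     normalised base coordinates at the time `T0` (functions of the EXACT INDEX `ω`);   `X.beh, X.Kh, X.Ph` normalised start data (functions of a START ROW)
* `X.Qh l`, `X.lh l`     normalised end test and list;   `X.keys l`, `X.bss l` keys and base keys of a label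
* `X.cell k`             the start rows with key `k`;   `X.box β` the exact indices in the base box `β`;   `X.ft l` the exact indices in the base footprint of `Q l` and in a listed angle cell
* `X.θ l = th l 1_hit`;  `X.M0` the start gate;   `X.w M = tz(T0, k0) M v`;   `X.wk k = X.w (M0 1_cell(k))`
* `X.rd l θ' u = en θ' (run rest u)` at the cut of the label `l`;   `X.ml l`, `X.mb l β`, `X.mq l k` the masses of a label: total, over a base box, from one key.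
-/

set_option autoImplicit false

namespace Claimed.Agent.R256

open MeasureTheory

/-- **all data of `ch_mem_hyb`** (no proofs) -/
structure ChMh where
  η : ℝ
  p : ChyPar
  E : Xp (p.sys η)
  σ0 : Stg (p.sys η)
  rest : List (Stg (p.sys η))
  K : ℕ
  r1 : ℝ
  f1 : ℝ
  A : ℝ
  Lm : ℝ
  Qx : ℝ
  Rn : ℝ
  ν : ℝ
  be0 : p.Om × ℝ × ℝ → ℝ
  K0 : p.Om × ℝ × ℝ → ℝ
  P0 : p.Om × ℝ × ℝ → ℝ
  Q : Fin E.L → CyT
  lst : Fin E.L → Finset ℝ

namespace ChMh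

variable (X : ChMh)

/-- **the hypotheses of `ch_mem_hyb`** -/
structure Ok : Prop where
  η0 : 0 < X.η
  η1 : X.η < 1
  hp : X.p.Ok
  hE : X.E.Valid
  hst : X.E.st = X.σ0 :: X.rest
  hk : X.σ0.k = X.E.k0
  hK : X.rest.length ≤ X.K
  hr1 : 0 < X.r1
  hf1 : X.p.dl X.E.kf ≤ X.f1
  A1 : 1 ≤ X.A
  L1 : 1 ≤ X.Lm
  ML : 1 + X.Qx ≤ 2 * X.Lm
  ν0 : 0 ≤ X.ν
  mbe : Measurable X.be0
  mK : Measurable X.K0
  mP : Measurable X.P0
  hin : ∀ l x, X.E.th l x ≠ 0 → cyIn (X.Q l) ((2 : ℝ)⁻¹ ^ X.E.kf) (X.p.co (tmL X.E.kf (X.E.iv l)) x)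
  wid : ∀ l, (X.Q l).r = X.r1 ∧ (X.Q l).f = X.f1
  card : ∀ l, ((X.lst l).card : ℝ) ≤ X.Rn
  chν : ∀ (l : Fin X.E.L) (S' : Set (X.p.Om × ℝ × ℝ)), MeasurableSet S' →
    (∀ x ∈ S', ¬ chNear X.A X.Lm X.Qx X.E.s ((2 : ℝ)⁻¹ ^ X.E.k0) X.r1 X.f1 (tmL X.E.kf (X.E.iv l) - tmL X.E.k0 X.E.i0) (X.be0 x) (X.K0 x) (X.P0 x)
      (X.p.X x.1) (X.p.B x.1 + tmL X.E.kf (X.E.iv l) * X.p.X x.1) (X.Q l)) →
    (X.p.sys X.η).en (tmL X.E.kf (X.E.iv l)) X.E.kf X.E.bT (X.E.th l)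
      (Xp.run X.E.kf (X.E.iv l) X.rest ((X.p.sys X.η).tz (tmL X.E.k0 X.E.i0) X.E.k0 X.σ0.b
        (fun x => X.σ0.M X.E.i0 x * S'.indicator (fun _ => (1 : ℝ)) x) X.E.v)) ≤ X.ν

/-- starting time -/
noncomputable def T0 : ℝ := tmL X.E.k0 X.E.i0
/-- starting length -/
noncomputable def l0 : ℝ := (2 : ℝ)⁻¹ ^ X.E.k0
/-- the time of a label -/
noncomputable def Tl (l : Fin X.E.L) : ℝ := tmL X.E.kf (X.E.iv l)
/-- the normalised time of a label -/
noncomputable def τ (l : Fin X.E.L) : ℝ := (X.Tl l - X.T0) / X.l0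
/-- the scales -/
noncomputable def sc : ChSc := ⟨X.E.s, X.E.s ^ X.Lm, X.E.s ^ (1 - X.Lm), X.E.s ^ (-X.Qx), X.A⟩
/-- normalised base coordinates at the starting time -/
noncomputable def Xh (ω : X.p.Om) : ℝ := X.p.X ω / X.r1
noncomputable def Bh (ω : X.p.Om) : ℝ := (X.p.B ω + X.T0 * X.p.X ω) / (X.l0 * X.r1)
noncomputable def Yh (ω : X.p.Om) : ℝ := (X.p.Y ω + X.T0 * X.p.X ω ^ 2) / (X.l0 * X.r1 ^ 2)
/-- normalised start data -/
noncomputable def beh (x : X.p.Om × ℝ × ℝ) : ℝ := X.be0 x * (X.r1 ^ 2 / X.f1)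
noncomputable def Kh (x : X.p.Om × ℝ × ℝ) : ℝ := X.K0 x * (X.l0 * X.r1 ^ 2 / X.f1)
noncomputable def Ph (x : X.p.Om × ℝ × ℝ) : ℝ := X.P0 x * (X.r1 / X.f1)
/-- normalised end tests and lists -/
noncomputable def Qh (l : Fin X.E.L) : CyT := chMhNrm X.l0 X.r1 X.f1 (X.Q l)
noncomputable def lh (l : Fin X.E.L) : Finset ℝ := (X.lst l).image fun c => c / X.r1
/-- keys and base keys of a label -/
noncomputable def keys (l : Fin X.E.L) : Finset ChKey := chGKeys X.sc (X.τ l) (X.Qh l) (X.lh l)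
noncomputable def bss (l : Fin X.E.L) : Finset (ℤ × ℤ × ℤ) := chMhBs X.sc (X.τ l) (X.Qh l) (X.lh l)
/-- the start rows with the key `k` -/
def cell (k : ChKey) : Set (X.p.Om × ℝ × ℝ) := {x | chGCell X.sc k (X.Xh x.1) (X.Bh x.1) (X.Yh x.1) (X.beh x) (X.Kh x) (X.Ph x)}
/-- the exact indices in a base box -/
def box (β : ℤ × ℤ × ℤ) : Set X.p.Om := {ω | chGBox X.sc (chMhKb β) (X.Xh ω) (X.Bh ω) (X.Yh ω)}
/-- the exact indices in the base footprint of a label and in one of its listed angle cells -/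
def ft (l : Fin X.E.L) : Set X.p.Om :=
  {ω | (∃ c ∈ X.lst l, |X.p.X ω - c| ≤ X.r1 * X.E.s ^ X.Lm) ∧
    chMhFt (X.Q l) ((2 : ℝ)⁻¹ ^ X.E.kf) (X.p.X ω) (X.p.B ω + X.Tl l * X.p.X ω) (X.p.Y ω + X.Tl l * X.p.X ω ^ 2)}
/-- the weight of a label restricted to its listed angle cells -/
noncomputable def θ (l : Fin X.E.L) : X.p.Om × ℝ × ℝ → ℝ :=
  fun x => X.E.th l x * ({x : X.p.Om × ℝ × ℝ | ∃ c ∈ X.lst l, |X.p.X x.1 - c| ≤ X.r1 * X.E.s ^ X.Lm}).indicator (fun _ => (1 : ℝ)) x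
/-- the start gate -/
def M0 : X.p.Om × ℝ × ℝ → ℝ := X.σ0.M X.E.i0
/-- the root state through a start mask -/
noncomputable def w (M : X.p.Om × ℝ × ℝ → ℝ) : (X.p.sys X.η).Kc := (X.p.sys X.η).tz X.T0 X.E.k0 X.σ0.b M X.E.v
/-- the part of the start gate with the key `k` -/
noncomputable def wk (k : ChKey) : (X.p.sys X.η).Kc := X.w fun x => X.M0 x * (X.cell k).indicator (fun _ => (1 : ℝ)) x
/-- reading at the cut of a label -/
noncomputable def rd (l : Fin X.E.L) (θ' : X.p.Om × ℝ × ℝ → ℝ) (u : (X.p.sys X.η).Kc) : ℝ :=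
  (X.p.sys X.η).en (X.Tl l) X.E.kf X.E.bT θ' (Xp.run X.E.kf (X.E.iv l) X.rest u)
/-- the mass of a label in its listed cells -/
noncomputable def ml (l : Fin X.E.L) : ℝ := X.rd l (X.θ l) (X.w X.M0)
/-- the same over one base box -/
noncomputable def mb (l : Fin X.E.L) (β : ℤ × ℤ × ℤ) : ℝ := X.rd l (fun x => X.θ l x * (X.box β).indicator (fun _ => (1 : ℝ)) x.1) (X.w X.M0)
/-- the same from one key -/
noncomputable def mq (l : Fin X.E.L) (k : ChKey) : ℝ := X.rd l (X.θ l) (X.wk k)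

end ChMh

theorem ch_mh_defs_eqns_cite : True := by
  have := @ChMh.T0.eq_1; have := @ChMh.l0.eq_1; have := @ChMh.Tl.eq_1; have := @ChMh.τ.eq_1; have := @ChMh.sc.eq_1
  have := @ChMh.Xh.eq_1; have := @ChMh.Bh.eq_1; have := @ChMh.Yh.eq_1; have := @ChMh.beh.eq_1; have := @ChMh.Kh.eq_1; have := @ChMh.Ph.eq_1
  have := @ChMh.Qh.eq_1; have := @ChMh.lh.eq_1; have := @ChMh.keys.eq_1; have := @ChMh.bss.eq_1; have := @ChMh.cell.eq_1; have := @ChMh.box.eq_1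
  have := @ChMh.ft.eq_1; have := @ChMh.θ.eq_1; have := @ChMh.M0.eq_1; have := @ChMh.w.eq_1; have := @ChMh.wk.eq_1; have := @ChMh.rd.eq_1
  have := @ChMh.ml.eq_1; have := @ChMh.mb.eq_1; have := @ChMh.mq.eq_1
  trivial

end Claimed.Agent.R256
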