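-- KEEP
import Claimed.Agent.R256.Chan.MhDefs

/-!
# Row 256 (LS paper), CHAN, unit MH (post BP-256-CHAN-MH), file 5 : BASE API of the record `X : ChMh`          (architect helper86; prefix `ch_mh_`)

Scales, times, masks, measurability, geometry of cells / boxes / footprints.   Vocabulary: `Chan/MhDefs.lean`; pure arithmetic: `Chan/MhUnit.lean`, `Chan/MemGeo.lean`.
-/

set_option autoImplicit false

namespace Claimed.Agent.R256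

open MeasureTheory

variable {X : ChMh}

theorem ch_mh_pos (h : X.Ok) : 0 < X.l0 ∧ 0 < X.f1 ∧ 0 < X.E.s ∧ X.E.s ≤ 1 ∧ X.sc.Ok ∧ (2 : ℝ)⁻¹ ^ X.E.kf = X.l0 * X.E.s ∧ 0 < X.p.dl X.E.kf := by
  have hd : 0 < X.p.dl X.E.kf := by
    unfold ChyPar.dl
    have := h.hp.H_pos
    positivity
  refine ⟨by unfold ChMh.l0; positivity, lt_of_lt_of_le hd h.hf1, gn_s_pos _, gn_s_le_one _, ?_, ?_, hd⟩
  · exact ch_mh_sc_ok _ _ _ _ (gn_s_pos _) (gn_s_le_one _) h.A1 h.L1 h.ML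
  · unfold ChMh.l0 Xp.s Xp.kf
    rw [pow_add]

theorem ch_mh_tau (h : X.Ok) (l : Fin X.E.L) : 0 ≤ X.τ l ∧ X.τ l ≤ 1 ∧ X.Tl l = X.T0 + X.l0 * X.τ l := by
  have h0 := (ch_mh_pos h).1
  have hc := gn_cutle_anc (show X.E.k0 ≤ X.E.kf from Nat.le_add_right _ _) (X.E.iv l)
  rw [h.hE.iv_in l] at hc
  obtain ⟨-, c1, c2⟩ := hc
  have c1' : X.T0 ≤ X.Tl l := c1
  have c2' : X.Tl l ≤ X.T0 + X.l0 := c2
  unfold ChMh.τ
  refine ⟨div_nonneg (by linarith) h0.le, ?_, ?_⟩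
  · rw [div_le_one h0]; linarith
  · field_simp
    ring

theorem ch_mh_qh_wid (h : X.Ok) (l : Fin X.E.L) : (X.Qh l).r = 1 ∧ (X.Qh l).f = 1 := by
  have hf := (ch_mh_pos h).2.1
  have hr := h.hr1
  obtain ⟨w1, w2⟩ := h.wid l
  constructor
  · show (X.Q l).r / X.r1 = 1
    rw [w1, div_self hr.ne']
  · show (X.Q l).f / X.f1 = 1
    rw [w2, div_self hf.ne']

theorem ch_mh_tight (h : X.Ok) : (X.p.sys X.η).Tight := hy_tight _ _ h.hp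

theorem ch_mh_M0 (h : X.Ok) : IsMask X.M0 := by
  have hm : X.σ0 ∈ X.E.st := by rw [h.hst]; exact List.mem_cons_self
  exact ⟨h.hE.st_meas _ hm _, h.hE.st_bd _ hm _⟩

theorem ch_mh_rest (h : X.Ok) : ∀ σ ∈ X.rest, ∀ j, IsMask (σ.M j) := by
  intro σ hσ j
  have hm : σ ∈ X.E.st := by rw [h.hst]; exact List.mem_cons_of_mem _ hσ
  exact ⟨h.hE.st_meas _ hm _, h.hE.st_bd _ hm _⟩

theorem ch_mh_hit_meas (h : X.Ok) (l : Fin X.E.L) : MeasurableSet {ω : X.p.Om | ∃ c ∈ X.lst l, |X.p.X ω - c| ≤ X.r1 * X.E.s ^ X.Lm} := by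
  have hX := h.hp.mX
  have : {ω : X.p.Om | ∃ c ∈ X.lst l, |X.p.X ω - c| ≤ X.r1 * X.E.s ^ X.Lm} = ⋃ c ∈ X.lst l, {ω : X.p.Om | |X.p.X ω - c| ≤ X.r1 * X.E.s ^ X.Lm} := by
    ext ω
    simp
  rw [this]
  refine Finset.measurableSet_biUnion _ fun c _ => ?_
  exact measurableSet_le (by fun_prop) measurable_const

theorem ch_mh_theta (h : X.Ok) (l : Fin X.E.L) : IsMask (X.θ l) ∧ ∀ x, X.θ l x ≤ X.E.th l x := by
  have hth := gn_th_mask X.E h.hE l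
  have hS : MeasurableSet {x : X.p.Om × ℝ × ℝ | ∃ c ∈ X.lst l, |X.p.X x.1 - c| ≤ X.r1 * X.E.s ^ X.Lm} := measurable_fst (ch_mh_hit_meas h l)
  refine ⟨gn_mask_mul hth (gn_mask_ind hS), fun x => ?_⟩
  have h1 := ((gn_mask_ind hS).2 x).2
  have h2 := (hth.2 x).1
  unfold ChMh.θ
  nlinarith

theorem ch_mh_ind_mask (X : ChMh) {S : Set X.p.Om} (hS : MeasurableSet S) : IsMask (fun x : X.p.Om × ℝ × ℝ => S.indicator (fun _ => (1 : ℝ)) x.1) := by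
  have : (fun x : X.p.Om × ℝ × ℝ => S.indicator (fun _ => (1 : ℝ)) x.1) = (Prod.fst ⁻¹' S).indicator fun _ => (1 : ℝ) := by
    funext x
    rfl
  rw [this]
  exact gn_mask_ind (measurable_fst hS)

theorem ch_mh_coord_meas (h : X.Ok) : Measurable X.Xh ∧ Measurable X.Bh ∧ Measurable X.Yh ∧ Measurable X.beh ∧ Measurable X.Kh ∧ Measurable X.Ph := by
  have hX := h.hp.mX
  have hB := h.hp.mB
  have hY := h.hp.mY
  have h1 := h.mbe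
  have h2 := h.mK
  have h3 := h.mP
  refine ⟨?_, ?_, ?_, ?_, ?_, ?_⟩
  · unfold ChMh.Xh; fun_prop
  · unfold ChMh.Bh; fun_prop
  · unfold ChMh.Yh; fun_prop
  · unfold ChMh.beh; fun_prop
  · unfold ChMh.Kh; fun_prop
  · unfold ChMh.Ph; fun_prop

theorem ch_mh_bin_meas {Ω : Type} [MeasurableSpace Ω] (w : ℝ) (g : Ω → ℝ) (hg : Measurable g) (k : ℤ) : MeasurableSet {x | chGBin w (g x) k} := by
  unfold chGBin
  exact (measurableSet_le measurable_const hg).inter (measurableSet_lt hg measurable_const)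

theorem ch_mh_box_meas (h : X.Ok) (β : ℤ × ℤ × ℤ) : MeasurableSet (X.box β) := by
  obtain ⟨m1, m2, m3, -, -, -⟩ := ch_mh_coord_meas h
  unfold ChMh.box chGBox
  refine (ch_mh_bin_meas _ _ m1 _).inter ((ch_mh_bin_meas _ _ m2 _).inter (ch_mh_bin_meas _ _ ?_ _))
  fun_prop

theorem ch_mh_cell_meas (h : X.Ok) (k : ChKey) : MeasurableSet (X.cell k) := by
  obtain ⟨m1, m2, m3, m4, m5, m6⟩ := ch_mh_coord_meas h
  have hb : MeasurableSet {x : X.p.Om × ℝ × ℝ | chGBox X.sc k (X.Xh x.1) (X.Bh x.1) (X.Yh x.1)} := measurable_fst (ch_mh_box_meas h k.bs)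
  unfold ChMh.cell chGCell
  refine hb.inter ((ch_mh_bin_meas _ _ m4 _).inter ((ch_mh_bin_meas _ _ m5 _).inter (ch_mh_bin_meas _ _ ?_ _)))
  fun_prop

theorem ch_mh_ft_meas (h : X.Ok) (l : Fin X.E.L) : MeasurableSet (X.ft l) := by
  have hX := h.hp.mX
  have hB := h.hp.mB
  have hY := h.hp.mY
  have a1 : MeasurableSet {ω : X.p.Om | |X.p.X ω - (X.Q l).x| ≤ (X.Q l).r} := measurableSet_le (by fun_prop) measurable_const
  have a2 : MeasurableSet {ω : X.p.Om | |X.p.B ω + X.Tl l * X.p.X ω - (X.Q l).b| ≤ (2 : ℝ)⁻¹ ^ X.E.kf * (X.Q l).r} := measurableSet_le (by fun_prop) measurable_const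
  have a3 : MeasurableSet {ω : X.p.Om | |X.p.Y ω + X.Tl l * X.p.X ω ^ 2 - (X.Q l).y - 2 * (X.Q l).x * (X.p.B ω + X.Tl l * X.p.X ω - (X.Q l).b)| ≤ (2 : ℝ)⁻¹ ^ X.E.kf * (X.Q l).r ^ 2} :=
    measurableSet_le (by fun_prop) measurable_const
  exact (ch_mh_hit_meas h l).inter (a1.inter (a2.inter a3))

theorem ch_mh_cell_disj (h : X.Ok) (k k' : ChKey) (hk : k ≠ k') : Disjoint (X.cell k) (X.cell k') := by
  rw [Set.disjoint_left]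
  intro x h1 h2
  exact hk (ch_g_cell_uniq X.sc (ch_mh_pos h).2.2.2.2.1 k k' _ _ _ _ _ _ h1 h2)

theorem ch_mh_cell_box (k : ChKey) {x : X.p.Om × ℝ × ℝ} (hx : x ∈ X.cell k) : x.1 ∈ X.box k.bs := hx.1

theorem ch_mh_box_disj (h : X.Ok) {β β' : ℤ × ℤ × ℤ} {ω : X.p.Om} (h1 : ω ∈ X.box β) (h2 : ω ∈ X.box β') : β = β' :=
  ch_mh_box_uniq X.sc (ch_mh_pos h).2.2.2.2.1 (chMhKb β) (chMhKb β') _ _ _ h1 h2

/-- the instantaneous coordinates at the time of a label in the units of the segment -/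
theorem ch_mh_nz (h : X.Ok) (l : Fin X.E.L) (ω : X.p.Om) (N D : ℝ) :
    chMhNz X.l0 X.r1 X.f1 ⟨X.p.X ω, X.p.B ω + X.Tl l * X.p.X ω, X.p.Y ω + X.Tl l * X.p.X ω ^ 2, N, D⟩
      = ⟨X.Xh ω, X.Bh ω + X.τ l * X.Xh ω, X.Yh ω + X.τ l * X.Xh ω ^ 2, N / X.f1, D / (X.l0 * X.f1)⟩ := by
  have h0 := (ch_mh_pos h).1
  have hr := h.hr1
  unfold chMhNz ChMh.Xh ChMh.Bh ChMh.Yh ChMh.τ
  simp only [Cy5.mk.injEq, true_and, and_true]
  constructor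
  · field_simp
    ring
  · field_simp
    ring

/-- the five inequalities of a label in the units of the segment -/
theorem ch_mh_in_nrm (h : X.Ok) (l : Fin X.E.L) (x : X.p.Om × ℝ × ℝ) :
    cyIn (X.Q l) ((2 : ℝ)⁻¹ ^ X.E.kf) (X.p.co (X.Tl l) x) ↔
      cyIn (X.Qh l) X.E.s ⟨X.Xh x.1, X.Bh x.1 + X.τ l * X.Xh x.1, X.Yh x.1 + X.τ l * X.Xh x.1 ^ 2, x.2.2 / X.f1, x.2.1 / (X.l0 * X.f1)⟩ := by
  obtain ⟨h0, hf, -, -, -, hl, -⟩ := ch_mh_pos h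
  rw [hl, ← ch_mh_cov X.l0 X.r1 X.f1 X.E.s h0 h.hr1 hf, ← ch_mh_nz h l x.1 x.2.2 x.2.1]
  rfl

theorem ch_mh_theta_ft (h : X.Ok) (l : Fin X.E.L) {x : X.p.Om × ℝ × ℝ} (hx : X.θ l x ≠ 0) :
    x.1 ∈ X.ft l ∧ cyIn (X.Q l) ((2 : ℝ)⁻¹ ^ X.E.kf) (X.p.co (X.Tl l) x) := by
  have h1 : X.E.th l x ≠ 0 := left_ne_zero_of_mul hx
  have h2 : ({x : X.p.Om × ℝ × ℝ | ∃ c ∈ X.lst l, |X.p.X x.1 - c| ≤ X.r1 * X.E.s ^ X.Lm}).indicator (fun _ => (1 : ℝ)) x ≠ 0 := right_ne_zero_of_mul hx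
  have h3 : x ∈ {x : X.p.Om × ℝ × ℝ | ∃ c ∈ X.lst l, |X.p.X x.1 - c| ≤ X.r1 * X.E.s ^ X.Lm} := Set.mem_of_indicator_ne_zero h2
  have h4 := h.hin l x h1
  exact ⟨⟨h3, ch_mh_ft_of_in h4⟩, h4⟩

theorem ch_mh_ft_nrm (h : X.Ok) (l : Fin X.E.L) {ω : X.p.Om} (hω : ω ∈ X.ft l) :
    chMhFt (X.Qh l) X.sc.d (X.Xh ω) (X.Bh ω + X.τ l * X.Xh ω) (X.Yh ω + X.τ l * X.Xh ω ^ 2) ∧ ∃ c ∈ X.lh l, |X.Xh ω - c| ≤ X.sc.rho := by
  obtain ⟨h0, hf, -, -, -, hl, -⟩ := ch_mh_pos h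
  obtain ⟨⟨c, hc, hc'⟩, hft⟩ := hω
  constructor
  · obtain ⟨N, D, hin⟩ := ch_mh_in_of_ft (by positivity) (by rw [(h.wid l).2]; exact hf.le) hft
    rw [hl, ← ch_mh_cov X.l0 X.r1 X.f1 X.E.s h0 h.hr1 hf, ch_mh_nz h l ω N D] at hin
    exact ch_mh_ft_of_in hin
  · refine ⟨c / X.r1, Finset.mem_image_of_mem _ hc, ?_⟩
    show |X.p.X ω / X.r1 - c / X.r1| ≤ X.E.s ^ X.Lm
    rw [← sub_div, abs_div, abs_of_pos h.hr1, div_le_iff₀ h.hr1]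
    linarith

theorem ch_mh_ft_box (h : X.Ok) (l : Fin X.E.L) {ω : X.p.Om} (hω : ω ∈ X.ft l) : ∃ k ∈ X.keys l, ω ∈ X.box k.bs := by
  have hs := (ch_mh_pos h).2.2.2.2.1
  obtain ⟨t0, t1, -⟩ := ch_mh_tau h l
  obtain ⟨w1, w2⟩ := ch_mh_qh_wid h l
  obtain ⟨a, b⟩ := ch_mh_ft_nrm h l hω
  obtain ⟨k, hk, hb⟩ := ch_mh_cover_box X.sc hs (X.τ l) t0 t1 (X.Qh l) w1 w2 (X.lh l) _ _ _ a b
  exact ⟨k, (ch_g_keys_mem X.sc hs _ _ _ k).mpr hk, hb⟩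

/-- a start row over the footprint of a label which is comparable with the label lies in the cell of a key of the label -/
theorem ch_mh_near_cell (h : X.Ok) (l : Fin X.E.L) {x : X.p.Om × ℝ × ℝ} (hx : x.1 ∈ X.ft l)
    (hn : chNear X.A X.Lm X.Qx X.E.s ((2 : ℝ)⁻¹ ^ X.E.k0) X.r1 X.f1 (tmL X.E.kf (X.E.iv l) - tmL X.E.k0 X.E.i0) (X.be0 x) (X.K0 x) (X.P0 x)
      (X.p.X x.1) (X.p.B x.1 + tmL X.E.kf (X.E.iv l) * X.p.X x.1) (X.Q l)) : ∃ k ∈ X.keys l, x ∈ X.cell k := by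
  obtain ⟨h0, hf, -, -, hs, hl, -⟩ := ch_mh_pos h
  obtain ⟨t0, t1, t2⟩ := ch_mh_tau h l
  obtain ⟨w1, w2⟩ := ch_mh_qh_wid h l
  obtain ⟨a, b⟩ := ch_mh_ft_nrm h l hx
  have e1 : tmL X.E.kf (X.E.iv l) - tmL X.E.k0 X.E.i0 = X.l0 * X.τ l := by
    have : X.Tl l - X.T0 = X.l0 * X.τ l := by linarith
    exact this
  rw [e1] at hn
  obtain ⟨n1, n2, n3⟩ := ch_mh_near _ _ _ _ X.l0 _ _ _ _ _ _ _ _ h0 h.hr1 hf _ hn
  have e2 : (X.p.B x.1 + tmL X.E.kf (X.E.iv l) * X.p.X x.1) / (X.l0 * X.r1) = X.Bh x.1 + X.τ l * X.Xh x.1 := by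
    have := ch_mh_nz h l x.1 0 0
    unfold chMhNz at this
    simp only [Cy5.mk.injEq] at this
    exact this.2.1
  rw [e2] at n3
  simp only [one_pow, div_one, mul_one, one_mul] at n1 n2 n3
  obtain ⟨k, hk, hc⟩ := ch_mh_cover X.sc hs (X.τ l) t0 t1 (X.Qh l) w1 w2 (X.lh l) (X.Xh x.1) (X.Bh x.1) (X.Yh x.1) (X.beh x) (X.Kh x) (X.Ph x) a n1 n2 n3 b
  exact ⟨k, (ch_g_keys_mem X.sc hs _ _ _ k).mpr hk, hc⟩

/-! ### the final state -/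

theorem ch_mh_fin (h : X.Ok) (l : Fin X.E.L) : X.E.fin (X.E.iv l) = Xp.run X.E.kf (X.E.iv l) X.rest (X.w X.M0) := by
  unfold Xp.fin ChMh.w ChMh.M0 ChMh.T0
  rw [h.hst]
  simp only [Xp.run]
  rw [h.hk, h.hE.iv_in l]

end Claimed.Agent.R256
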