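-- KEEP
import Claimed.Agent.R256.Chan.MhBase

/-!
# Row 256 (LS paper), CHAN, unit MH (post BP-256-CHAN-MH), file 6 : the decomposition of the start gate          (architect helper86; prefix `ch_mh_`)

* `ch_mh_rd_comm`   events of the exact index pass from the start mask to the terminal weight
* `ch_mh_H1`        `ml l = Σ_{β ∈ bss l} mb l β`                                        (the base boxes are disjoint events of the exact index; `θ l` lives over the boxes of `bss l`)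
* `ch_mh_H2`        `√(mb l β) ≤ Σ_{k ∈ keys l, k.bs = β} √(mq l k) + √ν`                (`M0 1_{box β ∩ ft l} = Σ_k M0 1_cell(k) 1_{ft l} + M0 1_S'`, `S'` is not comparable with `l`: `(CHν)`)
* `ch_mh_H6`        `Σ_{k ∈ U} ‖wk k‖² ≤ e`                                              (disjoint cells)
-/

set_option autoImplicit false

namespace Claimed.Agent.R256

open MeasureTheory

variable {X : ChMh}

theorem ch_mh_rd_comm (h : X.Ok) (l : Fin X.E.L) (θ' M : X.p.Om × ℝ × ℝ → ℝ) (hM : IsMask M) (S : Set X.p.Om) (hS : MeasurableSet S) :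
    X.rd l θ' (X.w fun x => M x * S.indicator (fun _ => (1 : ℝ)) x.1) = X.rd l (fun x => θ' x * S.indicator (fun _ => (1 : ℝ)) x.1) (X.w M) :=
  ch_mh_comm X.p h.hp X.η X.E.kf (X.E.iv l) X.rest (ch_mh_rest h) X.T0 X.E.k0 X.σ0.b X.E.bT M θ' hM S hS X.E.v

theorem ch_mh_rd_nonneg (l : Fin X.E.L) {θ' : X.p.Om × ℝ × ℝ → ℝ} (hθ : ∀ x, 0 ≤ θ' x) (u : (X.p.sys X.η).Kc) : 0 ≤ X.rd l θ' u :=
  gn_en_nonneg _ _ _ hθ _

/-- indicators of pairwise disjoint sets -/
theorem ch_mh_sum_ind {ι Ω : Type} (U : Finset ι) (S : ι → Set Ω) (hd : ∀ i j, ∀ x, x ∈ S i → x ∈ S j → i = j) (x : Ω) :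
    (∑ i ∈ U, (S i).indicator (fun _ => (1 : ℝ)) x = 1 ∧ ∃ i ∈ U, x ∈ S i) ∨ (∑ i ∈ U, (S i).indicator (fun _ => (1 : ℝ)) x = 0 ∧ ∀ i ∈ U, x ∉ S i) := by
  classical
  by_cases hx : ∃ i ∈ U, x ∈ S i
  · left
    refine ⟨?_, hx⟩
    obtain ⟨i, hi, hxi⟩ := hx
    rw [Finset.sum_eq_single i, Set.indicator_of_mem hxi]
    · intro j _ hj
      exact Set.indicator_of_notMem (fun hxj => hj (hd j i x hxj hxi)) _
    · intro hi'
      exact absurd hi hi'
  · right
    push Not at hx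
    exact ⟨Finset.sum_eq_zero fun i hi => Set.indicator_of_notMem (hx i hi) _, hx⟩

theorem ch_mh_H1 (h : X.Ok) (l : Fin X.E.L) : X.ml l = ∑ β ∈ X.bss l, X.mb l β := by
  have hθ := (ch_mh_theta h l).1
  have e : X.θ l = fun x => ∑ β ∈ X.bss l, X.θ l x * (X.box β).indicator (fun _ => (1 : ℝ)) x.1 := by
    funext x
    rw [← Finset.mul_sum]
    by_cases hx : X.θ l x = 0
    · rw [hx, zero_mul]
    · obtain ⟨k, hk, hb⟩ := ch_mh_ft_box h l (ch_mh_theta_ft h l hx).1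
      rcases ch_mh_sum_ind (X.bss l) X.box (fun β β' ω h1 h2 => ch_mh_box_disj h h1 h2) x.1 with ⟨h1, -⟩ | ⟨-, h2⟩
      · rw [h1, mul_one]
      · exact absurd hb (h2 _ (ch_mh_bs_mem _ _ _ _ k hk))
  have := gn_en_sum (P := X.p.sys X.η) (X.Tl l) X.E.kf X.E.bT (X.bss l) (fun β x => X.θ l x * (X.box β).indicator (fun _ => (1 : ℝ)) x.1)
    (fun β _ => gn_mask_mul hθ (ch_mh_ind_mask X (ch_mh_box_meas h β))) (Xp.run X.E.kf (X.E.iv l) X.rest (X.w X.M0))
  exact (congrArg (fun θ' => X.rd l θ' (X.w X.M0)) e).trans this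

theorem ch_mh_H6 (h : X.Ok) (U : Finset ChKey) : ∑ k ∈ U, ‖X.wk k‖ ^ 2 ≤ X.E.e := by
  have hT := ch_mh_tight h
  have hM0 := ch_mh_M0 h
  have hm : ∀ k, IsMask (fun x => X.M0 x * (X.cell k).indicator (fun _ => (1 : ℝ)) x) := fun k => gn_mask_mul hM0 (gn_mask_ind (ch_mh_cell_meas h k))
  have h1 : ∀ k ∈ U, ‖X.wk k‖ ^ 2 ≤ (X.p.sys X.η).en X.T0 X.E.k0 X.σ0.b (fun x => (X.M0 x * (X.cell k).indicator (fun _ => (1 : ℝ)) x) ^ 2) X.E.v :=
    fun k _ => gn_tz_normsq_le hT X.T0 X.E.k0 X.σ0.b (hm k) X.E.v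
  have hmask : IsMask (fun x : X.p.Om × ℝ × ℝ => ∑ k ∈ U, (X.M0 x * (X.cell k).indicator (fun _ => (1 : ℝ)) x) ^ 2) := by
    refine ⟨Finset.measurable_sum _ fun k _ => (gn_mask_sq (hm k)).1, fun x => ⟨Finset.sum_nonneg fun k _ => sq_nonneg _, ?_⟩⟩
    have e : ∑ k ∈ U, (X.M0 x * (X.cell k).indicator (fun _ => (1 : ℝ)) x) ^ 2 = X.M0 x ^ 2 * ∑ k ∈ U, (X.cell k).indicator (fun _ => (1 : ℝ)) x := by
      rw [Finset.mul_sum]
      refine Finset.sum_congr rfl fun k _ => ?_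
      by_cases hx : x ∈ X.cell k
      · rw [Set.indicator_of_mem hx]; ring
      · rw [Set.indicator_of_notMem hx]; ring
    show ∑ k ∈ U, (X.M0 x * (X.cell k).indicator (fun _ => (1 : ℝ)) x) ^ 2 ≤ 1
    rw [e]
    have hsq := ((gn_mask_sq hM0).2 x)
    rcases ch_mh_sum_ind U X.cell (fun k k' y h1 h2 => by
        by_contra hne
        exact Set.disjoint_left.mp (ch_mh_cell_disj h k k' hne) h1 h2) x with ⟨h1, -⟩ | ⟨h1, -⟩
    · rw [h1, mul_one]; exact hsq.2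
    · rw [h1, mul_zero]; exact zero_le_one
  refine (Finset.sum_le_sum h1).trans ?_
  rw [← gn_en_sum (P := X.p.sys X.η) X.T0 X.E.k0 X.σ0.b U (fun k x => (X.M0 x * (X.cell k).indicator (fun _ => (1 : ℝ)) x) ^ 2) (fun k _ => gn_mask_sq (hm k)) X.E.v]
  exact le_trans (gn_en_le hT _ _ _ hmask _) h.hE.budget

theorem ch_mh_H2 (h : X.Ok) (l : Fin X.E.L) (β : ℤ × ℤ × ℤ) :
    Real.sqrt (X.mb l β) ≤ ∑ k ∈ (X.keys l).filter (fun k => k.bs = β), Real.sqrt (X.mq l k) + Real.sqrt X.ν := by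
  classical
  obtain ⟨hθ, hθle⟩ := ch_mh_theta h l
  have hM0 := ch_mh_M0 h
  obtain ⟨F, hF⟩ : ∃ F : Finset ChKey, F = (X.keys l).filter (fun k => k.bs = β) := ⟨_, rfl⟩
  have hFm : ∀ k ∈ F, k ∈ X.keys l ∧ k.bs = β := fun k hk => by rw [hF] at hk; exact Finset.mem_filter.mp hk
  obtain ⟨G, hG⟩ : ∃ G : Set X.p.Om, G = X.box β ∩ X.ft l := ⟨_, rfl⟩
  have hGm : MeasurableSet G := by rw [hG]; exact (ch_mh_box_meas h β).inter (ch_mh_ft_meas h l)
  obtain ⟨S', hS'⟩ : ∃ S' : Set (X.p.Om × ℝ × ℝ), S' = {x | x.1 ∈ G ∧ ∀ k ∈ F, x ∉ X.cell k} := ⟨_, rfl⟩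
  have hS'm : MeasurableSet S' := by
    have : S' = (Prod.fst ⁻¹' G) ∩ ⋂ k ∈ F, (X.cell k)ᶜ := by
      rw [hS']; ext x; simp
    rw [this]
    exact (measurable_fst hGm).inter (Finset.measurableSet_biInter _ fun k _ => (ch_mh_cell_meas h k).compl)
  -- step 1 : the box and the footprint pass to the start gate
  have s1 : X.mb l β = X.rd l (X.θ l) (X.w fun x => X.M0 x * G.indicator (fun _ => (1 : ℝ)) x.1) := by
    rw [ch_mh_rd_comm h l _ _ hM0 G hGm]
    have e : (fun x : X.p.Om × ℝ × ℝ => X.θ l x * (X.box β).indicator (fun _ => (1 : ℝ)) x.1) = fun x => X.θ l x * G.indicator (fun _ => (1 : ℝ)) x.1 := by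
      funext x
      by_cases hx : X.θ l x = 0
      · rw [hx, zero_mul, zero_mul]
      · have hft := (ch_mh_theta_ft h l hx).1
        congr 1
        by_cases hb : x.1 ∈ X.box β
        · rw [Set.indicator_of_mem hb, Set.indicator_of_mem (show x.1 ∈ G by rw [hG]; exact ⟨hb, hft⟩)]
        · rw [Set.indicator_of_notMem hb, Set.indicator_of_notMem (show x.1 ∉ G by rw [hG]; exact fun hh => hb hh.1)]
    exact congrArg (fun θ' => X.rd l θ' (X.w X.M0)) e
  -- step 2 : the partition of the gate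
  obtain ⟨Mk, hMk⟩ : ∃ Mk : Option ChKey → X.p.Om × ℝ × ℝ → ℝ, Mk = fun o => o.elim (fun x => X.M0 x * S'.indicator (fun _ => (1 : ℝ)) x)
      (fun k x => (X.M0 x * (X.cell k).indicator (fun _ => (1 : ℝ)) x) * (X.ft l).indicator (fun _ => (1 : ℝ)) x.1) := ⟨_, rfl⟩
  have hMkm : ∀ o ∈ Finset.insertNone F, IsMask (Mk o) := by
    intro o _
    rw [hMk]
    cases o with
    | none => exact gn_mask_mul hM0 (gn_mask_ind hS'm)
    | some k => exact gn_mask_mul (gn_mask_mul hM0 (gn_mask_ind (ch_mh_cell_meas h k))) (ch_mh_ind_mask X (ch_mh_ft_meas h l))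
  have hsum : ∀ x, ∑ o ∈ Finset.insertNone F, Mk o x = X.M0 x * G.indicator (fun _ => (1 : ℝ)) x.1 := by
    intro x
    rw [Finset.sum_insertNone, hMk]
    show X.M0 x * S'.indicator (fun _ => (1 : ℝ)) x
      + ∑ k ∈ F, (X.M0 x * (X.cell k).indicator (fun _ => (1 : ℝ)) x) * (X.ft l).indicator (fun _ => (1 : ℝ)) x.1 = _
    have e : ∑ k ∈ F, (X.M0 x * (X.cell k).indicator (fun _ => (1 : ℝ)) x) * (X.ft l).indicator (fun _ => (1 : ℝ)) x.1
        = X.M0 x * (X.ft l).indicator (fun _ => (1 : ℝ)) x.1 * ∑ k ∈ F, (X.cell k).indicator (fun _ => (1 : ℝ)) x := by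
      rw [Finset.mul_sum]; exact Finset.sum_congr rfl fun k _ => by ring
    rw [e]
    rcases ch_mh_sum_ind F X.cell (fun k k' y h1 h2 => by
        by_contra hne
        exact Set.disjoint_left.mp (ch_mh_cell_disj h k k' hne) h1 h2) x with ⟨h1, k, hk, hxk⟩ | ⟨h1, h2⟩
    · have hb : x.1 ∈ X.box β := by
        have := ch_mh_cell_box k hxk
        rwa [(hFm k hk).2] at this
      have hnS : x ∉ S' := by rw [hS']; exact fun hh => hh.2 k hk hxk
      rw [h1, Set.indicator_of_notMem hnS, mul_zero, zero_add, mul_one]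
      congr 1
      by_cases hft : x.1 ∈ X.ft l
      · rw [Set.indicator_of_mem hft, Set.indicator_of_mem (show x.1 ∈ G by rw [hG]; exact ⟨hb, hft⟩)]
      · rw [Set.indicator_of_notMem hft, Set.indicator_of_notMem (show x.1 ∉ G by rw [hG]; exact fun hh => hft hh.2)]
    · rw [h1, mul_zero, add_zero]
      congr 1
      by_cases hg : x.1 ∈ G
      · rw [Set.indicator_of_mem hg, Set.indicator_of_mem (show x ∈ S' by rw [hS']; exact ⟨hg, h2⟩)]
      · rw [Set.indicator_of_notMem hg, Set.indicator_of_notMem (show x ∉ S' by rw [hS']; exact fun hh => hg hh.1)]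
  have s2 : X.w (fun x => X.M0 x * G.indicator (fun _ => (1 : ℝ)) x.1) = ∑ o ∈ Finset.insertNone F, X.w (Mk o) :=
    (ch_mh_tz_sum (P := X.p.sys X.η) X.T0 X.E.k0 X.σ0.b (Finset.insertNone F) Mk hMkm (gn_mask_mul hM0 (ch_mh_ind_mask X hGm)) hsum X.E.v).symm
  have s3 : Real.sqrt (X.mb l β) ≤ ∑ o ∈ Finset.insertNone F, Real.sqrt (X.rd l (X.θ l) (X.w (Mk o))) := by
    rw [s1, s2]
    unfold ChMh.rd
    rw [gn_run_sum _ _ _ (ch_mh_rest h)]
    exact gn_en_tri_sum _ _ _ hθ _ _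
  rw [Finset.sum_insertNone] at s3
  -- step 3 : the keys
  have s4 : ∀ k ∈ F, X.rd l (X.θ l) (X.w (Mk (some k))) = X.mq l k := by
    intro k _
    have e1 : Mk (some k) = fun x => (X.M0 x * (X.cell k).indicator (fun _ => (1 : ℝ)) x) * (X.ft l).indicator (fun _ => (1 : ℝ)) x.1 := by rw [hMk]; rfl
    rw [e1, ch_mh_rd_comm h l _ _ (gn_mask_mul hM0 (gn_mask_ind (ch_mh_cell_meas h k))) _ (ch_mh_ft_meas h l)]
    have e : (fun x : X.p.Om × ℝ × ℝ => X.θ l x * (X.ft l).indicator (fun _ => (1 : ℝ)) x.1) = X.θ l := by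
      funext x
      by_cases hx : X.θ l x = 0
      · rw [hx, zero_mul]
      · rw [Set.indicator_of_mem (ch_mh_theta_ft h l hx).1, mul_one]
    exact congrArg (fun θ' => X.rd l θ' (X.wk k)) e
  -- step 4 : the rest is not comparable with the label
  have s5 : X.rd l (X.θ l) (X.w (Mk none)) ≤ X.ν := by
    have e1 : Mk none = fun x => X.M0 x * S'.indicator (fun _ => (1 : ℝ)) x := by rw [hMk]; rfl
    rw [e1]
    refine le_trans (gn_en_mono _ _ _ hθ (gn_th_mask X.E h.hE l) hθle _) (h.chν l S' hS'm ?_)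
    intro x hx hn
    rw [hS'] at hx
    obtain ⟨hg, hno⟩ := hx
    rw [hG] at hg
    obtain ⟨k, hk, hc⟩ := ch_mh_near_cell h l hg.2 hn
    have hb : k.bs = β := ch_mh_box_disj h (ch_mh_cell_box k hc) hg.1
    exact hno k (by rw [hF]; exact Finset.mem_filter.mpr ⟨hk, hb⟩) hc
  rw [← hF]
  calc Real.sqrt (X.mb l β) ≤ Real.sqrt (X.rd l (X.θ l) (X.w (Mk none))) + ∑ k ∈ F, Real.sqrt (X.rd l (X.θ l) (X.w (Mk (some k)))) := s3
    _ ≤ Real.sqrt X.ν + ∑ k ∈ F, Real.sqrt (X.mq l k) := by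
        refine add_le_add (Real.sqrt_le_sqrt s5) (le_of_eq ?_)
        exact Finset.sum_congr rfl fun k hk => by rw [s4 k hk]
    _ = _ := add_comm _ _

end Claimed.Agent.R256
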