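-- KEEP
import Claimed.Agent.R256.Chan.MhDec

/-!
# Row 256 (LS paper), CHAN, unit MH (post BP-256-CHAN-MH), file 7 : one key          (architect helper86; prefix `ch_mh_`)

* `ChMhSc η K C`     the body of `ch_sc_hyb` with the constant `C` (a hypothesis here: this file does not import the proof of (SC))
* `X.sa k`, `X.sb k` the shear of a key (functions of the exact index)
* `ch_mh_key_reg`    (G4) the part `wk k` of the start gate has scalar regularity `16 κ (δ^Lm r1)^(3+η)` in the coordinates sheared by the key   (`hy_rp_main` = repeated cut; base box x sheared scalar box = cylinder test)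
* `ch_mh_H5`         (G3) + (SC): `Σ_{l ∋ k} (mq l k)² ≤ c0 ‖wk k‖²`
-/

set_option autoImplicit false

namespace Claimed.Agent.R256

open MeasureTheory

/-- the body of `ch_sc_hyb` (`Chan/Contract.lean`) with the constant `C` -/
def ChMhSc (η : ℝ) (K : ℕ) (C : ℝ) : Prop :=
  ∀ (p : ChyPar), p.Ok → ∀ (a b : p.Om → ℝ), Measurable a → Measurable b →
      ∀ (k0 i0 n : ℕ) (w : (p.sys η).Kc) (b0 : ℝ),
      (∀ nn cc f : ℝ, p.dl k0 ≤ f → (p.sys η).ms (tmL k0 i0) k0 0 (chBox p a b nn cc f ((2 : ℝ)⁻¹ ^ k0)) w ≤ b0 * f ^ (1 - η)) →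
      ∀ (bm : ℕ) (st : List (Stg (p.sys η))), StOk k0 (k0 + n) bm K st →
      ∀ f : ℝ, p.dl (k0 + n) ≤ f → ∀ (L : ℕ) (iv : Fin L → ℕ) (nn cc : Fin L → ℝ) (θ : Fin L → p.Om × ℝ × ℝ → ℝ),
        (∀ l, ancI (k0 + n) k0 (iv l) = i0) → (∀ l, Measurable (θ l)) → (∀ l x, 0 ≤ θ l x) →
        (∀ l x, θ l x ≠ 0 →
          x ∈ chBox p a (fun ω => b ω + (tmL (k0 + n) (iv l) - tmL k0 i0) * a ω) (nn l) (cc l) f ((2 : ℝ)⁻¹ ^ (k0 + n))) →
        (∀ i x, ∑ l, (if iv l = i then θ l x else 0) ≤ 1) →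
        ∑ l, ((p.sys η).en (tmL (k0 + n) (iv l)) (k0 + n) 0 (θ l) (Xp.run (k0 + n) (iv l) st w)) ^ 2
          ≤ C * (1 + Real.log (f / p.dl (k0 + n))) ^ (K + 1) * f ^ (1 - η) * 2 ^ (η * n) * b0 * ‖w‖ ^ 2

/-- the velocity shear of a key, absolute units -/
noncomputable def ChMh.sa (X : ChMh) (k : ChKey) (ω : X.p.Om) : ℝ := X.f1 * chMhSa X.sc k (X.Xh ω) (X.Bh ω) (X.Yh ω)
/-- the position shear of a key at the starting time, absolute units -/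
noncomputable def ChMh.sb (X : ChMh) (k : ChKey) (ω : X.p.Om) : ℝ := X.l0 * X.f1 * chMhSb X.sc k (X.Bh ω) (X.Yh ω)

theorem ch_mh_key_eqns_cite : True := by
  have := @ChMhSc.eq_1
  have := @ChMh.sa.eq_1
  have := @ChMh.sb.eq_1
  trivial

variable {X : ChMh}

theorem ch_mh_shear_meas (h : X.Ok) (k : ChKey) : Measurable (X.sa k) ∧ Measurable (X.sb k) := by
  obtain ⟨m1, m2, m3, -, -, -⟩ := ch_mh_coord_meas h
  constructor
  · unfold ChMh.sa chMhSa; fun_prop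
  · unfold ChMh.sb chMhSb; fun_prop

theorem ch_mh_chbox_meas (p : ChyPar) (a b : p.Om → ℝ) (ha : Measurable a) (hb : Measurable b) (n c f l : ℝ) : MeasurableSet (chBox p a b n c f l) := by
  have a1 : MeasurableSet {x : p.Om × ℝ × ℝ | |x.2.2 - a x.1 - n| ≤ f} := measurableSet_le (by fun_prop) measurable_const
  have a2 : MeasurableSet {x : p.Om × ℝ × ℝ | |x.2.1 - b x.1 - c| ≤ l * f} := measurableSet_le (by fun_prop) measurable_const
  exact a1.inter a2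

/-- the part of the gate with the key `k` lives over the base box of `k` -/
theorem ch_mh_wk_box (k : ChKey) :
    X.wk k = X.w fun x => (X.M0 x * (X.cell k).indicator (fun _ => (1 : ℝ)) x) * (X.box k.bs).indicator (fun _ => (1 : ℝ)) x.1 := by
  have e : (fun x : X.p.Om × ℝ × ℝ => X.M0 x * (X.cell k).indicator (fun _ => (1 : ℝ)) x)
      = fun x => (X.M0 x * (X.cell k).indicator (fun _ => (1 : ℝ)) x) * (X.box k.bs).indicator (fun _ => (1 : ℝ)) x.1 := by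
    funext x
    by_cases hx : x ∈ X.cell k
    · rw [Set.indicator_of_mem (ch_mh_cell_box k hx), mul_one]
    · rw [Set.indicator_of_notMem hx, mul_zero, zero_mul]
  exact congrArg X.w e

theorem ch_mh_dl0_pos (h : X.Ok) : 0 < X.p.dl X.E.k0 := by
  unfold ChyPar.dl
  have := h.hp.H_pos
  positivity

/-- scalar regularity of the part of the gate with the key `k` in the coordinates sheared by the key -/
theorem ch_mh_key_reg (h : X.Ok) (k : ChKey) (nn cc f : ℝ) (hf : X.p.dl X.E.k0 ≤ f) :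
    (X.p.sys X.η).ms (tmL X.E.k0 X.E.i0) X.E.k0 0 (chBox X.p (X.sa k) (X.sb k) nn cc f ((2 : ℝ)⁻¹ ^ X.E.k0)) (X.wk k)
      ≤ (16 * X.E.ka * (X.E.s ^ X.Lm * X.r1) ^ (3 + X.η)) * f ^ (1 - X.η) := by
  obtain ⟨h0, hf1, hs0, -, hs, -, -⟩ := ch_mh_pos h
  have hr := h.hr1
  have hf0 : 0 < f := lt_of_lt_of_le (ch_mh_dl0_pos h) hf
  obtain ⟨ma, mb⟩ := ch_mh_shear_meas h k
  have hM0 := ch_mh_M0 h
  have hMc : IsMask (fun x : X.p.Om × ℝ × ℝ => X.M0 x * (X.cell k).indicator (fun _ => (1 : ℝ)) x) := gn_mask_mul hM0 (gn_mask_ind (ch_mh_cell_meas h k))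
  obtain ⟨Bx, hBx⟩ : ∃ Bx : Set (X.p.Om × ℝ × ℝ), Bx = chBox X.p (X.sa k) (X.sb k) nn cc f ((2 : ℝ)⁻¹ ^ X.E.k0) := ⟨_, rfl⟩
  have hBm : MeasurableSet Bx := by rw [hBx]; exact ch_mh_chbox_meas _ _ _ ma mb _ _ _ _
  obtain ⟨Qt, hQt⟩ : ∃ Qt : CyT, Qt = chMhDen X.l0 X.r1 X.f1 (chGTest X.sc k (nn / X.f1) (cc / (X.l0 * X.f1)) (f / X.f1)) := ⟨_, rfl⟩
  have hQr : Qt.r = X.E.s ^ X.Lm * X.r1 := by rw [hQt]; rfl
  have hQf : Qt.f = f := by
    rw [hQt]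
    show f / X.f1 * X.f1 = f
    field_simp
  have hQok : 0 < Qt.r ∧ 0 < Qt.f ∧ X.p.dl X.E.k0 ≤ Qt.f := by
    rw [hQr, hQf]
    exact ⟨by positivity, hf0, hf⟩
  rw [← hBx]
  -- the box of the key is inserted
  have c1 : (X.p.sys X.η).ms (tmL X.E.k0 X.E.i0) X.E.k0 0 Bx (X.wk k)
      = (X.p.sys X.η).en (tmL X.E.k0 X.E.i0) X.E.k0 0 (fun x => Bx.indicator (fun _ => (1 : ℝ)) x * (X.box k.bs).indicator (fun _ => (1 : ℝ)) x.1) (X.wk k) := by
    have := ch_mh_comm X.p h.hp X.η X.E.k0 X.E.i0 [] (by simp) X.T0 X.E.k0 X.σ0.b 0 _ (Bx.indicator fun _ => (1 : ℝ)) hMc (X.box k.bs) (ch_mh_box_meas h k.bs) X.E.v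
    have e := ch_mh_wk_box (X := X) k
    calc (X.p.sys X.η).ms (tmL X.E.k0 X.E.i0) X.E.k0 0 Bx (X.wk k)
        = (X.p.sys X.η).ms (tmL X.E.k0 X.E.i0) X.E.k0 0 Bx (X.w fun x => (X.M0 x * (X.cell k).indicator (fun _ => (1 : ℝ)) x) * (X.box k.bs).indicator (fun _ => (1 : ℝ)) x.1) := by
          rw [← e]
      _ = _ := this
  rw [c1]
  have hcm : MeasurableSet {x : X.p.Om × ℝ × ℝ | cyIn Qt ((2 : ℝ)⁻¹ ^ X.E.k0) (X.p.co (tmL X.E.k0 X.E.i0) x)} := hy_fl_cell_meas X.p h.hp Qt _ _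
  have c2 : (X.p.sys X.η).en (tmL X.E.k0 X.E.i0) X.E.k0 0 (fun x => Bx.indicator (fun _ => (1 : ℝ)) x * (X.box k.bs).indicator (fun _ => (1 : ℝ)) x.1) (X.wk k)
      ≤ (X.p.sys X.η).ms (tmL X.E.k0 X.E.i0) X.E.k0 0 {x : X.p.Om × ℝ × ℝ | cyIn Qt ((2 : ℝ)⁻¹ ^ X.E.k0) (X.p.co (tmL X.E.k0 X.E.i0) x)} (X.wk k) := by
    refine gn_en_le_ms _ _ _ (gn_mask_mul (gn_mask_ind hBm) (ch_mh_ind_mask X (ch_mh_box_meas h k.bs))) hcm ?_ _
    intro x hx
    have x1 : x ∈ Bx := Set.mem_of_indicator_ne_zero (left_ne_zero_of_mul hx)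
    have x2 : x.1 ∈ X.box k.bs := Set.mem_of_indicator_ne_zero (right_ne_zero_of_mul hx)
    rw [hBx] at x1
    obtain ⟨b1, b2⟩ := x1
    rw [hQt]
    exact ch_mh_reg X.sc hs k X.l0 X.r1 X.f1 h0 hr hf1 (X.p.co (tmL X.E.k0 X.E.i0) x) nn cc f x2 b1 b2
  refine c2.trans ?_
  have c3 := hy_rp_main X.η X.p h.hp (tmL X.E.k0 X.E.i0) X.E.k0 0 X.E.ka
    ((X.p.sys X.η).mulR X.E.k0 (fun x => X.M0 x * (X.cell k).indicator (fun _ => (1 : ℝ)) x) (X.p.an (tmL X.E.k0 X.E.i0) X.E.k0 X.E.v)) ?_ Qt hQok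
  · have e : cyWt X.η Qt = (X.E.s ^ X.Lm * X.r1) ^ (3 + X.η) * f ^ (1 - X.η) := by
      unfold cyWt
      rw [hQr, hQf]
    rw [e] at c3
    calc _ ≤ 16 * X.E.ka * ((X.E.s ^ X.Lm * X.r1) ^ (3 + X.η) * f ^ (1 - X.η)) := c3
      _ = _ := by ring
  · intro Q hQ
    have hQm : MeasurableSet {x : X.p.Om × ℝ × ℝ | cyIn Q ((2 : ℝ)⁻¹ ^ X.E.k0) (X.p.co (tmL X.E.k0 X.E.i0) x)} := hy_fl_cell_meas X.p h.hp Q _ _
    refine (gn_mulR_setInt_le (P := X.p.sys X.η) X.E.k0 hMc hQm (X.p.an (tmL X.E.k0 X.E.i0) X.E.k0 X.E.v)).trans ?_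
    have r1 := h.hE.reg Q hQ
    rw [gn_ms_eq _ _ _ hQm] at r1
    exact r1

theorem ch_mh_gen_bd {P : PkSys} (st : List (Stg P)) : ∃ bm : ℕ, ∀ σ ∈ st, σ.b ≤ bm := by
  induction st with
  | nil => exact ⟨0, by simp⟩
  | cons σ l ih =>
    obtain ⟨bm, hb⟩ := ih
    refine ⟨max σ.b bm, fun σ' hσ' => ?_⟩
    rcases List.mem_cons.mp hσ' with rfl | h'
    · exact le_max_left _ _
    · exact (hb σ' h').trans (le_max_right _ _)

theorem ch_mh_stok (h : X.Ok) : ∃ bm : ℕ, StOk X.E.k0 (X.E.k0 + X.E.n) bm X.K X.rest := by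
  obtain ⟨bm, hb⟩ := ch_mh_gen_bd X.rest
  have hmem : ∀ σ ∈ X.rest, σ ∈ X.E.st := fun σ hσ => by rw [h.hst]; exact List.mem_cons_of_mem _ hσ
  refine ⟨bm, h.hK, fun σ hσ => h.hE.st_dep σ (hmem σ hσ), ?_, hb, ch_mh_rest h⟩
  have := h.hE.st_mono
  rw [h.hst] at this
  exact (List.pairwise_cons.mp this).2

/-- **(H5)** : the scalar channel of one key -/
theorem ch_mh_H5 (h : X.Ok) (C : ℝ) (hSC : ChMhSc X.η X.K C) (k : ChKey) :
    ∑ l, (if k ∈ X.keys l then (X.mq l k) ^ 2 else 0)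
      ≤ (C * (1 + Real.log (37 * X.A * X.f1 / X.p.dl X.E.kf)) ^ (X.K + 1) * (37 * X.A * X.f1) ^ (1 - X.η) * 2 ^ (X.η * X.E.n)
          * (16 * X.E.ka * (X.E.s ^ X.Lm * X.r1) ^ (3 + X.η))) * ‖X.wk k‖ ^ 2 := by
  classical
  obtain ⟨h0, hf1, hs0, -, hs, hl, hd⟩ := ch_mh_pos h
  obtain ⟨ma, mb⟩ := ch_mh_shear_meas h k
  obtain ⟨bm, hst⟩ := ch_mh_stok h
  have hM0 := ch_mh_M0 h
  have hMc : IsMask (fun x : X.p.Om × ℝ × ℝ => X.M0 x * (X.cell k).indicator (fun _ => (1 : ℝ)) x) := gn_mask_mul hM0 (gn_mask_ind (ch_mh_cell_meas h k))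
  have hbm := ch_mh_box_meas h k.bs
  obtain ⟨θ', hθ'⟩ : ∃ θ' : Fin X.E.L → X.p.Om × ℝ × ℝ → ℝ,
      θ' = fun l x => if k ∈ X.keys l then X.θ l x * (X.box k.bs).indicator (fun _ => (1 : ℝ)) x.1 else 0 := ⟨_, rfl⟩
  have hθm : ∀ l, IsMask (fun x : X.p.Om × ℝ × ℝ => X.θ l x * (X.box k.bs).indicator (fun _ => (1 : ℝ)) x.1) :=
    fun l => gn_mask_mul (ch_mh_theta h l).1 (ch_mh_ind_mask X hbm)
  have hff : X.p.dl (X.E.k0 + X.E.n) ≤ 37 * X.A * X.f1 := by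
    have h1 : X.p.dl (X.E.k0 + X.E.n) ≤ X.f1 := h.hf1
    have h2 : 1 ≤ 37 * X.A := by linarith [h.A1]
    nlinarith
  have key := hSC X.p h.hp (X.sa k) (X.sb k) ma mb X.E.k0 X.E.i0 X.E.n (X.wk k) (16 * X.E.ka * (X.E.s ^ X.Lm * X.r1) ^ (3 + X.η))
    (fun nn cc f hf => ch_mh_key_reg h k nn cc f hf) bm X.rest hst (37 * X.A * X.f1) hff X.E.L X.E.iv
    (fun l => X.f1 * chGNn X.sc (X.τ l) (X.Qh l) k) (fun l => X.l0 * X.f1 * chGCc X.sc (X.τ l) (X.Qh l) k) θ' h.hE.iv_in ?_ ?_ ?_ ?_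
  · refine le_trans (le_of_eq ?_) key
    refine Finset.sum_congr rfl fun l _ => ?_
    by_cases hk : k ∈ X.keys l
    · rw [if_pos hk]
      congr 1
      have e1 : θ' l = fun x => X.θ l x * (X.box k.bs).indicator (fun _ => (1 : ℝ)) x.1 := by
        rw [hθ']; funext x; exact if_pos hk
      rw [e1]
      have e2 := ch_mh_rd_comm h l (X.θ l) _ hMc _ hbm
      rw [← ch_mh_wk_box k] at e2
      exact e2
    · rw [if_neg hk]
      have e1 : θ' l = fun _ => 0 := by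
        rw [hθ']; funext x; exact if_neg hk
      rw [e1]
      have : (X.p.sys X.η).en (tmL (X.E.k0 + X.E.n) (X.E.iv l)) (X.E.k0 + X.E.n) 0 (fun _ => 0) (Xp.run (X.E.k0 + X.E.n) (X.E.iv l) X.rest (X.wk k)) = 0 := by
        unfold PkSys.en
        simp
      exact (show (0 : ℝ) = 0 ^ 2 by norm_num).trans (congrArg (· ^ 2) this.symm)
  · intro l
    rw [hθ']
    by_cases hk : k ∈ X.keys l
    · simp only [if_pos hk]; exact (hθm l).1
    · simp only [if_neg hk]; exact measurable_const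
  · intro l x
    rw [hθ']
    by_cases hk : k ∈ X.keys l
    · simp only [if_pos hk]; exact ((hθm l).2 x).1
    · simp only [if_neg hk]; exact le_rfl
  · intro l x hx
    rw [hθ'] at hx
    by_cases hk : k ∈ X.keys l
    · simp only [if_pos hk] at hx
      have x1 : X.θ l x ≠ 0 := left_ne_zero_of_mul hx
      have x2 : x.1 ∈ X.box k.bs := Set.mem_of_indicator_ne_zero (right_ne_zero_of_mul hx)
      obtain ⟨t0, t1, t2⟩ := ch_mh_tau h l
      obtain ⟨w1, w2⟩ := ch_mh_qh_wid h l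
      have hin := (ch_mh_in_nrm h l x).mp (ch_mh_theta_ft h l x1).2
      obtain ⟨a1, a2⟩ := ch_mh_taylor X.sc hs (X.τ l) t0 t1 (X.Qh l) w1 w2 (X.lh l) k ((ch_g_keys_mem X.sc hs _ _ _ k).mp hk) _ _ _ x2 X.l0 X.f1 x.2.2 x.2.1 h0 hf1 hin
      have e1 : tmL (X.E.k0 + X.E.n) (X.E.iv l) - tmL X.E.k0 X.E.i0 = X.l0 * X.τ l := by
        have : X.Tl l - X.T0 = X.l0 * X.τ l := by linarith
        exact this
      have e2 : (2 : ℝ)⁻¹ ^ (X.E.k0 + X.E.n) = X.l0 * X.E.s := hl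
      refine ⟨a1, ?_⟩
      show |x.2.1 - (X.sb k x.1 + (tmL (X.E.k0 + X.E.n) (X.E.iv l) - tmL X.E.k0 X.E.i0) * X.sa k x.1) - X.l0 * X.f1 * chGCc X.sc (X.τ l) (X.Qh l) k|
        ≤ (2 : ℝ)⁻¹ ^ (X.E.k0 + X.E.n) * (37 * X.A * X.f1)
      rw [e1, e2]
      exact a2
    · simp only [if_neg hk] at hx
      exact absurd rfl hx
  · intro i x
    refine le_trans (Finset.sum_le_sum fun l _ => ?_) (h.hE.th_sum i x)
    by_cases hi : X.E.iv l = i
    · rw [if_pos hi, if_pos hi, hθ']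
      by_cases hk : k ∈ X.keys l
      · simp only [if_pos hk]
        have b1 := ((ch_mh_ind_mask X hbm).2 x)
        have b2 := (ch_mh_theta h l).2 x
        have b3 := ((ch_mh_theta h l).1.2 x).1
        simp only at b1
        nlinarith [b1.1, b1.2]
      · simp only [if_neg hk]
        exact h.hE.th_nn l x
    · rw [if_neg hi, if_neg hi]

end Claimed.Agent.R256
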