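-- KEEP
import Claimed.Agent.R256.Chan.MhKey

/-!
# Row 256 (LS paper), CHAN, unit MH (post BP-256-CHAN-MH), file 8 : ASSEMBLY of `ch_mem_hyb`          (architect helper86; prefix `ch_mh_`)

* `ch_mh_arith`   powers of `δ`, logarithms, constants
* `ch_mh_bound`   (mem) for the record `X : ChMh` : `ch_mh_asm` (two Cauchy-Schwarz) with (H1)-(H6)
* `ch_mh_main`    the statement of `ch_mem_hyb` (`Chan/Contract.lean`) from (SC) = `ch_sc_hyb`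
-/

set_option autoImplicit false

namespace Claimed.Agent.R256

open MeasureTheory

/-- powers of `δ`, logarithms, constants -/
theorem ch_mh_arith (η : ℝ) (hη0 : 0 < η) (hη1 : η < 1) (K : ℕ) (C : ℝ) (hC : 0 < C) (d A Lm ka r1 f1 dk e ν L Rn P2 : ℝ) (hd0 : 0 < d)
    (hA : 1 ≤ A) (hka : 0 ≤ ka) (hr : 0 < r1) (hdk : 0 < dk) (hf : dk ≤ f1) (he : 0 ≤ e) (hν : 0 ≤ ν) (hL : 0 ≤ L) (hR : 0 ≤ Rn) (hP : P2 = d ^ (-η)) :
    (525 * A ^ 3 + 1) * (Real.sqrt (L * (Rn * (147000 * A ^ 3 * (d ^ 2 / (d ^ Lm) ^ 3)))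
          * ((C * (1 + Real.log (37 * A * f1 / dk)) ^ (K + 1) * (37 * A * f1) ^ (1 - η) * P2 * (16 * ka * (d ^ Lm * r1) ^ (3 + η))) * e))
        + L * (Rn * (280 * (d ^ 2 / (d ^ Lm) ^ 3))) * ν)
      ≤ (526 * (Real.sqrt (147000 * 16 * 37 * C) * 37 ^ (K + 1)) + 526 * 280) * A ^ 5 * (1 + Real.log (A * f1 / dk)) ^ (K + 1)
            * Real.sqrt (L * Rn * d ^ (2 - 3 * Lm) * (ka * (r1 ^ (3 + η) * f1 ^ (1 - η)) * d ^ ((3 + η) * Lm - η)) * e)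
          + (526 * (Real.sqrt (147000 * 16 * 37 * C) * 37 ^ (K + 1)) + 526 * 280) * A ^ 5 * (L * Rn * d ^ (2 - 3 * Lm)) * ν := by
  have hf0 : 0 < f1 := lt_of_lt_of_le hdk hf
  have hA0 : 0 < A := by linarith
  have e1 : d ^ 2 / (d ^ Lm) ^ 3 = d ^ (2 - 3 * Lm) := by
    rw [← Real.rpow_natCast (d ^ Lm) 3, ← Real.rpow_mul hd0.le, ← Real.rpow_natCast d 2, ← Real.rpow_sub hd0]
    congr 1
    push_cast
    ring
  have e2 : d ^ (-η) * (d ^ Lm) ^ (3 + η) = d ^ ((3 + η) * Lm - η) := by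
    rw [← Real.rpow_mul hd0.le, ← Real.rpow_add hd0]
    congr 1
    ring
  have e3 : (37 * A) ^ (1 - η) ≤ 37 * A := by
    have := Real.rpow_le_rpow_of_exponent_le (x := 37 * A) (by linarith) (show 1 - η ≤ 1 by linarith)
    rwa [Real.rpow_one] at this
  have e4 : (37 * A * f1) ^ (1 - η) = (37 * A) ^ (1 - η) * f1 ^ (1 - η) := Real.mul_rpow (by positivity) hf0.le
  have e5 : (d ^ Lm * r1) ^ (3 + η) = (d ^ Lm) ^ (3 + η) * r1 ^ (3 + η) := Real.mul_rpow (by positivity) hr.le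
  obtain ⟨Λ, hΛ⟩ : ∃ Λ, Λ = 1 + Real.log (A * f1 / dk) := ⟨_, rfl⟩
  obtain ⟨Λ', hΛ'⟩ : ∃ Λ', Λ' = 1 + Real.log (37 * A * f1 / dk) := ⟨_, rfl⟩
  have hy : 1 ≤ A * f1 / dk := by
    rw [le_div_iff₀ hdk]
    nlinarith
  have hlog := Real.log_nonneg hy
  have hΛ1 : 1 ≤ Λ := by rw [hΛ]; linarith
  have hΛ'0 : 0 ≤ Λ' := by
    rw [hΛ']
    have : 1 ≤ 37 * A * f1 / dk := by
      have : 37 * A * f1 / dk = 37 * (A * f1 / dk) := by ring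
      rw [this]; linarith
    have := Real.log_nonneg this
    linarith
  have hΛ'le : Λ' ≤ 37 * Λ := by
    rw [hΛ', hΛ]
    have : 37 * A * f1 / dk = 37 * (A * f1 / dk) := by ring
    rw [this, Real.log_mul (by norm_num) (by positivity)]
    have := Real.log_le_sub_one_of_pos (by norm_num : (0 : ℝ) < 37)
    linarith
  obtain ⟨G, hG⟩ : ∃ G, G = (37 * Λ) ^ (K + 1) := ⟨_, rfl⟩
  have hG1 : 1 ≤ G := by rw [hG]; exact one_le_pow₀ (by linarith)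
  have hΛG : Λ' ^ (K + 1) ≤ G ^ 2 := by
    have h1 : Λ' ^ (K + 1) ≤ G := by rw [hG]; exact pow_le_pow_left₀ hΛ'0 hΛ'le _
    nlinarith
  obtain ⟨D, hD⟩ : ∃ D, D = d ^ (2 - 3 * Lm) := ⟨_, rfl⟩
  have hD0 : 0 < D := by rw [hD]; exact Real.rpow_pos_of_pos hd0 _
  obtain ⟨Z, hZ⟩ : ∃ Z, Z = L * Rn * D * (ka * (r1 ^ (3 + η) * f1 ^ (1 - η)) * d ^ ((3 + η) * Lm - η)) * e := ⟨_, rfl⟩
  have hZ0 : 0 ≤ Z := by rw [hZ]; positivity
  rw [e1, ← hΛ, ← hΛ', ← hD, ← hZ, hP, e4, e5]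
  have hW : L * (Rn * (147000 * A ^ 3 * D)) * ((C * Λ' ^ (K + 1) * ((37 * A) ^ (1 - η) * f1 ^ (1 - η)) * d ^ (-η) * (16 * ka * ((d ^ Lm) ^ (3 + η) * r1 ^ (3 + η)))) * e)
      ≤ (147000 * 16 * 37 * C) * (A ^ 2 * G) ^ 2 * Z := by
    calc L * (Rn * (147000 * A ^ 3 * D)) * ((C * Λ' ^ (K + 1) * ((37 * A) ^ (1 - η) * f1 ^ (1 - η)) * d ^ (-η) * (16 * ka * ((d ^ Lm) ^ (3 + η) * r1 ^ (3 + η)))) * e)
        = (147000 * 16 * C * A ^ 3) * (L * Rn * D * (ka * (r1 ^ (3 + η) * f1 ^ (1 - η)) * (d ^ (-η) * (d ^ Lm) ^ (3 + η))) * e) * (Λ' ^ (K + 1) * (37 * A) ^ (1 - η)) := by ring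
      _ = (147000 * 16 * C * A ^ 3) * Z * (Λ' ^ (K + 1) * (37 * A) ^ (1 - η)) := by rw [e2, hZ]
      _ ≤ (147000 * 16 * C * A ^ 3) * Z * (G ^ 2 * (37 * A)) := by
          refine mul_le_mul_of_nonneg_left ?_ (by positivity)
          exact mul_le_mul hΛG e3 (by positivity) (by positivity)
      _ = _ := by ring
  have hsq : Real.sqrt (L * (Rn * (147000 * A ^ 3 * D)) * ((C * Λ' ^ (K + 1) * ((37 * A) ^ (1 - η) * f1 ^ (1 - η)) * d ^ (-η) * (16 * ka * ((d ^ Lm) ^ (3 + η) * r1 ^ (3 + η)))) * e))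
      ≤ Real.sqrt (147000 * 16 * 37 * C) * (A ^ 2 * G) * Real.sqrt Z := by
    refine (Real.sqrt_le_sqrt hW).trans (le_of_eq ?_)
    rw [Real.sqrt_mul (by positivity), Real.sqrt_mul (by positivity), Real.sqrt_sq (by positivity)]
  obtain ⟨c, hc⟩ : ∃ c, c = Real.sqrt (147000 * 16 * 37 * C) := ⟨_, rfl⟩
  have hc0 : 0 ≤ c := by rw [hc]; exact Real.sqrt_nonneg _
  rw [← hc] at hsq ⊢
  have hGe : G = 37 ^ (K + 1) * Λ ^ (K + 1) := by rw [hG, mul_pow]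
  have hA3 : 525 * A ^ 3 + 1 ≤ 526 * A ^ 3 := by
    have : 1 ≤ A ^ 3 := one_le_pow₀ hA
    linarith
  have hA35 : A ^ 3 ≤ A ^ 5 := pow_le_pow_right₀ hA (by norm_num)
  have hsZ := Real.sqrt_nonneg Z
  have hΛp : 0 ≤ Λ ^ (K + 1) := by positivity
  have hU : 0 ≤ L * Rn * D * ν := by positivity
  calc (525 * A ^ 3 + 1) * (Real.sqrt (L * (Rn * (147000 * A ^ 3 * D)) * ((C * Λ' ^ (K + 1) * ((37 * A) ^ (1 - η) * f1 ^ (1 - η)) * d ^ (-η) * (16 * ka * ((d ^ Lm) ^ (3 + η) * r1 ^ (3 + η)))) * e))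
        + L * (Rn * (280 * D)) * ν)
      ≤ (526 * A ^ 3) * (c * (A ^ 2 * G) * Real.sqrt Z + L * (Rn * (280 * D)) * ν) := by
        refine mul_le_mul hA3 (add_le_add hsq le_rfl) (by positivity) (by positivity)
    _ = (526 * (c * 37 ^ (K + 1))) * A ^ 5 * Λ ^ (K + 1) * Real.sqrt Z + (526 * 280) * A ^ 3 * (L * Rn * D * ν) := by
        rw [hGe]; ring
    _ ≤ (526 * (c * 37 ^ (K + 1)) + 526 * 280) * A ^ 5 * Λ ^ (K + 1) * Real.sqrt Z + (526 * (c * 37 ^ (K + 1)) + 526 * 280) * A ^ 5 * (L * Rn * D * ν) := by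
        refine add_le_add ?_ ?_
        · have : 526 * (c * 37 ^ (K + 1)) ≤ 526 * (c * 37 ^ (K + 1)) + 526 * 280 := by linarith
          gcongr
        · have h1 : (526 : ℝ) * 280 ≤ 526 * (c * 37 ^ (K + 1)) + 526 * 280 := by
            have : 0 ≤ 526 * (c * 37 ^ (K + 1)) := by positivity
            linarith
          gcongr
    _ = _ := by ring


variable {X : ChMh}

/-- **(mem), hybrid** for the record -/
theorem ch_mh_bound (h : X.Ok) (C : ℝ) (hC : 0 < C) (hSC : ChMhSc X.η X.K C) :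
    ∑ l, X.ml l ≤ (526 * (Real.sqrt (147000 * 16 * 37 * C) * 37 ^ (X.K + 1)) + 526 * 280) * X.A ^ 5 * (1 + Real.log (X.A * X.f1 / X.p.dl X.E.kf)) ^ (X.K + 1)
            * Real.sqrt ((X.E.L : ℝ) * X.Rn * X.E.s ^ (2 - 3 * X.Lm) * (X.E.ka * (X.r1 ^ (3 + X.η) * X.f1 ^ (1 - X.η)) * X.E.s ^ ((3 + X.η) * X.Lm - X.η)) * X.E.e)
          + (526 * (Real.sqrt (147000 * 16 * 37 * C) * 37 ^ (X.K + 1)) + 526 * 280) * X.A ^ 5 * ((X.E.L : ℝ) * X.Rn * X.E.s ^ (2 - 3 * X.Lm)) * X.ν := by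
  obtain ⟨h0, hf1, hs0, hs1, hs, hl, hd⟩ := ch_mh_pos h
  have hA := h.A1
  have hA0 : 0 < X.A := by linarith
  have hy : 1 ≤ X.A * X.f1 / X.p.dl X.E.kf := by
    rw [le_div_iff₀ hd]
    have := h.hf1
    nlinarith
  have hlog := Real.log_nonneg hy
  rcases Nat.eq_zero_or_pos X.E.L with hL0 | hL0
  · have : IsEmpty (Fin X.E.L) := by rw [hL0]; infer_instance
    have hL0' : (X.E.L : ℝ) = 0 := by exact_mod_cast hL0
    rw [Finset.univ_eq_empty, Finset.sum_empty, hL0']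
    simp
  have hR : 0 ≤ X.Rn := le_trans (Nat.cast_nonneg _) (h.card ⟨0, hL0⟩)
  have hcard : ∀ l, ((X.lh l).card : ℝ) ≤ X.Rn := fun l => le_trans (Nat.cast_le.mpr Finset.card_image_le) (h.card l)
  have hq : 0 ≤ X.E.s ^ 2 / (X.E.s ^ X.Lm) ^ 3 := by positivity
  have hlog' : 0 ≤ 1 + Real.log (37 * X.A * X.f1 / X.p.dl X.E.kf) := by
    have : 1 ≤ 37 * X.A * X.f1 / X.p.dl X.E.kf := by
      have : 37 * X.A * X.f1 / X.p.dl X.E.kf = 37 * (X.A * X.f1 / X.p.dl X.E.kf) := by ring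
      rw [this]; linarith
    have := Real.log_nonneg this
    linarith
  have hka := h.hE.ka_pos
  have hr := h.hr1
  have key := ch_mh_asm X.E.L X.keys ChKey.bs X.bss (fun l k hk => ch_mh_bs_mem _ _ _ _ k hk) X.ml X.mb X.mq (fun k => ‖X.wk k‖ ^ 2)
    (525 * X.A ^ 3) (X.Rn * (280 * (X.E.s ^ 2 / (X.E.s ^ X.Lm) ^ 3))) (X.Rn * (147000 * X.A ^ 3 * (X.E.s ^ 2 / (X.E.s ^ X.Lm) ^ 3)))
    (C * (1 + Real.log (37 * X.A * X.f1 / X.p.dl X.E.kf)) ^ (X.K + 1) * (37 * X.A * X.f1) ^ (1 - X.η) * 2 ^ (X.η * X.E.n)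
          * (16 * X.E.ka * (X.E.s ^ X.Lm * X.r1) ^ (3 + X.η))) X.E.e X.ν
    (fun l k => ch_mh_rd_nonneg l (fun x => ((ch_mh_theta h l).1.2 x).1) _)
    (fun l β => ch_mh_rd_nonneg l (fun x => ((gn_mask_mul (ch_mh_theta h l).1 (ch_mh_ind_mask X (ch_mh_box_meas h β))).2 x).1) _)
    h.ν0 (by positivity) (by positivity)
    (fun l => (ch_mh_H1 h l).le) (fun l β _ => ch_mh_H2 h l β)
    (fun l β => ch_mh_fib_card X.sc hs _ _ _ β)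
    (fun l => (ch_mh_bs_card X.sc hs _ _ _).trans (mul_le_mul_of_nonneg_right (hcard l) (by
      show 0 ≤ 280 * (X.E.s ^ 2 / (X.E.s ^ X.Lm) ^ 3)
      positivity)))
    (fun l => (ch_g_card X.sc hs _ _ _).trans (mul_le_mul_of_nonneg_right (hcard l) (by
      show 0 ≤ 147000 * X.A ^ 3 * (X.E.s ^ 2 / (X.E.s ^ X.Lm) ^ 3)
      positivity)))
    (fun k => ch_mh_H5 h C hSC k) (fun U => ch_mh_H6 h U)
  refine key.trans ?_
  refine ch_mh_arith X.η h.η0 h.η1 X.K C hC X.E.s X.A X.Lm X.E.ka X.r1 X.f1 (X.p.dl X.E.kf) X.E.e X.ν X.E.L X.Rn _ hs0 hA hka.le hr hd h.hf1 h.hE.e_pos.le h.ν0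
    (Nat.cast_nonneg _) hR ?_
  rw [gn_s_rpow]
  congr 1
  ring

/-- **(mem), hybrid experiments** from (SC) -/
theorem ch_mh_main (η : ℝ) (hη0 : 0 < η) (hη1 : η < 1) (K : ℕ) (hSC : ∃ C : ℝ, 0 < C ∧ ChMhSc η K C) :
    ∃ C : ℝ, 0 < C ∧ ∀ (p : ChyPar), p.Ok → ∀ E : Xp (p.sys η), E.Valid →
      ∀ (σ0 : Stg (p.sys η)) (rest : List (Stg (p.sys η))), E.st = σ0 :: rest → σ0.k = E.k0 → rest.length ≤ K →
      ∀ (r1 f1 A Lm Qx Rn ν : ℝ), 0 < r1 → p.dl E.kf ≤ f1 → 1 ≤ A → 1 ≤ Lm → 1 + Qx ≤ 2 * Lm → 0 ≤ ν →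
      ∀ (be0 K0 P0 : p.Om × ℝ × ℝ → ℝ), Measurable be0 → Measurable K0 → Measurable P0 →
      ∀ (Q : Fin E.L → CyT) (lst : Fin E.L → Finset ℝ),
      (∀ l x, E.th l x ≠ 0 → cyIn (Q l) ((2 : ℝ)⁻¹ ^ E.kf) (p.co (tmL E.kf (E.iv l)) x)) → (∀ l, (Q l).r = r1 ∧ (Q l).f = f1) → (∀ l, ((lst l).card : ℝ) ≤ Rn) →
      (∀ (l : Fin E.L) (S' : Set (p.Om × ℝ × ℝ)), MeasurableSet S' →
        (∀ x ∈ S', ¬ chNear A Lm Qx E.s ((2 : ℝ)⁻¹ ^ E.k0) r1 f1 (tmL E.kf (E.iv l) - tmL E.k0 E.i0) (be0 x) (K0 x) (P0 x)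
          (p.X x.1) (p.B x.1 + tmL E.kf (E.iv l) * p.X x.1) (Q l)) →
        (p.sys η).en (tmL E.kf (E.iv l)) E.kf E.bT (E.th l)
          (Xp.run E.kf (E.iv l) rest ((p.sys η).tz (tmL E.k0 E.i0) E.k0 σ0.b (fun x => σ0.M E.i0 x * S'.indicator (fun _ => (1 : ℝ)) x) E.v)) ≤ ν) →
      ∑ l, (p.sys η).en (tmL E.kf (E.iv l)) E.kf E.bT
          (fun x => E.th l x * ({x : p.Om × ℝ × ℝ | ∃ c ∈ lst l, |p.X x.1 - c| ≤ r1 * E.s ^ Lm}).indicator (fun _ => (1 : ℝ)) x) (E.fin (E.iv l))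
        ≤ C * A ^ 5 * (1 + Real.log (A * f1 / p.dl E.kf)) ^ (K + 1)
            * Real.sqrt ((E.L : ℝ) * Rn * E.s ^ (2 - 3 * Lm) * (E.ka * (r1 ^ (3 + η) * f1 ^ (1 - η)) * E.s ^ ((3 + η) * Lm - η)) * E.e)
          + C * A ^ 5 * ((E.L : ℝ) * Rn * E.s ^ (2 - 3 * Lm)) * ν := by
  obtain ⟨C, hC, H⟩ := hSC
  refine ⟨526 * (Real.sqrt (147000 * 16 * 37 * C) * 37 ^ (K + 1)) + 526 * 280, by positivity, ?_⟩
  intro p hp E hE σ0 rest hst hk hK r1 f1 A Lm Qx Rn ν hr1 hf1 hA hL hML hν be0 K0 P0 mbe mK mP Q lst hin wid card chν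
  have h : (⟨η, p, E, σ0, rest, K, r1, f1, A, Lm, Qx, Rn, ν, be0, K0, P0, Q, lst⟩ : ChMh).Ok :=
    ⟨hη0, hη1, hp, hE, hst, hk, hK, hr1, hf1, hA, hL, hML, hν, mbe, mK, mP, hin, wid, card, chν⟩
  have key := ch_mh_bound h C hC H
  refine le_trans (le_of_eq ?_) key
  refine Finset.sum_congr rfl fun l _ => ?_
  have e := ch_mh_fin h l
  exact congrArg (fun u => (p.sys η).en (tmL E.kf (E.iv l)) E.kf E.bT
          (fun x => E.th l x * ({x : p.Om × ℝ × ℝ | ∃ c ∈ lst l, |p.X x.1 - c| ≤ r1 * E.s ^ Lm}).indicator (fun _ => (1 : ℝ)) x) u) e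

end Claimed.Agent.R256
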