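import Claimed.Agent.R256.Chan.Defs
import Claimed.Agent.R256.Gen.BasC
import Claimed.Agent.R256.Hyb.Inst

/-!
# Row 256 (LS paper), CHAN, hybrid part, leaf S4 : THE SAME FRAME          (helper248; prefix `ch_sm_`)

`tz M u = an† M an u`;  `an an† F = tr F` fibre by fibre (`hy_an_adj`), `|kr| = chSmG (ρ' - ρ)` (`hy_kr_same`), `∫ chSmG dν = 2`, `hy_cs`:
   density of `tz M u` at `(ω, ρ')`  `≤ 2 ∫ chSmG (ρ' - ρ) |an u (ω, ρ)|² dν`                                      (`ch_sm_dens`)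
ONE VARIABLE AT A TIME: if `F (ω, ρ + h) chSmG h ≤ 3 Φ (ω, ρ) chSmW h` (`chSmW` = the Gaussian of double variance, `∫ chSmW dν = 4σ ≤ 8`) then
   `∫ F dμ[tz M u] ≤ 48 ∫ Φ dμ[u]`                                                                                 (`ch_sm_fib`, `ch_sm_dom`)
twice: `ch_sm_pf` (any kernel).   The kernel `(r0² + ΔN² + (ΔD/l)²)^(-1/2)`: `ch_sm_pt`, `ch_sm_re` (no moments: `1 + s ≤ 4 e^(s/4)`).      EXIT `ch_sm_same` = `ch_p_same` unfolded, `C = 48²`.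
-/

set_option autoImplicit false

namespace Claimed.Agent.R256

open MeasureTheory
open scoped ENNReal

/-- the modulus of the kernel of the same frame, as a function of `ρ' - ρ` -/
noncomputable def chSmG (φ : HyF) (k : ℕ) (h : ℝ × ℝ) : ℝ≥0∞ :=
  ENNReal.ofReal (Real.exp (-(φ.sg ^ 2 * h.2 ^ 2 / (4 * φ.d k ^ 2)) - h.1 ^ 2 / (4 * φ.q k ^ 2)))

/-- the Gaussian of double variance -/
noncomputable def chSmW (φ : HyF) (k : ℕ) (h : ℝ × ℝ) : ℝ≥0∞ :=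
  ENNReal.ofReal (Real.exp (-(h.2 ^ 2 / (8 * φ.d k ^ 2)) - h.1 ^ 2 / (8 * φ.q k ^ 2)))

theorem ch_sm_eqns_cite : True := by
  have := @chSmG.eq_1
  have := @chSmW.eq_1
  trivial

/-! ### the kernel, real inequalities -/

theorem ch_sm_pt (r0 z1 z2 e1 e2 : ℝ) (hr : 0 < r0) :
    1 / Real.sqrt (r0 ^ 2 + (z1 + e1) ^ 2 + (z2 + e2) ^ 2)
      ≤ 3 * Real.exp ((e1 ^ 2 + e2 ^ 2) / (8 * r0 ^ 2)) * (1 / Real.sqrt (r0 ^ 2 + z1 ^ 2 + z2 ^ 2)) := by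
  obtain ⟨P, hP⟩ : ∃ P, P = r0 ^ 2 + z1 ^ 2 + z2 ^ 2 := ⟨_, rfl⟩
  obtain ⟨Q, hQ⟩ : ∃ Q, Q = r0 ^ 2 + (z1 + e1) ^ 2 + (z2 + e2) ^ 2 := ⟨_, rfl⟩
  obtain ⟨s, hs⟩ : ∃ s, s = (e1 ^ 2 + e2 ^ 2) / r0 ^ 2 := ⟨_, rfl⟩
  have hr2 : 0 < r0 ^ 2 := by positivity
  have hP0 : 0 < P := by rw [hP]; positivity
  have hQ0 : 0 < Q := by rw [hQ]; positivity
  have hs0 : 0 ≤ s := by rw [hs]; positivity
  have hsr : s * r0 ^ 2 = e1 ^ 2 + e2 ^ 2 := by rw [hs]; field_simp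
  have hQr : r0 ^ 2 ≤ Q := by rw [hQ]; nlinarith [sq_nonneg (z1 + e1), sq_nonneg (z2 + e2)]
  have h1 : P ≤ 2 * Q + 2 * (s * r0 ^ 2) := by
    rw [hsr, hP, hQ]
    nlinarith [sq_nonneg (z1 + 2 * e1), sq_nonneg (z2 + 2 * e2)]
  have h2 : P ≤ 2 * (1 + s) * Q := by
    have : s * r0 ^ 2 ≤ s * Q := mul_le_mul_of_nonneg_left hQr hs0
    linarith
  have h3 : 1 + s ≤ 4 * Real.exp (s / 4) := by
    have := Real.add_one_le_exp (s / 4)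
    linarith
  have e8 : (e1 ^ 2 + e2 ^ 2) / (8 * r0 ^ 2) = s / 8 := by rw [hs]; field_simp
  have h4 : Real.exp (s / 4) = Real.exp (s / 8) ^ 2 := by
    rw [← Real.exp_nat_mul]
    congr 1
    push_cast
    ring
  have h5 : P ≤ (3 * Real.exp (s / 8)) ^ 2 * Q := by
    have hE : 0 < Real.exp (s / 8) ^ 2 := by positivity
    calc P ≤ 2 * (1 + s) * Q := h2
      _ ≤ 2 * (4 * Real.exp (s / 4)) * Q := by gcongr
      _ = 8 * (Real.exp (s / 8) ^ 2 * Q) := by rw [h4]; ring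
      _ ≤ 9 * (Real.exp (s / 8) ^ 2 * Q) := by
          have : 0 < Real.exp (s / 8) ^ 2 * Q := by positivity
          linarith
      _ = _ := by ring
  have h6 : Real.sqrt P ≤ 3 * Real.exp (s / 8) * Real.sqrt Q := by
    calc Real.sqrt P ≤ Real.sqrt ((3 * Real.exp (s / 8)) ^ 2 * Q) := Real.sqrt_le_sqrt h5
      _ = _ := by rw [Real.sqrt_mul (by positivity), Real.sqrt_sq (by positivity)]
  rw [← hP, ← hQ, e8]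
  have hsP : 0 < Real.sqrt P := Real.sqrt_pos.2 hP0
  have hsQ : 0 < Real.sqrt Q := Real.sqrt_pos.2 hQ0
  rw [mul_one_div, div_le_div_iff₀ hsQ hsP, one_mul]
  exact h6

theorem ch_sm_re (r0 d q l σ z1 w e1 e2 : ℝ) (hd : 0 < d) (hdr : d ≤ r0) (hl : 0 < l) (hq : q = l * d) (hσ : 1 ≤ σ) :
    1 / Real.sqrt (r0 ^ 2 + (z1 + e1) ^ 2 + ((w + e2) / l) ^ 2) * Real.exp (-(σ ^ 2 * e1 ^ 2 / (4 * d ^ 2)) - e2 ^ 2 / (4 * q ^ 2))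
      ≤ 3 * (1 / Real.sqrt (r0 ^ 2 + z1 ^ 2 + (w / l) ^ 2) * Real.exp (-(e1 ^ 2 / (8 * d ^ 2)) - e2 ^ 2 / (8 * q ^ 2))) := by
  have hr : 0 < r0 := hd.trans_le hdr
  have h1 := ch_sm_pt r0 z1 (w / l) e1 (e2 / l) hr
  rw [← add_div] at h1
  have hS : 0 ≤ 1 / Real.sqrt (r0 ^ 2 + z1 ^ 2 + (w / l) ^ 2) := by positivity
  have h2 : Real.exp ((e1 ^ 2 + (e2 / l) ^ 2) / (8 * r0 ^ 2)) * Real.exp (-(σ ^ 2 * e1 ^ 2 / (4 * d ^ 2)) - e2 ^ 2 / (4 * q ^ 2))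
      ≤ Real.exp (-(e1 ^ 2 / (8 * d ^ 2)) - e2 ^ 2 / (8 * q ^ 2)) := by
    rw [← Real.exp_add]
    refine Real.exp_le_exp.2 ?_
    have a1 : (e1 ^ 2 + (e2 / l) ^ 2) / (8 * r0 ^ 2) ≤ (e1 ^ 2 + (e2 / l) ^ 2) / (8 * d ^ 2) := by
      have : d ^ 2 ≤ r0 ^ 2 := pow_le_pow_left₀ hd.le hdr 2
      gcongr
    have a2 : (e1 ^ 2 + (e2 / l) ^ 2) / (8 * d ^ 2) = e1 ^ 2 / (8 * d ^ 2) + e2 ^ 2 / (8 * q ^ 2) := by
      rw [hq]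
      field_simp
    have a3 : e1 ^ 2 / (4 * d ^ 2) ≤ σ ^ 2 * e1 ^ 2 / (4 * d ^ 2) := by
      have : 1 ≤ σ ^ 2 := one_le_pow₀ hσ
      have h0 : 0 ≤ e1 ^ 2 := sq_nonneg _
      have : e1 ^ 2 ≤ σ ^ 2 * e1 ^ 2 := le_mul_of_one_le_left h0 this
      gcongr
    have a4 : e1 ^ 2 / (4 * d ^ 2) = 2 * (e1 ^ 2 / (8 * d ^ 2)) := by ring
    have a5 : e2 ^ 2 / (4 * q ^ 2) = 2 * (e2 ^ 2 / (8 * q ^ 2)) := by ring
    linarith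
  calc 1 / Real.sqrt (r0 ^ 2 + (z1 + e1) ^ 2 + ((w + e2) / l) ^ 2) * Real.exp (-(σ ^ 2 * e1 ^ 2 / (4 * d ^ 2)) - e2 ^ 2 / (4 * q ^ 2))
      ≤ 3 * Real.exp ((e1 ^ 2 + (e2 / l) ^ 2) / (8 * r0 ^ 2)) * (1 / Real.sqrt (r0 ^ 2 + z1 ^ 2 + (w / l) ^ 2))
          * Real.exp (-(σ ^ 2 * e1 ^ 2 / (4 * d ^ 2)) - e2 ^ 2 / (4 * q ^ 2)) := mul_le_mul_of_nonneg_right h1 (Real.exp_pos _).le
    _ = 3 * (1 / Real.sqrt (r0 ^ 2 + z1 ^ 2 + (w / l) ^ 2) * (Real.exp ((e1 ^ 2 + (e2 / l) ^ 2) / (8 * r0 ^ 2))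
          * Real.exp (-(σ ^ 2 * e1 ^ 2 / (4 * d ^ 2)) - e2 ^ 2 / (4 * q ^ 2)))) := by ring
    _ ≤ _ := by gcongr

/-! ### the Gaussians -/

theorem ch_sm_kr (φ : HyF) (h : φ.Ok) (T : ℝ) (k : ℕ) (ρ' ρ : ℝ × ℝ) : ‖φ.kr T k T k ρ' ρ‖ₑ = chSmG φ k (ρ' - ρ) := by
  rw [← ofReal_norm, hy_kr_same φ h]
  unfold chSmG
  congr 1
  simp only [sub_self, zero_mul, zero_div, ne_eq, OfNat.ofNat_ne_zero, not_false_eq_true, zero_pow, add_zero, Real.one_rpow, one_mul, sub_zero,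
    mul_one, Prod.fst_sub, Prod.snd_sub]
  congr 3
  ring

theorem ch_sm_G_meas (φ : HyF) (k : ℕ) : Measurable (chSmG φ k) := by
  unfold chSmG
  fun_prop

theorem ch_sm_W_meas (φ : HyF) (k : ℕ) : Measurable (chSmW φ k) := by
  unfold chSmW
  fun_prop

theorem ch_sm_intG (φ : HyF) (h : φ.Ok) (k : ℕ) (ρ' : ℝ × ℝ) : ∫⁻ ρ, chSmG φ k (ρ' - ρ) ∂φ.nu = 2 := by
  obtain ⟨hq, hd, hqd, -, -, -⟩ := hy_qd φ h k
  have hH := h.H_pos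
  have hσ : 0 < φ.sg := by linarith [h.sg_lo]
  have h1 := hy_g_src (fun x => ENNReal.ofReal (Real.exp (-(x ^ 2 / (4 * (φ.d k / φ.sg) ^ 2))))) (fun y => ENNReal.ofReal (Real.exp (-(y ^ 2 / (4 * φ.q k ^ 2)))))
    (hy_g_gauss_meas _) (hy_g_gauss_meas _) 0 ρ'.2 ρ'.1
  rw [hy_g_gauss (div_pos hd hσ) (by norm_num), hy_g_gauss hq (by norm_num)] at h1
  unfold HyF.nu
  rw [lintegral_smul_measure, smul_eq_mul]
  have e : ∀ ρ : ℝ × ℝ, chSmG φ k (ρ' - ρ) = ENNReal.ofReal (Real.exp (-((ρ.2 - ρ'.2) ^ 2 / (4 * (φ.d k / φ.sg) ^ 2)))) *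
      ENNReal.ofReal (Real.exp (-((ρ'.1 - ρ.1 - 0 * ρ.2) ^ 2 / (4 * φ.q k ^ 2)))) := by
    intro ρ
    unfold chSmG
    rw [← ENNReal.ofReal_mul (Real.exp_pos _).le, ← Real.exp_add]
    congr 2
    simp only [Prod.fst_sub, Prod.snd_sub]
    field_simp
    ring
  simp_rw [e]
  rw [h1, ← ENNReal.ofReal_mul (by positivity), ← ENNReal.ofReal_mul (by positivity)]
  have e2 : φ.sg / (2 * Real.pi * φ.H) * (φ.d k / φ.sg * Real.sqrt (4 * Real.pi) * (φ.q k * Real.sqrt (4 * Real.pi))) = 2 := by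
    have : Real.sqrt (4 * Real.pi) * Real.sqrt (4 * Real.pi) = 4 * Real.pi := Real.mul_self_sqrt (by positivity)
    calc φ.sg / (2 * Real.pi * φ.H) * (φ.d k / φ.sg * Real.sqrt (4 * Real.pi) * (φ.q k * Real.sqrt (4 * Real.pi)))
        = φ.sg / (2 * Real.pi * φ.H) * (1 / φ.sg) * (φ.q k * φ.d k) * (Real.sqrt (4 * Real.pi) * Real.sqrt (4 * Real.pi)) := by ring
      _ = 2 := by
        rw [this, hqd]
        have := Real.pi_pos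
        field_simp
        ring
  rw [e2]
  norm_num

theorem ch_sm_intW (φ : HyF) (h : φ.Ok) (k : ℕ) (ρ : ℝ × ℝ) : ∫⁻ ρ', chSmW φ k (ρ' - ρ) ∂φ.nu ≤ 8 := by
  obtain ⟨hq, hd, hqd, -, -, -⟩ := hy_qd φ h k
  have hH := h.H_pos
  have hσ : 0 < φ.sg := by linarith [h.sg_lo]
  have h1 := hy_g_tgt (fun x => ENNReal.ofReal (Real.exp (-(x ^ 2 / (8 * φ.d k ^ 2))))) (fun y => ENNReal.ofReal (Real.exp (-(y ^ 2 / (8 * φ.q k ^ 2)))))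
    (hy_g_gauss_meas _) (hy_g_gauss_meas _) ρ.2 ρ.1
  rw [hy_g_gauss hd (by norm_num), hy_g_gauss hq (by norm_num)] at h1
  unfold HyF.nu
  rw [lintegral_smul_measure, smul_eq_mul]
  have e : ∀ ρ' : ℝ × ℝ, chSmW φ k (ρ' - ρ) = ENNReal.ofReal (Real.exp (-((ρ.2 - ρ'.2) ^ 2 / (8 * φ.d k ^ 2)))) *
      ENNReal.ofReal (Real.exp (-((ρ'.1 - ρ.1) ^ 2 / (8 * φ.q k ^ 2)))) := by
    intro ρ'
    unfold chSmW
    rw [← ENNReal.ofReal_mul (Real.exp_pos _).le, ← Real.exp_add]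
    congr 2
    simp only [Prod.fst_sub, Prod.snd_sub]
    ring
  simp_rw [e]
  rw [h1, ← ENNReal.ofReal_mul (by positivity), ← ENNReal.ofReal_mul (by positivity)]
  have e2 : φ.sg / (2 * Real.pi * φ.H) * (φ.d k * Real.sqrt (8 * Real.pi) * (φ.q k * Real.sqrt (8 * Real.pi))) = 4 * φ.sg := by
    have : Real.sqrt (8 * Real.pi) * Real.sqrt (8 * Real.pi) = 8 * Real.pi := Real.mul_self_sqrt (by positivity)
    calc φ.sg / (2 * Real.pi * φ.H) * (φ.d k * Real.sqrt (8 * Real.pi) * (φ.q k * Real.sqrt (8 * Real.pi)))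
        = φ.sg / (2 * Real.pi * φ.H) * (φ.q k * φ.d k) * (Real.sqrt (8 * Real.pi) * Real.sqrt (8 * Real.pi)) := by ring
      _ = 4 * φ.sg := by
        rw [this, hqd]
        have := Real.pi_pos
        field_simp
        ring
  rw [e2]
  calc ENNReal.ofReal (4 * φ.sg) ≤ ENNReal.ofReal 8 := ENNReal.ofReal_le_ofReal (by linarith [h.sg_hi])
    _ = 8 := by norm_num

/-! ### one variable -/

/-- one fibre -/
theorem ch_sm_fib (φ : HyF) (h : φ.Ok) (k : ℕ) (w F Φ : ℝ × ℝ → ℝ≥0∞) (hw : Measurable w) (hΦ : Measurable Φ)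
    (hd : ∀ ρ e, F (ρ + e) * chSmG φ k e ≤ 3 * (Φ ρ * chSmW φ k e)) :
    ∫⁻ ρ', (2 * ∫⁻ ρ, chSmG φ k (ρ' - ρ) * w ρ ∂φ.nu) * F ρ' ∂φ.nu ≤ 48 * ∫⁻ ρ, w ρ * Φ ρ ∂φ.nu := by
  have := hy_nu_sfinite φ
  have hWm := ch_sm_W_meas φ k
  have h1 : ∀ ρ', (2 * ∫⁻ ρ, chSmG φ k (ρ' - ρ) * w ρ ∂φ.nu) * F ρ' ≤ 6 * ∫⁻ ρ, (w ρ * Φ ρ) * chSmW φ k (ρ' - ρ) ∂φ.nu := by
    intro ρ'
    calc (2 * ∫⁻ ρ, chSmG φ k (ρ' - ρ) * w ρ ∂φ.nu) * F ρ' = 2 * ((∫⁻ ρ, chSmG φ k (ρ' - ρ) * w ρ ∂φ.nu) * F ρ') := mul_assoc _ _ _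
      _ ≤ 2 * ∫⁻ ρ, chSmG φ k (ρ' - ρ) * w ρ * F ρ' ∂φ.nu := by
          gcongr 2 * ?_
          exact lintegral_mul_const_le _ _
      _ ≤ 2 * ∫⁻ ρ, 3 * ((w ρ * Φ ρ) * chSmW φ k (ρ' - ρ)) ∂φ.nu := by
          gcongr 2 * ?_
          refine lintegral_mono fun ρ => ?_
          have := hd ρ (ρ' - ρ)
          rw [add_sub_cancel] at this
          calc chSmG φ k (ρ' - ρ) * w ρ * F ρ' = w ρ * (F ρ' * chSmG φ k (ρ' - ρ)) := by ring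
            _ ≤ w ρ * (3 * (Φ ρ * chSmW φ k (ρ' - ρ))) := by gcongr
            _ = 3 * ((w ρ * Φ ρ) * chSmW φ k (ρ' - ρ)) := by ring
      _ = 6 * ∫⁻ ρ, (w ρ * Φ ρ) * chSmW φ k (ρ' - ρ) ∂φ.nu := by
          rw [lintegral_const_mul' _ _ (by norm_num), ← mul_assoc]
          norm_num
  have hm : Measurable (Function.uncurry fun ρ' ρ : ℝ × ℝ => (w ρ * Φ ρ) * chSmW φ k (ρ' - ρ)) :=
    (((hw.comp measurable_snd).mul (hΦ.comp measurable_snd))).mul (hWm.comp (measurable_fst.sub measurable_snd))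
  calc ∫⁻ ρ', (2 * ∫⁻ ρ, chSmG φ k (ρ' - ρ) * w ρ ∂φ.nu) * F ρ' ∂φ.nu
      ≤ ∫⁻ ρ', 6 * ∫⁻ ρ, (w ρ * Φ ρ) * chSmW φ k (ρ' - ρ) ∂φ.nu ∂φ.nu := lintegral_mono h1
    _ = 6 * ∫⁻ ρ', ∫⁻ ρ, (w ρ * Φ ρ) * chSmW φ k (ρ' - ρ) ∂φ.nu ∂φ.nu := lintegral_const_mul' _ _ (by norm_num)
    _ = 6 * ∫⁻ ρ, ∫⁻ ρ', (w ρ * Φ ρ) * chSmW φ k (ρ' - ρ) ∂φ.nu ∂φ.nu := by rw [lintegral_lintegral_swap hm.aemeasurable]
    _ = 6 * ∫⁻ ρ, (w ρ * Φ ρ) * ∫⁻ ρ', chSmW φ k (ρ' - ρ) ∂φ.nu ∂φ.nu := by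
        congr 1
        refine lintegral_congr fun ρ => ?_
        exact lintegral_const_mul _ (hWm.comp (measurable_id.sub_const ρ))
    _ ≤ 6 * ∫⁻ ρ, (w ρ * Φ ρ) * 8 ∂φ.nu := by
        gcongr with ρ
        exact ch_sm_intW φ h k ρ
    _ = 48 * ∫⁻ ρ, w ρ * Φ ρ ∂φ.nu := by
        rw [lintegral_mul_const' _ _ (by norm_num), mul_comm _ (8 : ℝ≥0∞), ← mul_assoc]
        norm_num

/-- the transfer in the same frame, one fibre -/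
theorem ch_sm_tr (φ : HyF) (h : φ.Ok) {E : Type} [NormedAddCommGroup E] [NormedSpace ℂ E] (T : ℝ) (k : ℕ) (f : ℝ × ℝ → E)
    (hf : AEStronglyMeasurable f φ.nu) (ρ' : ℝ × ℝ) :
    ‖φ.tr T k T k f ρ'‖ₑ ^ 2 ≤ 2 * ∫⁻ ρ, chSmG φ k (ρ' - ρ) * ‖f ρ‖ₑ ^ 2 ∂φ.nu := by
  unfold HyF.tr
  have hkm : Measurable (fun ρ => φ.kr T k T k ρ' ρ) := by
    have := (hy_kr_meas φ h T k T k).comp (measurable_prodMk_left (x := ρ'))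
    exact this
  refine (hy_cs _ _ hkm.aemeasurable _ hf).trans ?_
  simp_rw [ch_sm_kr φ h]
  rw [ch_sm_intG φ h]

/-- the density of a synthesised row function -/
theorem ch_sm_dens (p : ChyPar) (hp : p.Ok) (T : ℝ) (k : ℕ) (F G : Lp p.Fb 2 p.rw)
    (hFG : ∀ᵐ x ∂p.rw, ‖(F : p.Om × ℝ × ℝ → p.Fb) x‖ₑ ≤ ‖(G : p.Om × ℝ × ℝ → p.Fb) x‖ₑ) :
    ∀ᵐ x ∂p.rw, ‖(p.an T k (ContinuousLinearMap.adjoint (p.an T k) F) : p.Om × ℝ × ℝ → p.Fb) x‖ₑ ^ 2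
      ≤ 2 * ∫⁻ ρ, chSmG (p.fib x.1) k (x.2 - ρ) * ‖(G : p.Om × ℝ × ℝ → p.Fb) (x.1, ρ)‖ₑ ^ 2 ∂(p.fib x.1).nu := by
  have h1 := hy_an_adj p hp T k T k F
  have h3 := hy_i3_lift_ae p (hy_i3_fib_ae p hp hFG)
  filter_upwards [h1, h3] with x hx1 hx3
  have hφ := hy_fib_ok p hp x.1
  rw [hx1]
  refine (ch_sm_tr (p.fib x.1) hφ T k (fun ρ => (F : p.Om × ℝ × ℝ → p.Fb) (x.1, ρ))
    ((Lp.stronglyMeasurable F).comp_measurable measurable_prodMk_left).aestronglyMeasurable x.2).trans ?_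
  gcongr 2 * ?_
  refine lintegral_mono_ae ?_
  filter_upwards [hx3] with ρ hρ
  gcongr

/-- the energy measure of a row function -/
noncomputable def chSmMu (p : ChyPar) (G : Lp p.Fb 2 p.rw) : Measure (p.Om × ℝ × ℝ) :=
  p.rw.withDensity fun x => ENNReal.ofReal (‖(G : p.Om × ℝ × ℝ → p.Fb) x‖ ^ 2)

theorem ch_sm_eqns_cite2 : True := by
  have := @chSmMu.eq_1
  trivial

theorem ch_sm_mu_fin (p : ChyPar) (G : Lp p.Fb 2 p.rw) : IsFiniteMeasure (chSmMu p G) := by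
  unfold chSmMu
  exact isFiniteMeasure_withDensity_ofReal ((Lp.memLp G).integrable_norm_pow (p := 2) (by norm_num)).2

theorem ch_sm_mu (p : ChyPar) (hp : p.Ok) (G : Lp p.Fb 2 p.rw) (F : p.Om × ℝ × ℝ → ℝ≥0∞) (hF : Measurable F) :
    ∫⁻ x, F x ∂(chSmMu p G) = ∫⁻ ω, ∫⁻ ρ, ‖(G : p.Om × ℝ × ℝ → p.Fb) (ω, ρ)‖ₑ ^ 2 * F (ω, ρ) ∂(p.fib ω).nu ∂p.m := by
  have hw : Measurable fun x : p.Om × ℝ × ℝ => ‖(G : p.Om × ℝ × ℝ → p.Fb) x‖ₑ ^ 2 := (Lp.stronglyMeasurable _).enorm.pow_const 2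
  have e : chSmMu p G = p.rw.withDensity fun x => ‖(G : p.Om × ℝ × ℝ → p.Fb) x‖ₑ ^ 2 := by
    unfold chSmMu
    congr 1
    funext x
    rw [ENNReal.ofReal_pow (norm_nonneg _), ofReal_norm]
  rw [e, lintegral_withDensity_eq_lintegral_mul _ hw hF, hy_rw_lint p hp _ (hw.mul hF)]
  rfl

/-- **domination in one variable** -/
theorem ch_sm_dom (p : ChyPar) (hp : p.Ok) (T : ℝ) (k : ℕ) (F G : Lp p.Fb 2 p.rw)
    (hFG : ∀ᵐ x ∂p.rw, ‖(F : p.Om × ℝ × ℝ → p.Fb) x‖ₑ ≤ ‖(G : p.Om × ℝ × ℝ → p.Fb) x‖ₑ)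
    (A Φ : p.Om × ℝ × ℝ → ℝ≥0∞) (hA : Measurable A) (hΦ : Measurable Φ)
    (hd : ∀ ω ρ e, A (ω, ρ + e) * chSmG (p.fib ω) k e ≤ 3 * (Φ (ω, ρ) * chSmW (p.fib ω) k e)) :
    ∫⁻ x, A x ∂(chSmMu p (p.an T k (ContinuousLinearMap.adjoint (p.an T k) F))) ≤ 48 * ∫⁻ x, Φ x ∂(chSmMu p G) := by
  rw [ch_sm_mu p hp _ A hA, ch_sm_mu p hp _ Φ hΦ, ← lintegral_const_mul' _ _ (by norm_num)]
  refine lintegral_mono_ae ?_
  filter_upwards [hy_i3_fib_ae p hp (ch_sm_dens p hp T k F G hFG)] with ω hω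
  have hw : Measurable fun ρ : ℝ × ℝ => ‖(G : p.Om × ℝ × ℝ → p.Fb) (ω, ρ)‖ₑ ^ 2 :=
    ((Lp.stronglyMeasurable _).enorm.pow_const 2).comp measurable_prodMk_left
  refine le_trans (lintegral_mono_ae ?_) (ch_sm_fib (p.fib ω) (hy_fib_ok p hp ω) k _ (fun ρ => A (ω, ρ)) (fun ρ => Φ (ω, ρ)) hw
    (hΦ.comp measurable_prodMk_left) (hd ω))
  filter_upwards [hω] with ρ' hρ'
  gcongr

/-- **the pair functional of any kernel** -/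
theorem ch_sm_pf (p : ChyPar) (hp : p.Ok) (T : ℝ) (k : ℕ) (F G : Lp p.Fb 2 p.rw)
    (hFG : ∀ᵐ x ∂p.rw, ‖(F : p.Om × ℝ × ℝ → p.Fb) x‖ₑ ≤ ‖(G : p.Om × ℝ × ℝ → p.Fb) x‖ₑ)
    (K : p.Om × ℝ × ℝ → p.Om × ℝ × ℝ → ℝ≥0∞) (hK : Measurable (Function.uncurry K))
    (h1 : ∀ ω ρ e y, K (ω, ρ + e) y * chSmG (p.fib ω) k e ≤ 3 * (K (ω, ρ) y * chSmW (p.fib ω) k e))
    (h2 : ∀ x ω ρ e, K x (ω, ρ + e) * chSmG (p.fib ω) k e ≤ 3 * (K x (ω, ρ) * chSmW (p.fib ω) k e)) :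
    ∫⁻ x, ∫⁻ y, K x y ∂(chSmMu p (p.an T k (ContinuousLinearMap.adjoint (p.an T k) F))) ∂(chSmMu p (p.an T k (ContinuousLinearMap.adjoint (p.an T k) F)))
      ≤ 48 * (48 * ∫⁻ x, ∫⁻ y, K x y ∂(chSmMu p G) ∂(chSmMu p G)) := by
  have := ch_sm_mu_fin p G
  have hKx : ∀ x, Measurable (K x) := fun x => hK.comp measurable_prodMk_left
  have hΨ : Measurable fun x => ∫⁻ y, K x y ∂(chSmMu p G) := hK.lintegral_prod_right'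
  obtain ⟨μ', hμ'⟩ : ∃ μ', μ' = chSmMu p (p.an T k (ContinuousLinearMap.adjoint (p.an T k) F)) := ⟨_, rfl⟩
  rw [← hμ']
  calc ∫⁻ x, ∫⁻ y, K x y ∂μ' ∂μ' ≤ ∫⁻ x, 48 * ∫⁻ y, K x y ∂(chSmMu p G) ∂μ' :=
        lintegral_mono fun x => by
          rw [hμ']
          exact ch_sm_dom p hp T k F G hFG (K x) (K x) (hKx x) (hKx x) (h2 x)
    _ = 48 * ∫⁻ x, ∫⁻ y, K x y ∂(chSmMu p G) ∂μ' := lintegral_const_mul' _ _ (by norm_num)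
    _ ≤ 48 * (48 * ∫⁻ x, ∫⁻ y, K x y ∂(chSmMu p G) ∂(chSmMu p G)) := by
        gcongr 48 * ?_
        rw [hμ']
        refine ch_sm_dom p hp T k F G hFG _ _ hΨ hΨ fun ω ρ e => ?_
        have hW : chSmW (p.fib ω) k e ≠ ⊤ := ENNReal.ofReal_ne_top
        calc (∫⁻ y, K (ω, ρ + e) y ∂(chSmMu p G)) * chSmG (p.fib ω) k e
            ≤ ∫⁻ y, K (ω, ρ + e) y * chSmG (p.fib ω) k e ∂(chSmMu p G) := lintegral_mul_const_le _ _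
          _ ≤ ∫⁻ y, 3 * (K (ω, ρ) y * chSmW (p.fib ω) k e) ∂(chSmMu p G) := lintegral_mono fun y => h1 ω ρ e y
          _ = 3 * ((∫⁻ y, K (ω, ρ) y ∂(chSmMu p G)) * chSmW (p.fib ω) k e) := by
              rw [lintegral_const_mul' _ _ (by norm_num), lintegral_mul_const' _ _ hW]

/-! ### the kernel of the pair functional -/

theorem ch_sm_enn {A B A' B' : ℝ} (hA : 0 ≤ A) (hA' : 0 ≤ A') (h : A * B ≤ 3 * (A' * B')) :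
    ENNReal.ofReal A * ENNReal.ofReal B ≤ 3 * (ENNReal.ofReal A' * ENNReal.ofReal B') := by
  rw [← ENNReal.ofReal_mul hA, ← ENNReal.ofReal_mul hA', show (3 : ℝ≥0∞) = ENNReal.ofReal 3 by norm_num, ← ENNReal.ofReal_mul (by norm_num)]
  exact ENNReal.ofReal_le_ofReal h

/-- **EXIT**: `ch_p_same` of `Chan/Pair.lean`, the kernel given by its formula -/
theorem ch_sm_same (η : ℝ) (p : ChyPar) (hp : p.Ok) (a b : p.Om → ℝ) (ha : Measurable a) (hb : Measurable b) (T dT : ℝ) (k c : ℕ)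
    (M : p.Om × ℝ × ℝ → ℝ) (hM : IsMask M) (u : (p.sys η).Kc) (r0 : ℝ) (hr : p.dl k ≤ r0) (K : p.Om × ℝ × ℝ → p.Om × ℝ × ℝ → ℝ≥0∞)
    (hK : ∀ x x', K x x' = ENNReal.ofReal (1 / Real.sqrt (r0 ^ 2 + ((x.2.2 - a x.1) - (x'.2.2 - a x'.1)) ^ 2
      + (((x.2.1 - b x.1 - dT * a x.1) - (x'.2.1 - b x'.1 - dT * a x'.1)) / (2 : ℝ)⁻¹ ^ k) ^ 2))) :
    ∫⁻ x, ∫⁻ x', K x x' ∂((p.sys η).mu T k 0 ((p.sys η).tz T k c M u)) ∂((p.sys η).mu T k 0 ((p.sys η).tz T k c M u))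
      ≤ ENNReal.ofReal 2304 * ∫⁻ x, ∫⁻ x', K x x' ∂((p.sys η).mu T k 0 u) ∂((p.sys η).mu T k 0 u) := by
  have hl : (0 : ℝ) < (2 : ℝ)⁻¹ ^ k := by positivity
  have hKm : Measurable (Function.uncurry K) := by
    have e : Function.uncurry K = fun z : (p.Om × ℝ × ℝ) × (p.Om × ℝ × ℝ) => ENNReal.ofReal (1 / Real.sqrt (r0 ^ 2 + ((z.1.2.2 - a z.1.1) - (z.2.2.2 - a z.2.1)) ^ 2
        + (((z.1.2.1 - b z.1.1 - dT * a z.1.1) - (z.2.2.1 - b z.2.1 - dT * a z.2.1)) / (2 : ℝ)⁻¹ ^ k) ^ 2)) := by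
      funext z
      exact hK z.1 z.2
    rw [e]
    have a1 : Measurable fun z : (p.Om × ℝ × ℝ) × (p.Om × ℝ × ℝ) => a z.1.1 := ha.comp (measurable_fst.comp measurable_fst)
    have a2 : Measurable fun z : (p.Om × ℝ × ℝ) × (p.Om × ℝ × ℝ) => a z.2.1 := ha.comp (measurable_fst.comp measurable_snd)
    have b1 : Measurable fun z : (p.Om × ℝ × ℝ) × (p.Om × ℝ × ℝ) => b z.1.1 := hb.comp (measurable_fst.comp measurable_fst)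
    have b2 : Measurable fun z : (p.Om × ℝ × ℝ) × (p.Om × ℝ × ℝ) => b z.2.1 := hb.comp (measurable_fst.comp measurable_snd)
    fun_prop
  have h1 : ∀ ω ρ e y, K (ω, ρ + e) y * chSmG (p.fib ω) k e ≤ 3 * (K (ω, ρ) y * chSmW (p.fib ω) k e) := by
    intro ω ρ e y
    obtain ⟨-, hd, -, hq, -, -⟩ := hy_qd (p.fib ω) (hy_fib_ok p hp ω) k
    have key := ch_sm_re r0 ((p.fib ω).d k) ((p.fib ω).q k) ((2 : ℝ)⁻¹ ^ k) (p.fib ω).sg ((ρ.2 - a ω) - (y.2.2 - a y.1))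
      ((ρ.1 - b ω - dT * a ω) - (y.2.1 - b y.1 - dT * a y.1)) e.2 e.1 hd hr hl hq (hy_fib_ok p hp ω).sg_lo
    rw [hK, hK]
    unfold chSmG chSmW
    refine ch_sm_enn (by positivity) (by positivity) ?_
    have e1 : ((ω, ρ + e) : p.Om × ℝ × ℝ).2.2 - a ((ω, ρ + e) : p.Om × ℝ × ℝ).1 - (y.2.2 - a y.1) = (ρ.2 - a ω) - (y.2.2 - a y.1) + e.2 := by
      simp only [Prod.snd_add]
      ring
    have e2 : ((ω, ρ + e) : p.Om × ℝ × ℝ).2.1 - b ((ω, ρ + e) : p.Om × ℝ × ℝ).1 - dT * a ((ω, ρ + e) : p.Om × ℝ × ℝ).1 - (y.2.1 - b y.1 - dT * a y.1)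
        = (ρ.1 - b ω - dT * a ω) - (y.2.1 - b y.1 - dT * a y.1) + e.1 := by
      simp only [Prod.fst_add]
      ring
    rw [e1, e2]
    exact key
  have h2 : ∀ x ω ρ e, K x (ω, ρ + e) * chSmG (p.fib ω) k e ≤ 3 * (K x (ω, ρ) * chSmW (p.fib ω) k e) := by
    intro x ω ρ e
    obtain ⟨-, hd, -, hq, -, -⟩ := hy_qd (p.fib ω) (hy_fib_ok p hp ω) k
    have key := ch_sm_re r0 ((p.fib ω).d k) ((p.fib ω).q k) ((2 : ℝ)⁻¹ ^ k) (p.fib ω).sg ((x.2.2 - a x.1) - (ρ.2 - a ω))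
      ((x.2.1 - b x.1 - dT * a x.1) - (ρ.1 - b ω - dT * a ω)) (-e.2) (-e.1) hd hr hl hq (hy_fib_ok p hp ω).sg_lo
    rw [neg_sq, neg_sq] at key
    rw [hK, hK]
    unfold chSmG chSmW
    refine ch_sm_enn (by positivity) (by positivity) ?_
    have e1 : x.2.2 - a x.1 - (((ω, ρ + e) : p.Om × ℝ × ℝ).2.2 - a ((ω, ρ + e) : p.Om × ℝ × ℝ).1) = (x.2.2 - a x.1) - (ρ.2 - a ω) + -e.2 := by
      simp only [Prod.snd_add]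
      ring
    have e2 : x.2.1 - b x.1 - dT * a x.1 - (((ω, ρ + e) : p.Om × ℝ × ℝ).2.1 - b ((ω, ρ + e) : p.Om × ℝ × ℝ).1 - dT * a ((ω, ρ + e) : p.Om × ℝ × ℝ).1)
        = (x.2.1 - b x.1 - dT * a x.1) - (ρ.1 - b ω - dT * a ω) + -e.1 := by
      simp only [Prod.fst_add]
      ring
    rw [e1, e2]
    exact key
  obtain ⟨G, hG⟩ : ∃ G : Lp p.Fb 2 p.rw, G = p.an T k u := ⟨_, rfl⟩
  obtain ⟨F, hF⟩ : ∃ F : Lp p.Fb 2 p.rw, F = (p.sys η).mulR k M G := ⟨_, rfl⟩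
  have hFG : ∀ᵐ x ∂p.rw, ‖(F : p.Om × ℝ × ℝ → p.Fb) x‖ₑ ≤ ‖(G : p.Om × ℝ × ℝ → p.Fb) x‖ₑ := by
    have h0 := hy_i3_mulR p η k hM G
    rw [← hF] at h0
    filter_upwards [h0] with x hx
    have hle : ‖((M x : ℝ) : ℂ)‖ₑ ≤ 1 := by
      rw [← ofReal_norm, Complex.norm_real, Real.norm_of_nonneg (hM.2 _).1]
      exact ENNReal.ofReal_le_one.2 (hM.2 _).2
    have e1 : ‖(F : p.Om × ℝ × ℝ → p.Fb) x‖ₑ = ‖((M x : ℝ) : ℂ) • (G : p.Om × ℝ × ℝ → p.Fb) x‖ₑ := congrArg (fun v : p.Fb => ‖v‖ₑ) hx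
    rw [e1, enorm_smul]
    exact mul_le_of_le_one_left zero_le hle
  have key := ch_sm_pf p hp T k F G hFG K hKm h1 h2
  have e48 : ENNReal.ofReal 2304 = 48 * 48 := by
    rw [show (2304 : ℝ) = 48 * 48 by norm_num, ENNReal.ofReal_mul (by norm_num)]
    norm_num
  rw [e48, mul_assoc]
  rw [hF, hG] at key
  exact key

end Claimed.Agent.R256
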