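import Claimed.Agent.R256.Chan.Defs
import Claimed.Agent.R256.Gen.BasC
import Claimed.Agent.R256.Hyb.Inst

/-!
# Row 256 (LS paper), CHAN, hybrid part : PAIR FUNCTIONALS, definitions          (chief helper130)

Moved out of `Chan/Pair.lean` (so that `Chan/Fk/Lift*.lean` can state the lift of `ch_fk_fib` without a cycle).
* `chDN, chDD`   relative velocity / position of two rows in the coordinates sheared by `(a ω, b ω + dT a ω)`      (`dT` = time after the reference time of the shear)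
* `chWin`        the window `1[|ΔN| ≤ f, |ΔD| ≤ l f]`
* `chKer`        the kernel `(r0² + ΔN² + (ΔD/l)²)^(-1/2)`
* `chPF μ W`     `∫∫ W dμ dμ`
-/

set_option autoImplicit false

namespace Claimed.Agent.R256

open MeasureTheory
open scoped ENNReal

/-- sheared relative velocity of two rows -/
def chDN (p : ChyPar) (a : p.Om → ℝ) (x x' : p.Om × ℝ × ℝ) : ℝ := (x.2.2 - a x.1) - (x'.2.2 - a x'.1)

/-- sheared relative position of two rows, `dT` after the reference time of the shear -/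
def chDD (p : ChyPar) (a b : p.Om → ℝ) (dT : ℝ) (x x' : p.Om × ℝ × ℝ) : ℝ :=
  (x.2.1 - b x.1 - dT * a x.1) - (x'.2.1 - b x'.1 - dT * a x'.1)

/-- the window -/
noncomputable def chWin (p : ChyPar) (a b : p.Om → ℝ) (dT f l : ℝ) (x x' : p.Om × ℝ × ℝ) : ℝ≥0∞ :=
  open Classical in if |chDN p a x x'| ≤ f ∧ |chDD p a b dT x x'| ≤ l * f then 1 else 0

/-- the kernel -/
noncomputable def chKer (p : ChyPar) (a b : p.Om → ℝ) (dT l r0 : ℝ) (x x' : p.Om × ℝ × ℝ) : ℝ≥0∞ :=
  ENNReal.ofReal (1 / Real.sqrt (r0 ^ 2 + chDN p a x x' ^ 2 + (chDD p a b dT x x' / l) ^ 2))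

/-- the pair functional -/
noncomputable def chPF {X : Type} [MeasurableSpace X] (μ : Measure X) (W : X → X → ℝ≥0∞) : ℝ≥0∞ := ∫⁻ x, ∫⁻ x', W x x' ∂μ ∂μ

theorem ch_pair_eqns_cite : True := by
  have := @chDN.eq_1
  have := @chDD.eq_1
  have := @chWin.eq_1
  have := @chKer.eq_1
  have := @chPF.eq_1
  trivial

theorem ch_p_win_meas (p : ChyPar) (a b : p.Om → ℝ) (ha : Measurable a) (hb : Measurable b) (dT f l : ℝ) :
    Measurable fun z : (p.Om × ℝ × ℝ) × (p.Om × ℝ × ℝ) => chWin p a b dT f l z.1 z.2 := by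
  classical
  unfold chWin
  refine Measurable.ite ?_ measurable_const measurable_const
  have key : ∀ (g : (p.Om × ℝ × ℝ) × (p.Om × ℝ × ℝ) → ℝ) (c : ℝ), Measurable g → MeasurableSet {x | |g x| ≤ c} := fun g c hg =>
    measurableSet_le (by fun_prop) measurable_const
  refine (key _ _ ?_).inter (key _ _ ?_)
  · unfold chDN
    fun_prop
  · unfold chDD
    fun_prop

theorem ch_p_ker_meas (p : ChyPar) (a b : p.Om → ℝ) (ha : Measurable a) (hb : Measurable b) (dT l r0 : ℝ) :
    Measurable fun z : (p.Om × ℝ × ℝ) × (p.Om × ℝ × ℝ) => chKer p a b dT l r0 z.1 z.2 := by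
  unfold chKer chDN chDD
  fun_prop

end Claimed.Agent.R256
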