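-- KEEP
import Claimed.Agent.R256.Chan.Defs
import Claimed.Agent.R256.Gen.BasC
import Claimed.Agent.R256.Hyb.Inst
import Claimed.Agent.R256.Chan.Same
import Claimed.Agent.R256.Chan.PairDefs
import Claimed.Agent.R256.Chan.Fk.Lift

/-!
# Row 256 (LS paper), CHAN, hybrid part : PAIR FUNCTIONALS, the EXIT of FK, the unit SCH          (chief helper130; prefix `ch_p_`)

Everything is said on the ENERGY MEASURES `μ[T,k,v] = (p.sys η).mu T k 0 v` (`Gen/BasB.lean`) of the rows `x = (ω, D, N)`, in `ℝ≥0∞`.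
* `chDN, chDD`   relative velocity / position of two rows in the coordinates sheared by `(a ω, b ω + dT a ω)`      (`dT` = time after the reference time of the shear)
* `chWin`        the window `1[|ΔN| ≤ f, |ΔD| ≤ l f]`
* `chKer`        the kernel `(r0² + ΔN² + (ΔD/l)²)^(-1/2)`
* `chPF μ W`     `∫∫ W dμ dμ`
## (FK)  `ch_fk`   OWNER helper132 (files `Chan/{Kl,Rel,Fk}*.lean`)      FREE KERNEL ESTIMATE from the cut `(k,i)` to the depth `k+n`:
   `Σ_j PF(μ[T_j, k+n, v], Win f) ≤ C (1 + log(f/d_(k+n))) f PF(μ[T, k, v], Ker r0)`,   `r0 = max(d_k, 2^-n f)`.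
## SCH (this file; every `sorry` except `ch_fk` is a leaf `L-256-CHAN-S*`, EDIT IN PLACE, statements frozen, defects -> helper130)
 S1 `ch_p_lab`    labels to pairs: `Σ_l m_l² ≤ Σ_j PF(μ_j, Win 2f)`          (`m_l² = ∫∫ θ_l θ_l`, `Σ_{l at j} θ_l(x) θ_l(x') ≤ Win`: both rows in the box of `l`, `θ ≤ 1`, `Σ θ ≤ 1`)
 S2 `ch_p_root`   `PF(μ[root], Win r) ≤ b0 r^(1-η) ‖w‖²`                     (inner integral = `ms` of a `chBox`; total mass `≤ ‖w‖²`)
 S3 `ch_p_dy`     `Ker r0 ≤ Σ_m 2/(2^m r0) Win(2^m r0)` pointwise, and integrated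
 S4 `ch_p_same`   same frame: `PF(μ[T,k, tz M u], Ker r0) ≤ C PF(μ[T,k,u], Ker r0)` for `r0 ≥ d_k`
                  (`hy_an_adj` with `T' = T`, `k' = k`; `hy_kr_same`: `|kr| = g(ρ'-ρ) = exp(-σ²ΔN²/4d² - ΔD²/4q²)`, `∫ g dν = 2`; `hy_cs`: density of `tz M u` `≤ 2 ∫ g(ρ'-ρ) M² |an u|² dν`;
                   `Ker(z+h) ≤ √2 (1 + |h|/r0) Ker(z)`, `|h|` in the units `(l, 1)`: Gaussian of width `≤ 2 d_k ≤ 2 r0`)
 S5 `ch_p_ser`    `Σ_m 2^(-mη) (1 + x + m)^K ≤ C (1+x)^K`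
 S6-S8 = `Chan/Sch.lean` (PROVED from `ch_fk` and S1-S5): one step, (SC) in PAIR FORM with `≤ K` masks by induction on `K`, `ch_sch_main` = `ch_sc_hyb` of the contract.
-/

set_option autoImplicit false

namespace Claimed.Agent.R256

open MeasureTheory
open scoped ENNReal

/-! ### (FK) : EXIT of helper132 -/

/-- **(FK) the free kernel estimate.**   `T0` = reference time of the shear `(a, b)`. -/
theorem ch_fk : ∃ C : ℝ, 0 < C ∧ ∀ (η : ℝ) (p : ChyPar), p.Ok → ∀ (a b : p.Om → ℝ), Measurable a → Measurable b →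
    ∀ (T0 : ℝ) (k i n : ℕ) (v : (p.sys η).Kc) (f : ℝ), p.dl (k + n) ≤ f →
      ∑ j ∈ ivs k i (k + n), chPF ((p.sys η).mu (tmL (k + n) j) (k + n) 0 v) (chWin p a b (tmL (k + n) j - T0) f ((2 : ℝ)⁻¹ ^ (k + n)))
        ≤ ENNReal.ofReal (C * (1 + Real.log (f / p.dl (k + n))) * f)
          * chPF ((p.sys η).mu (tmL k i) k 0 v) (chKer p a b (tmL k i - T0) ((2 : ℝ)⁻¹ ^ k) (max (p.dl k) (f / 2 ^ n))) :=
  ch_fk_sys

/-! ### SCH -/

theorem ch_p_en_lint {P : PkSys} (T : ℝ) (k : ℕ) (θ : P.X → ℝ) (hθ : IsMask θ) (v : P.Kc) :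
    ENNReal.ofReal (P.en T k 0 θ v) = ∫⁻ x, ENNReal.ofReal (θ x) ∂(P.mu T k 0 v) := by
  have hd : Measurable fun x => ENNReal.ofReal (‖(P.An T k 0 v : P.X → P.Fb) x‖ ^ 2) :=
    ((Lp.stronglyMeasurable (P.An T k 0 v)).norm.measurable.pow_const 2).ennreal_ofReal
  unfold PkSys.en PkSys.mu
  rw [ofReal_integral_eq_lintegral_ofReal (gn_en_integrable T k 0 hθ v) (ae_of_all _ fun x => mul_nonneg (hθ.2 x).1 (by positivity)),
    lintegral_withDensity_eq_lintegral_mul _ hd hθ.1.ennreal_ofReal]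
  refine lintegral_congr fun x => ?_
  rw [ENNReal.ofReal_mul (hθ.2 x).1, mul_comm]
  rfl

theorem ch_p_sq_lint {X : Type} [MeasurableSpace X] (μ : Measure X) (g : X → ℝ≥0∞) (hg : Measurable g) :
    (∫⁻ x, g x ∂μ) ^ 2 = ∫⁻ x, ∫⁻ x', g x * g x' ∂μ ∂μ := by
  rw [sq, ← lintegral_mul_const _ hg]
  refine lintegral_congr fun x => ?_
  rw [lintegral_const_mul _ hg]

theorem ch_p_lab_pt (p : ChyPar) (a b : p.Om → ℝ) (dT f l0 : ℝ) (L : ℕ) (c : Fin L → Prop) [DecidablePred c] (nn cc : Fin L → ℝ)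
    (θ : Fin L → p.Om × ℝ × ℝ → ℝ) (h0 : ∀ l x, 0 ≤ θ l x)
    (hin : ∀ l x, c l → θ l x ≠ 0 → x ∈ chBox p a (fun ω => b ω + dT * a ω) (nn l) (cc l) f l0)
    (hsum : ∀ x, ∑ l, (if c l then θ l x else 0) ≤ 1) (x x' : p.Om × ℝ × ℝ) :
    ∑ l, (if c l then ENNReal.ofReal (θ l x) * ENNReal.ofReal (θ l x') else 0) ≤ chWin p a b dT (2 * f) l0 x x' := by
  classical
  have hle1 : ∀ l y, c l → θ l y ≤ 1 := by
    intro l y hl
    refine le_trans ?_ (hsum y)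
    have := Finset.single_le_sum (f := fun l => if c l then θ l y else 0) (fun i _ => by split_ifs; exacts [h0 i y, le_rfl]) (Finset.mem_univ l)
    simpa [hl] using this
  by_cases hW : |chDN p a x x'| ≤ 2 * f ∧ |chDD p a b dT x x'| ≤ l0 * (2 * f)
  · have : chWin p a b dT (2 * f) l0 x x' = 1 := by unfold chWin; rw [if_pos hW]
    rw [this]
    calc ∑ l, (if c l then ENNReal.ofReal (θ l x) * ENNReal.ofReal (θ l x') else 0)
        ≤ ∑ l, ENNReal.ofReal (if c l then θ l x else 0) := by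
          refine Finset.sum_le_sum fun l _ => ?_
          split_ifs with hl
          · calc ENNReal.ofReal (θ l x) * ENNReal.ofReal (θ l x') ≤ ENNReal.ofReal (θ l x) * 1 := by
                  gcongr
                  exact ENNReal.ofReal_le_one.2 (hle1 l x' hl)
              _ = ENNReal.ofReal (θ l x) := mul_one _
          · simp
      _ = ENNReal.ofReal (∑ l, (if c l then θ l x else 0)) := by
          rw [ENNReal.ofReal_sum_of_nonneg]
          intro l _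
          split_ifs
          exacts [h0 l x, le_rfl]
      _ ≤ 1 := ENNReal.ofReal_le_one.2 (hsum x)
  · refine le_trans (le_of_eq ?_) zero_le
    refine Finset.sum_eq_zero fun l _ => ?_
    split_ifs with hl
    · by_contra hne
      have h1 : θ l x ≠ 0 := by
        intro h; apply hne; rw [h]; simp
      have h2 : θ l x' ≠ 0 := by
        intro h; apply hne; rw [h]; simp
      obtain ⟨a1, a2⟩ := hin l x hl h1
      obtain ⟨b1, b2⟩ := hin l x' hl h2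
      apply hW
      unfold chDN chDD
      rw [abs_le] at a1 a2 b1 b2 ⊢
      rw [abs_le]
      refine ⟨⟨by linarith, by linarith⟩, by linarith, by linarith⟩
    · rfl

theorem ch_p_lab_dbl {X : Type} [MeasurableSpace X] (μ : Measure X) (L : ℕ) (c : Fin L → Prop) [DecidablePred c] (g : Fin L → X → ℝ≥0∞)
    (hg : ∀ l, Measurable (g l)) :
    ∑ l, (if c l then (∫⁻ x, g l x ∂μ) ^ 2 else 0) = ∫⁻ x, ∫⁻ x', ∑ l, (if c l then g l x * g l x' else 0) ∂μ ∂μ := by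
  have h1 : ∀ x, ∫⁻ x', ∑ l, (if c l then g l x * g l x' else 0) ∂μ = ∑ l, (if c l then g l x * ∫⁻ x', g l x' ∂μ else 0) := by
    intro x
    rw [lintegral_finsetSum]
    · refine Finset.sum_congr rfl fun l _ => ?_
      split_ifs
      · rw [lintegral_const_mul _ (hg l)]
      · simp
    · intro l _
      split_ifs
      · exact (hg l).const_mul _
      · exact measurable_const
  simp only [h1]
  rw [lintegral_finsetSum]
  · refine Finset.sum_congr rfl fun l _ => ?_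
    split_ifs
    · rw [lintegral_mul_const _ (hg l), sq]
    · simp
  · intro l _
    split_ifs
    · exact (hg l).mul_const _
    · exact measurable_const

theorem ch_p_lab_aux (p : ChyPar) (a b : p.Om → ℝ) (T0 : ℝ) (tm : ℕ → ℝ) (f l0 : ℝ) (J : Finset ℕ) (μ : ℕ → Measure (p.Om × ℝ × ℝ))
    (L : ℕ) (iv : Fin L → ℕ) (nn cc : Fin L → ℝ) (θ : Fin L → p.Om × ℝ × ℝ → ℝ) (hJ : ∀ l, iv l ∈ J) (hm : ∀ l, Measurable (θ l))
    (h0 : ∀ l x, 0 ≤ θ l x)
    (hin : ∀ l x, θ l x ≠ 0 → x ∈ chBox p a (fun ω => b ω + (tm (iv l) - T0) * a ω) (nn l) (cc l) f l0)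
    (hsum : ∀ i x, ∑ l, (if iv l = i then θ l x else 0) ≤ 1) :
    ∑ l, (∫⁻ x, ENNReal.ofReal (θ l x) ∂(μ (iv l))) ^ 2 ≤ ∑ j ∈ J, chPF (μ j) (chWin p a b (tm j - T0) (2 * f) l0) := by
  have hg : ∀ l, Measurable fun x => ENNReal.ofReal (θ l x) := fun l => (hm l).ennreal_ofReal
  calc ∑ l, (∫⁻ x, ENNReal.ofReal (θ l x) ∂(μ (iv l))) ^ 2
      = ∑ l, ∑ j ∈ J, (if iv l = j then (∫⁻ x, ENNReal.ofReal (θ l x) ∂(μ j)) ^ 2 else 0) := by
        refine Finset.sum_congr rfl fun l _ => ?_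
        rw [Finset.sum_ite_eq J (iv l) (fun j => (∫⁻ x, ENNReal.ofReal (θ l x) ∂(μ j)) ^ 2), if_pos (hJ l)]
    _ = ∑ j ∈ J, ∑ l, (if iv l = j then (∫⁻ x, ENNReal.ofReal (θ l x) ∂(μ j)) ^ 2 else 0) := Finset.sum_comm
    _ ≤ ∑ j ∈ J, chPF (μ j) (chWin p a b (tm j - T0) (2 * f) l0) := by
        refine Finset.sum_le_sum fun j _ => ?_
        rw [ch_p_lab_dbl (μ j) L (fun l => iv l = j) (fun l x => ENNReal.ofReal (θ l x)) hg]
        unfold chPF
        refine lintegral_mono fun x => lintegral_mono fun x' => ?_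
        refine ch_p_lab_pt p a b (tm j - T0) f l0 L (fun l => iv l = j) nn cc θ h0 ?_ (hsum j) x x'
        intro l y hl hy
        have := hin l y hy
        rw [hl] at this
        exact this

/-- S1 : labels to pairs -/
theorem ch_p_lab (η : ℝ) (p : ChyPar) (hp : p.Ok) (a b : p.Om → ℝ) (ha : Measurable a) (hb : Measurable b) (T0 : ℝ) (k0 i0 n : ℕ)
    (u : ℕ → (p.sys η).Kc) (f : ℝ) (hf : 0 < f) (L : ℕ) (iv : Fin L → ℕ) (nn cc : Fin L → ℝ) (θ : Fin L → p.Om × ℝ × ℝ → ℝ)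
    (hiv : ∀ l, ancI (k0 + n) k0 (iv l) = i0) (hm : ∀ l, Measurable (θ l)) (h0 : ∀ l x, 0 ≤ θ l x)
    (hin : ∀ l x, θ l x ≠ 0 → x ∈ chBox p a (fun ω => b ω + (tmL (k0 + n) (iv l) - T0) * a ω) (nn l) (cc l) f ((2 : ℝ)⁻¹ ^ (k0 + n)))
    (hsum : ∀ i x, ∑ l, (if iv l = i then θ l x else 0) ≤ 1) :
    ENNReal.ofReal (∑ l, ((p.sys η).en (tmL (k0 + n) (iv l)) (k0 + n) 0 (θ l) (u (iv l))) ^ 2)
      ≤ ∑ j ∈ ivs k0 i0 (k0 + n), chPF ((p.sys η).mu (tmL (k0 + n) j) (k0 + n) 0 (u j))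
          (chWin p a b (tmL (k0 + n) j - T0) (2 * f) ((2 : ℝ)⁻¹ ^ (k0 + n))) := by
  have hmask : ∀ l, IsMask (θ l) := by
    intro l
    refine ⟨hm l, fun x => ⟨h0 l x, ?_⟩⟩
    refine le_trans ?_ (hsum (iv l) x)
    have := Finset.single_le_sum (f := fun l' => if iv l' = iv l then θ l' x else 0)
      (fun i _ => by split_ifs; exacts [h0 i x, le_rfl]) (Finset.mem_univ l)
    simpa using this
  have key := ch_p_lab_aux p a b T0 (fun j => tmL (k0 + n) j) f ((2 : ℝ)⁻¹ ^ (k0 + n)) (ivs k0 i0 (k0 + n))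
    (fun j => (p.sys η).mu (tmL (k0 + n) j) (k0 + n) 0 (u j)) L iv nn cc θ (fun l => (gn_mem_ivs _ _ _ _).2 (hiv l)) hm h0 hin hsum
  refine le_trans (le_of_eq ?_) key
  rw [ENNReal.ofReal_sum_of_nonneg (fun l _ => by positivity)]
  refine Finset.sum_congr rfl fun l _ => ?_
  have e1 : 0 ≤ (p.sys η).en (tmL (k0 + n) (iv l)) (k0 + n) 0 (θ l) (u (iv l)) := gn_en_nonneg (P := p.sys η) _ _ _ (h0 l) _
  refine (ENNReal.ofReal_pow e1 2).trans ?_
  exact congrArg (fun z => z ^ 2) (ch_p_en_lint (P := p.sys η) _ _ (θ l) (hmask l) _)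

theorem ch_p_box_meas (p : ChyPar) (a b : p.Om → ℝ) (ha : Measurable a) (hb : Measurable b) (n c f l : ℝ) :
    MeasurableSet (chBox p a b n c f l) := by
  have key : ∀ (g : p.Om × ℝ × ℝ → ℝ) (c : ℝ), Measurable g → MeasurableSet {x | |g x| ≤ c} := fun g c hg =>
    measurableSet_le (by fun_prop) measurable_const
  unfold chBox
  refine (key _ _ ?_).inter (key _ _ ?_)
  all_goals fun_prop

theorem ch_p_mu_set {P : PkSys} (T : ℝ) (k : ℕ) (w : P.Kc) (S : Set P.X) (hS : MeasurableSet S) :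
    P.mu T k 0 w S = ENNReal.ofReal (P.ms T k 0 S w) := by
  have := gn_mu_finite (P := P) T k 0 w
  rw [gn_ms_eq_mu (P := P) T k 0 hS w, measureReal_def, ENNReal.ofReal_toReal (measure_ne_top _ _)]

theorem ch_p_mu_univ (η : ℝ) (p : ChyPar) (hp : p.Ok) (T : ℝ) (k : ℕ) (w : (p.sys η).Kc) :
    (p.sys η).mu T k 0 w Set.univ = ENNReal.ofReal (‖w‖ ^ 2) := by
  refine (ch_p_mu_set (P := p.sys η) T k w _ MeasurableSet.univ).trans ?_
  congr 1
  unfold PkSys.ms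
  rw [Set.indicator_univ, gn_en_one]
  congr 1
  exact hy_an_norm p hp T k w

theorem ch_p_win_eq (p : ChyPar) (a b : p.Om → ℝ) (dT f l : ℝ) (x : p.Om × ℝ × ℝ) :
    (fun x' => chWin p a b dT f l x x')
      = (chBox p a (fun ω => b ω + dT * a ω) (x.2.2 - a x.1) (x.2.1 - b x.1 - dT * a x.1) f l).indicator fun _ => 1 := by
  funext x'
  classical
  unfold chWin chBox chDN chDD
  rw [Set.indicator_apply]
  refine if_congr ?_ rfl rfl
  simp only [Set.mem_ofPred_eq]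
  refine and_congr ?_ ?_
  · rw [abs_sub_comm]
  · rw [abs_sub_comm]
    refine iff_of_eq (congrArg (fun z => |z| ≤ l * f) ?_)
    ring

theorem ch_p_pf_le (p : ChyPar) (a b : p.Om → ℝ) (ha : Measurable a) (hb : Measurable b) (μ : Measure (p.Om × ℝ × ℝ)) (dT f l : ℝ) (c : ℝ≥0∞)
    (h : ∀ nn cc, μ (chBox p a (fun ω => b ω + dT * a ω) nn cc f l) ≤ c) : chPF μ (chWin p a b dT f l) ≤ c * μ Set.univ := by
  unfold chPF
  calc ∫⁻ x, ∫⁻ x', chWin p a b dT f l x x' ∂μ ∂μ ≤ ∫⁻ _x, c ∂μ := by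
        refine lintegral_mono fun x => ?_
        have hm := ch_p_box_meas p a (fun ω => b ω + dT * a ω) ha (by fun_prop) (x.2.2 - a x.1) (x.2.1 - b x.1 - dT * a x.1) f l
        rw [ch_p_win_eq p a b dT f l x, lintegral_indicator hm, setLIntegral_one]
        exact h _ _
    _ = c * μ Set.univ := lintegral_const c

/-- S2 : the root -/
theorem ch_p_root (η : ℝ) (p : ChyPar) (hp : p.Ok) (a b : p.Om → ℝ) (ha : Measurable a) (hb : Measurable b) (k0 i0 : ℕ) (w : (p.sys η).Kc) (b0 : ℝ)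
    (hreg : ∀ nn cc f : ℝ, p.dl k0 ≤ f → (p.sys η).ms (tmL k0 i0) k0 0 (chBox p a b nn cc f ((2 : ℝ)⁻¹ ^ k0)) w ≤ b0 * f ^ (1 - η))
    (r : ℝ) (hr : p.dl k0 ≤ r) :
    chPF ((p.sys η).mu (tmL k0 i0) k0 0 w) (chWin p a b 0 r ((2 : ℝ)⁻¹ ^ k0)) ≤ ENNReal.ofReal (b0 * r ^ (1 - η) * ‖w‖ ^ 2) := by
  have h0 : 0 ≤ b0 * r ^ (1 - η) := (gn_ms_nonneg _ _ _ _ _).trans (hreg 0 0 r hr)
  have hb' : (fun ω => b ω + 0 * a ω) = b := by funext ω; ring
  refine (ch_p_pf_le p a b ha hb ((p.sys η).mu (tmL k0 i0) k0 0 w) 0 r ((2 : ℝ)⁻¹ ^ k0) (ENNReal.ofReal (b0 * r ^ (1 - η))) ?_).trans ?_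
  · intro nn cc
    rw [hb']
    refine le_trans (le_of_eq (ch_p_mu_set (P := p.sys η) _ _ w _ (ch_p_box_meas p a b ha hb nn cc r _))) ?_
    exact ENNReal.ofReal_le_ofReal (hreg _ _ r hr)
  · rw [ENNReal.ofReal_mul h0]
    exact le_of_eq (congrArg _ (ch_p_mu_univ η p hp _ _ w))

/-- S3 : dyadic decomposition of the kernel, pointwise -/
theorem ch_p_dy0 (p : ChyPar) (a b : p.Om → ℝ) (dT l r0 : ℝ) (hl : 0 < l) (hr : 0 < r0) (x x' : p.Om × ℝ × ℝ) :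
    chKer p a b dT l r0 x x' ≤ ∑' m : ℕ, ENNReal.ofReal (2 / (2 ^ m * r0)) * chWin p a b dT (2 ^ m * r0) l x x' := by
  classical
  obtain ⟨u, hu⟩ : ∃ u : ℝ, u = chDN p a x x' := ⟨_, rfl⟩
  obtain ⟨w, hw⟩ : ∃ w : ℝ, w = chDD p a b dT x x' := ⟨_, rfl⟩
  have hex : ∃ m : ℕ, |u| ≤ 2 ^ m * r0 ∧ |w| / l ≤ 2 ^ m * r0 := by
    obtain ⟨m, hm⟩ := pow_unbounded_of_one_lt (max |u| (|w| / l) / r0) (by norm_num : (1 : ℝ) < 2)
    rw [div_lt_iff₀ hr] at hm
    exact ⟨m, (le_max_left _ _).trans hm.le, (le_max_right _ _).trans hm.le⟩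
  have hS : r0 ^ 2 + u ^ 2 + (w / l) ^ 2 > 0 := by positivity
  have hm := Nat.find_spec hex
  have hmin := fun k => Nat.find_min hex (m := k)
  obtain ⟨m, hmdef⟩ : ∃ m, m = Nat.find hex := ⟨_, rfl⟩
  rw [← hmdef] at hm hmin
  refine le_trans ?_ (ENNReal.le_tsum m)
  have hwin : chWin p a b dT (2 ^ m * r0) l x x' = 1 := by
    unfold chWin
    rw [if_pos]
    rw [← hu, ← hw]
    refine ⟨hm.1, ?_⟩
    have := hm.2
    rw [div_le_iff₀ hl] at this
    linarith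
  rw [hwin, mul_one]
  unfold chKer
  rw [← hu, ← hw]
  refine ENNReal.ofReal_le_ofReal ?_
  have hpos : (0 : ℝ) < 2 ^ m * r0 := by positivity
  rw [div_le_div_iff₀ (Real.sqrt_pos.2 hS) hpos, one_mul]
  -- `2^m r0 ≤ 2 sqrt(...)`
  rcases Nat.eq_zero_or_pos m with h0 | h0
  · rw [h0, pow_zero, one_mul]
    have : r0 ≤ Real.sqrt (r0 ^ 2 + u ^ 2 + (w / l) ^ 2) := by
      refine Real.le_sqrt_of_sq_le ?_
      nlinarith [sq_nonneg u, sq_nonneg (w / l)]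
    have h2 := Real.sqrt_nonneg (r0 ^ 2 + u ^ 2 + (w / l) ^ 2)
    linarith
  · have hn := hmin (m - 1) (by omega)
    have hpw : (2 : ℝ) ^ m = 2 * 2 ^ (m - 1) := by
      rw [← pow_succ']
      congr 1
      omega
    have hq : (0 : ℝ) < 2 ^ (m - 1) * r0 := by positivity
    have : 2 ^ (m - 1) * r0 ≤ Real.sqrt (r0 ^ 2 + u ^ 2 + (w / l) ^ 2) := by
      refine Real.le_sqrt_of_sq_le ?_
      by_cases h1 : |u| ≤ 2 ^ (m - 1) * r0
      · have h2 : 2 ^ (m - 1) * r0 < |w| / l := by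
          by_contra hc
          exact hn ⟨h1, not_lt.1 hc⟩
        have h3 : (2 ^ (m - 1) * r0) ^ 2 ≤ (|w| / l) ^ 2 := by gcongr
        have h4 : (|w| / l) ^ 2 = (w / l) ^ 2 := by rw [div_pow, sq_abs, div_pow]
        nlinarith [sq_nonneg u, sq_nonneg r0]
      · have h2 : 2 ^ (m - 1) * r0 < |u| := not_le.1 h1
        have h3 : (2 ^ (m - 1) * r0) ^ 2 ≤ |u| ^ 2 := by gcongr
        rw [sq_abs] at h3
        nlinarith [sq_nonneg (w / l), sq_nonneg r0]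
    rw [hpw]
    linarith

/-- S3 : dyadic decomposition of the kernel, integrated -/
theorem ch_p_dy (p : ChyPar) (a b : p.Om → ℝ) (ha : Measurable a) (hb : Measurable b) (μ : Measure (p.Om × ℝ × ℝ)) [SFinite μ] (dT l r0 : ℝ) (hl : 0 < l) (hr : 0 < r0) :
    chPF μ (chKer p a b dT l r0) ≤ ∑' m : ℕ, ENNReal.ofReal (2 / (2 ^ m * r0)) * chPF μ (chWin p a b dT (2 ^ m * r0) l) := by
  unfold chPF
  have hW := fun m : ℕ => ch_p_win_meas p a b ha hb dT (2 ^ m * r0) l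
  calc ∫⁻ x, ∫⁻ x', chKer p a b dT l r0 x x' ∂μ ∂μ
      ≤ ∫⁻ x, ∫⁻ x', ∑' m : ℕ, ENNReal.ofReal (2 / (2 ^ m * r0)) * chWin p a b dT (2 ^ m * r0) l x x' ∂μ ∂μ :=
        lintegral_mono fun x => lintegral_mono fun x' => ch_p_dy0 p a b dT l r0 hl hr x x'
    _ = ∫⁻ x, ∑' m : ℕ, ENNReal.ofReal (2 / (2 ^ m * r0)) * ∫⁻ x', chWin p a b dT (2 ^ m * r0) l x x' ∂μ ∂μ := by
        refine lintegral_congr fun x => ?_
        rw [lintegral_tsum]
        · refine tsum_congr fun m => ?_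
          rw [lintegral_const_mul]
          exact (hW m).comp measurable_prodMk_left
        · intro m
          exact (((hW m).comp measurable_prodMk_left).const_mul _).aemeasurable
    _ = ∑' m : ℕ, ENNReal.ofReal (2 / (2 ^ m * r0)) * ∫⁻ x, ∫⁻ x', chWin p a b dT (2 ^ m * r0) l x x' ∂μ ∂μ := by
        rw [lintegral_tsum]
        · refine tsum_congr fun m => ?_
          rw [lintegral_const_mul]
          exact (hW m).lintegral_prod_right'
        · intro m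
          exact ((hW m).lintegral_prod_right'.const_mul _).aemeasurable

/-- S4 : the same frame -/
theorem ch_p_same : ∃ C : ℝ, 0 < C ∧ ∀ (η : ℝ) (p : ChyPar), p.Ok → ∀ (a b : p.Om → ℝ), Measurable a → Measurable b →
    ∀ (T dT : ℝ) (k c : ℕ) (M : p.Om × ℝ × ℝ → ℝ), IsMask M → ∀ (u : (p.sys η).Kc) (r0 : ℝ), p.dl k ≤ r0 →
      chPF ((p.sys η).mu T k 0 ((p.sys η).tz T k c M u)) (chKer p a b dT ((2 : ℝ)⁻¹ ^ k) r0)
        ≤ ENNReal.ofReal C * chPF ((p.sys η).mu T k 0 u) (chKer p a b dT ((2 : ℝ)⁻¹ ^ k) r0) :=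
  ⟨2304, by norm_num, fun η p hp a b ha hb T dT k c M hM u r0 hr =>
    ch_sm_same η p hp a b ha hb T dT k c M hM u r0 hr (chKer p a b dT ((2 : ℝ)⁻¹ ^ k) r0) (fun _ _ => rfl)⟩

/-- S5 : the series -/
theorem ch_p_ser (η : ℝ) (hη : 0 < η) (K : ℕ) : ∃ C : ℝ, 0 < C ∧ ∀ x : ℝ, 0 ≤ x →
    Summable (fun m : ℕ => (2 : ℝ) ^ (-(η * m)) * (1 + x + m) ^ K) ∧ ∑' m : ℕ, (2 : ℝ) ^ (-(η * m)) * (1 + x + m) ^ K ≤ C * (1 + x) ^ K := by
  obtain ⟨r, hr⟩ : ∃ r : ℝ, r = (2 : ℝ) ^ (-η) := ⟨_, rfl⟩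
  have hr0 : 0 < r := by rw [hr]; positivity
  have hr1 : r < 1 := by rw [hr]; exact Real.rpow_lt_one_of_one_lt_of_neg (by norm_num) (by linarith)
  have hpow : ∀ m : ℕ, (2 : ℝ) ^ (-(η * m)) = r ^ m := by
    intro m
    rw [hr, ← Real.rpow_natCast, ← Real.rpow_mul (by norm_num)]
    congr 1
    ring
  have hs0 : Summable fun m : ℕ => ((m : ℝ)) ^ K * r ^ m :=
    summable_pow_mul_geometric_of_norm_lt_one K (by rw [Real.norm_eq_abs, abs_of_pos hr0]; exact hr1)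
  have hs1 : Summable fun m : ℕ => r ^ m * (1 + (m : ℝ)) ^ K := by
    have h1 := (summable_nat_add_iff 1).2 hs0
    have h2 := h1.mul_left r⁻¹
    refine h2.congr fun m => ?_
    push_cast
    rw [pow_succ]
    field_simp
    ring
  have hterm : ∀ (x : ℝ), 0 ≤ x → ∀ m : ℕ, (2 : ℝ) ^ (-(η * m)) * (1 + x + m) ^ K ≤ (r ^ m * (1 + (m : ℝ)) ^ K) * (1 + x) ^ K := by
    intro x hx m
    rw [hpow, mul_assoc, ← mul_pow]
    have : 1 + x + m ≤ (1 + (m : ℝ)) * (1 + x) := by nlinarith [Nat.cast_nonneg (α := ℝ) m]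
    gcongr
  refine ⟨∑' m : ℕ, r ^ m * (1 + (m : ℝ)) ^ K, ?_, ?_⟩
  · refine lt_of_lt_of_le ?_ (hs1.le_tsum 0 fun m _ => by positivity)
    simp
  · intro x hx
    have hsum : Summable (fun m : ℕ => (2 : ℝ) ^ (-(η * m)) * (1 + x + m) ^ K) :=
      Summable.of_nonneg_of_le (fun m => by positivity) (hterm x hx) (hs1.mul_right _)
    refine ⟨hsum, ?_⟩
    rw [← tsum_mul_right]
    exact hsum.tsum_le_tsum (hterm x hx) (hs1.mul_right _)

end Claimed.Agent.R256
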