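-- KEEP
import Claimed.Agent.R256.Chan.Pair
import Claimed.Agent.R256.Hyb.Contract

/-!
# Row 256 (LS paper), CHAN, unit SCH : the hybrid scalar channel with masks          (chief helper130; prefix `ch_s_`)

SORRY FREE GLUE: `ch_sch_main` (= `ch_sc_hyb` of the contract) from `ch_fk` (FK, helper132) and the leaves S1-S5 of `Chan/Pair.lean` (+ `hy_tight`, `hy_an_norm` of R256/Hyb).
* `ch_s_step`   FK + same frame + dyadic decomposition at the cut of one mask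
* `ch_s_sum`    the dyadic series
* `ch_s_tr`     TRANSFER through one mask and one free gap: a bound `Cc (1+log(r/d_k'))^e r^(1-η)` at all widths `r ≥ d_k'` of the cut `k'` gives `C Cc (1+log(f/d))^(e+1) f^(1-η) 2^(η n')` at the depth `k'+n'`
* `ch_s_free`   no mask (trivial mask at the root)
* `ch_s_scp`    (SC) in pair form, induction on the number of masks (the LAST stage is split off)
* `ch_sch_main` labels
-/

set_option autoImplicit false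

namespace Claimed.Agent.R256

open MeasureTheory
open scoped ENNReal

theorem ch_s_dl_pos (p : ChyPar) (hp : p.Ok) (k : ℕ) : 0 < p.dl k := by
  unfold ChyPar.dl
  have := hp.H_pos
  positivity

/-- S6 : **one step** -/
theorem ch_s_step : ∃ C : ℝ, 0 < C ∧ ∀ (η : ℝ) (p : ChyPar), p.Ok → ∀ (a b : p.Om → ℝ), Measurable a → Measurable b →
    ∀ (T0 : ℝ) (J : Finset ℕ) (k' n' c : ℕ) (M : ℕ → p.Om × ℝ × ℝ → ℝ), (∀ j, IsMask (M j)) → ∀ (u : ℕ → (p.sys η).Kc) (G : ℝ → ℝ≥0∞),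
      (∀ r : ℝ, p.dl k' ≤ r → ∑ j' ∈ J, chPF ((p.sys η).mu (tmL k' j') k' 0 (u j')) (chWin p a b (tmL k' j' - T0) r ((2 : ℝ)⁻¹ ^ k')) ≤ G r) →
      ∀ f : ℝ, p.dl (k' + n') ≤ f →
      ∑ j' ∈ J, ∑ j ∈ ivs k' j' (k' + n'), chPF ((p.sys η).mu (tmL (k' + n') j) (k' + n') 0 ((p.sys η).tz (tmL k' j') k' c (M j') (u j')))
          (chWin p a b (tmL (k' + n') j - T0) f ((2 : ℝ)⁻¹ ^ (k' + n')))
        ≤ ENNReal.ofReal (C * (1 + Real.log (f / p.dl (k' + n'))) * f)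
          * ∑' m : ℕ, ENNReal.ofReal (2 / (2 ^ m * max (p.dl k') (f / 2 ^ n'))) * G (2 ^ m * max (p.dl k') (f / 2 ^ n')) := by
  obtain ⟨C1, hC1, H1⟩ := ch_fk
  obtain ⟨C2, hC2, H2⟩ := ch_p_same
  refine ⟨C1 * C2, by positivity, ?_⟩
  intro η p hp a b ha hb T0 J k' n' c M hM u G hG f hf
  have hd' := ch_s_dl_pos p hp k'
  have hd := ch_s_dl_pos p hp (k' + n')
  have hf0 : 0 < f := lt_of_lt_of_le hd hf
  obtain ⟨r0, hr0⟩ : ∃ r0, r0 = max (p.dl k') (f / 2 ^ n') := ⟨_, rfl⟩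
  rw [← hr0]
  have hr0d : p.dl k' ≤ r0 := by rw [hr0]; exact le_max_left _ _
  have hr0p : 0 < r0 := lt_of_lt_of_le hd' hr0d
  have hlog : 0 ≤ Real.log (f / p.dl (k' + n')) := Real.log_nonneg ((one_le_div hd).mpr hf)
  have hl : (0 : ℝ) < (2 : ℝ)⁻¹ ^ k' := by positivity
  -- each j'
  have h1 : ∀ j' ∈ J, ∑ j ∈ ivs k' j' (k' + n'), chPF ((p.sys η).mu (tmL (k' + n') j) (k' + n') 0 ((p.sys η).tz (tmL k' j') k' c (M j') (u j')))
          (chWin p a b (tmL (k' + n') j - T0) f ((2 : ℝ)⁻¹ ^ (k' + n')))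
        ≤ ENNReal.ofReal (C1 * C2 * (1 + Real.log (f / p.dl (k' + n'))) * f)
          * ∑' m : ℕ, ENNReal.ofReal (2 / (2 ^ m * r0)) * chPF ((p.sys η).mu (tmL k' j') k' 0 (u j')) (chWin p a b (tmL k' j' - T0) (2 ^ m * r0) ((2 : ℝ)⁻¹ ^ k')) := by
    intro j' _
    have e1 := H1 η p hp a b ha hb T0 k' j' n' ((p.sys η).tz (tmL k' j') k' c (M j') (u j')) f hf
    rw [← hr0] at e1
    have e2 := H2 η p hp a b ha hb (tmL k' j') (tmL k' j' - T0) k' c (M j') (hM j') (u j') r0 hr0d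
    have hfin := gn_mu_finite (P := p.sys η) (tmL k' j') k' 0 (u j')
    have hsf : SFinite ((p.sys η).mu (tmL k' j') k' 0 (u j')) := inferInstance
    have e3 := @ch_p_dy p a b ha hb ((p.sys η).mu (tmL k' j') k' 0 (u j')) hsf (tmL k' j' - T0) ((2 : ℝ)⁻¹ ^ k') r0 hl hr0p
    calc _ ≤ _ := e1
      _ ≤ ENNReal.ofReal (C1 * (1 + Real.log (f / p.dl (k' + n'))) * f) * (ENNReal.ofReal C2 *
            ∑' m : ℕ, ENNReal.ofReal (2 / (2 ^ m * r0)) * chPF ((p.sys η).mu (tmL k' j') k' 0 (u j')) (chWin p a b (tmL k' j' - T0) (2 ^ m * r0) ((2 : ℝ)⁻¹ ^ k'))) := by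
          refine mul_le_mul_right (e2.trans ?_) _
          exact mul_le_mul_right e3 _
      _ = _ := by
          rw [← mul_assoc, ← ENNReal.ofReal_mul (by positivity)]
          congr 2
          ring
  refine (Finset.sum_le_sum h1).trans ?_
  rw [← Finset.mul_sum]
  gcongr
  rw [← Summable.tsum_finsetSum (fun _ _ => ENNReal.summable)]
  refine ENNReal.tsum_le_tsum fun m => ?_
  rw [← Finset.mul_sum]
  gcongr
  refine hG _ (hr0d.trans ?_)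
  have : (1 : ℝ) ≤ 2 ^ m := one_le_pow₀ (by norm_num)
  nlinarith

theorem ch_s_sum (η : ℝ) (hη : 0 < η) (e : ℕ) : ∃ C : ℝ, 0 < C ∧ ∀ d' r0 Cc : ℝ, 0 < d' → d' ≤ r0 → 0 ≤ Cc →
    ∑' m : ℕ, ENNReal.ofReal (2 / (2 ^ m * r0)) * ENNReal.ofReal (Cc * (1 + Real.log (2 ^ m * r0 / d')) ^ e * (2 ^ m * r0) ^ (1 - η))
      ≤ ENNReal.ofReal (C * Cc * (1 + Real.log (r0 / d')) ^ e * r0 ^ (-η)) := by
  obtain ⟨Cs, hCs, H⟩ := ch_p_ser η hη e
  refine ⟨2 * Cs, by positivity, ?_⟩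
  intro d' r0 Cc hd hr hCc
  have hr0 : 0 < r0 := lt_of_lt_of_le hd hr
  obtain ⟨x, hx⟩ : ∃ x, x = Real.log (r0 / d') := ⟨_, rfl⟩
  have hx0 : 0 ≤ x := by rw [hx]; exact Real.log_nonneg ((one_le_div hd).mpr hr)
  obtain ⟨hsum, hle⟩ := H x hx0
  rw [← hx]
  have hterm : ∀ m : ℕ, ENNReal.ofReal (2 / (2 ^ m * r0)) * ENNReal.ofReal (Cc * (1 + Real.log (2 ^ m * r0 / d')) ^ e * (2 ^ m * r0) ^ (1 - η))
      ≤ ENNReal.ofReal (2 * Cc * r0 ^ (-η) * ((2 : ℝ) ^ (-(η * m)) * (1 + x + m) ^ e)) := by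
    intro m
    have h2m : (0 : ℝ) < 2 ^ m := by positivity
    have hpos : 0 < 2 ^ m * r0 := by positivity
    rw [← ENNReal.ofReal_mul (by positivity)]
    apply ENNReal.ofReal_le_ofReal
    have hlog : Real.log (2 ^ m * r0 / d') = m * Real.log 2 + x := by
      rw [hx, mul_div_assoc, Real.log_mul (by positivity) (by positivity), Real.log_pow]
    have hl2 : Real.log 2 ≤ 1 := by
      have := Real.log_le_sub_one_of_pos (by norm_num : (0 : ℝ) < 2)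
      linarith
    have hl20 : 0 ≤ Real.log 2 := Real.log_nonneg (by norm_num)
    have hm0 : (0 : ℝ) ≤ m := Nat.cast_nonneg m
    have h1 : (1 + Real.log (2 ^ m * r0 / d')) ^ e ≤ (1 + x + m) ^ e := by
      apply pow_le_pow_left₀
      · rw [hlog]; positivity
      · rw [hlog]; nlinarith
    have h2 : 2 / (2 ^ m * r0) * (2 ^ m * r0) ^ (1 - η) = 2 * (r0 ^ (-η) * (2 : ℝ) ^ (-(η * m))) := by
      rw [Real.rpow_sub hpos, Real.rpow_one, Real.mul_rpow h2m.le hr0.le, Real.rpow_neg hr0.le, Real.rpow_neg (by norm_num)]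
      have : ((2 : ℝ) ^ m) ^ η = 2 ^ (η * m) := by
        rw [← Real.rpow_natCast, ← Real.rpow_mul (by norm_num), mul_comm]
      rw [this]
      have h3 : (0 : ℝ) < 2 ^ (η * m) := by positivity
      have h4 : 0 < r0 ^ η := by positivity
      field_simp
    calc 2 / (2 ^ m * r0) * (Cc * (1 + Real.log (2 ^ m * r0 / d')) ^ e * (2 ^ m * r0) ^ (1 - η))
        = (2 / (2 ^ m * r0) * (2 ^ m * r0) ^ (1 - η)) * Cc * (1 + Real.log (2 ^ m * r0 / d')) ^ e := by ring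
      _ ≤ (2 / (2 ^ m * r0) * (2 ^ m * r0) ^ (1 - η)) * Cc * (1 + x + m) ^ e := by
          apply mul_le_mul_of_nonneg_left h1
          positivity
      _ = _ := by rw [h2]; ring
  refine (ENNReal.tsum_le_tsum hterm).trans ?_
  have hnn : ∀ m : ℕ, 0 ≤ 2 * Cc * r0 ^ (-η) * ((2 : ℝ) ^ (-(η * m)) * (1 + x + m) ^ e) := fun m => by positivity
  rw [← ENNReal.ofReal_tsum_of_nonneg hnn (hsum.mul_left _)]
  apply ENNReal.ofReal_le_ofReal
  rw [tsum_mul_left]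
  calc 2 * Cc * r0 ^ (-η) * ∑' m : ℕ, (2 : ℝ) ^ (-(η * m)) * (1 + x + m) ^ e ≤ 2 * Cc * r0 ^ (-η) * (Cs * (1 + x) ^ e) := by
        apply mul_le_mul_of_nonneg_left hle
        positivity
    _ = _ := by ring

theorem ch_s_dl_add (p : ChyPar) (hp : p.Ok) (k n : ℕ) : p.dl (k + n) ≤ 2 ^ n * p.dl k := by
  unfold ChyPar.dl
  have hH := hp.H_pos
  have h1 : p.H * 2 ^ (k + n) = (p.H * 2 ^ k) * 2 ^ n := by rw [pow_add]; ring
  rw [h1, Real.sqrt_mul (by positivity), mul_comm]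
  apply mul_le_mul_of_nonneg_right _ (Real.sqrt_nonneg _)
  rw [Real.sqrt_le_left (by positivity)]
  have : (1 : ℝ) ≤ 2 ^ n := one_le_pow₀ (by norm_num)
  nlinarith

/-- **transfer through one mask and one free gap** -/
theorem ch_s_tr (η : ℝ) (hη0 : 0 < η) (e : ℕ) : ∃ C : ℝ, 0 < C ∧ ∀ (p : ChyPar), p.Ok → ∀ (a b : p.Om → ℝ), Measurable a → Measurable b →
    ∀ (T0 : ℝ) (J : Finset ℕ) (k' n' c : ℕ) (M : ℕ → p.Om × ℝ × ℝ → ℝ), (∀ j, IsMask (M j)) → ∀ (u : ℕ → (p.sys η).Kc) (Cc : ℝ), 0 ≤ Cc →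
      (∀ r : ℝ, p.dl k' ≤ r → ∑ j' ∈ J, chPF ((p.sys η).mu (tmL k' j') k' 0 (u j')) (chWin p a b (tmL k' j' - T0) r ((2 : ℝ)⁻¹ ^ k'))
          ≤ ENNReal.ofReal (Cc * (1 + Real.log (r / p.dl k')) ^ e * r ^ (1 - η))) →
      ∀ f : ℝ, p.dl (k' + n') ≤ f →
      ∑ j' ∈ J, ∑ j ∈ ivs k' j' (k' + n'), chPF ((p.sys η).mu (tmL (k' + n') j) (k' + n') 0 ((p.sys η).tz (tmL k' j') k' c (M j') (u j')))
          (chWin p a b (tmL (k' + n') j - T0) f ((2 : ℝ)⁻¹ ^ (k' + n')))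
        ≤ ENNReal.ofReal (C * Cc * (1 + Real.log (f / p.dl (k' + n'))) ^ (e + 1) * f ^ (1 - η) * 2 ^ (η * n')) := by
  obtain ⟨C1, hC1, H1⟩ := ch_s_step
  obtain ⟨C2, hC2, H2⟩ := ch_s_sum η hη0 e
  refine ⟨C1 * C2, by positivity, ?_⟩
  intro p hp a b ha hb T0 J k' n' c M hM u Cc hCc hG f hf
  have hd' := ch_s_dl_pos p hp k'
  have hd := ch_s_dl_pos p hp (k' + n')
  have hf0 : 0 < f := lt_of_lt_of_le hd hf
  have e1 := H1 η p hp a b ha hb T0 J k' n' c M hM u (fun r => ENNReal.ofReal (Cc * (1 + Real.log (r / p.dl k')) ^ e * r ^ (1 - η))) hG f hf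
  obtain ⟨r0, hr0⟩ : ∃ r0, r0 = max (p.dl k') (f / 2 ^ n') := ⟨_, rfl⟩
  rw [← hr0] at e1
  have hr0d : p.dl k' ≤ r0 := by rw [hr0]; exact le_max_left _ _
  have hr0f : f / 2 ^ n' ≤ r0 := by rw [hr0]; exact le_max_right _ _
  have hr0p : 0 < r0 := lt_of_lt_of_le hd' hr0d
  have e2 := H2 (p.dl k') r0 Cc hd' hr0d hCc
  obtain ⟨Λ, hΛ⟩ : ∃ Λ, Λ = 1 + Real.log (f / p.dl (k' + n')) := ⟨_, rfl⟩
  have hΛ1 : 1 ≤ Λ := by
    rw [hΛ]
    have := Real.log_nonneg ((one_le_div hd).mpr hf)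
    linarith
  rw [← hΛ] at e1 ⊢
  refine e1.trans ((mul_le_mul_right e2 _).trans ?_)
  rw [← ENNReal.ofReal_mul (by positivity)]
  apply ENNReal.ofReal_le_ofReal
  have h2n : (0 : ℝ) < 2 ^ n' := by positivity
  -- the logarithm
  have hlog : 1 + Real.log (r0 / p.dl k') ≤ Λ := by
    rw [hΛ]
    have : r0 / p.dl k' ≤ f / p.dl (k' + n') := by
      rw [div_le_div_iff₀ hd' hd, hr0, max_mul_of_nonneg _ _ hd.le]
      apply max_le
      · rw [mul_comm]; exact mul_le_mul_of_nonneg_right hf hd'.le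
      · rw [div_mul_eq_mul_div, div_le_iff₀ h2n, mul_assoc]
        apply mul_le_mul_of_nonneg_left _ hf0.le
        rw [mul_comm]
        exact ch_s_dl_add p hp k' n'
    have := Real.log_le_log (by positivity) this
    linarith
  have hlog0 : 0 ≤ 1 + Real.log (r0 / p.dl k') := by
    have := Real.log_nonneg ((one_le_div hd').mpr hr0d)
    linarith
  have hpw : (1 + Real.log (r0 / p.dl k')) ^ e ≤ Λ ^ e := pow_le_pow_left₀ hlog0 hlog e
  -- the power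
  have hrp : r0 ^ (-η) ≤ f ^ (-η) * 2 ^ (η * n') := by
    have h1 : r0 ^ (-η) ≤ (f / 2 ^ n') ^ (-η) := Real.rpow_le_rpow_of_nonpos (by positivity) hr0f (by linarith)
    refine h1.trans (le_of_eq ?_)
    rw [Real.div_rpow hf0.le h2n.le, Real.rpow_neg h2n.le, ← Real.rpow_natCast, ← Real.rpow_mul (by norm_num), mul_comm (n' : ℝ) η]
    have : (0 : ℝ) < 2 ^ (η * n') := by positivity
    field_simp
  have hff : f * f ^ (-η) = f ^ (1 - η) := by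
    rw [sub_eq_add_neg, Real.rpow_add hf0, Real.rpow_one]
  calc C1 * Λ * f * (C2 * Cc * (1 + Real.log (r0 / p.dl k')) ^ e * r0 ^ (-η))
      ≤ C1 * Λ * f * (C2 * Cc * Λ ^ e * (f ^ (-η) * 2 ^ (η * n'))) := by
        apply mul_le_mul_of_nonneg_left _ (by positivity)
        apply mul_le_mul _ hrp (by positivity) (by positivity)
        apply mul_le_mul_of_nonneg_left hpw (by positivity)
    _ = C1 * C2 * Cc * Λ ^ (e + 1) * (f * f ^ (-η)) * 2 ^ (η * n') := by ring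
    _ = _ := by rw [hff]

/-- the trivial mask -/
theorem ch_s_tz_one (η : ℝ) (p : ChyPar) (hp : p.Ok) (T : ℝ) (k c : ℕ) (w : (p.sys η).Kc) : (p.sys η).tz T k c (fun _ => 1) w = w := by
  unfold PkSys.tz
  rw [gn_mulR_one]
  exact gn_adj_an (hy_tight η p hp) T k c (fun T' k' => hy_an_norm p hp T' k' w)

/-- the intervals below a root, grouped by their ancestors at an intermediate depth -/
theorem ch_s_ivs_sum {β : Type} [AddCommMonoid β] (k0 i0 k' k'' : ℕ) (h1 : k0 ≤ k') (h2 : k' ≤ k'') (F : ℕ → β) :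
    ∑ j ∈ ivs k0 i0 k'', F j = ∑ j' ∈ ivs k0 i0 k', ∑ j ∈ ivs k' j' k'', F j := by
  classical
  rw [← Finset.sum_fiberwise_of_maps_to (s := ivs k0 i0 k'') (t := ivs k0 i0 k') (g := fun j => ancI k'' k' j)]
  · refine Finset.sum_congr rfl fun j' hj' => Finset.sum_congr ?_ fun _ _ => rfl
    ext j
    rw [Finset.mem_filter, gn_mem_ivs, gn_mem_ivs]
    constructor
    · exact fun h => h.2
    · intro h
      refine ⟨?_, h⟩
      rw [← gn_anc_anc h1 h2, h]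
      exact (gn_mem_ivs _ _ _ _).mp hj'
  · intro j hj
    rw [gn_mem_ivs] at hj ⊢
    rw [gn_anc_anc h1 h2]
    exact hj

theorem ch_s_b0_nn (η : ℝ) (p : ChyPar) (hp : p.Ok) (a b : p.Om → ℝ) (k0 i0 : ℕ) (w : (p.sys η).Kc) (b0 : ℝ)
    (hreg : ∀ nn cc f : ℝ, p.dl k0 ≤ f → (p.sys η).ms (tmL k0 i0) k0 0 (chBox p a b nn cc f ((2 : ℝ)⁻¹ ^ k0)) w ≤ b0 * f ^ (1 - η)) : 0 ≤ b0 := by
  have h1 := hreg 0 0 (p.dl k0) le_rfl
  have h2 := gn_ms_nonneg (P := p.sys η) (tmL k0 i0) k0 0 (chBox p a b 0 0 (p.dl k0) ((2 : ℝ)⁻¹ ^ k0)) w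
  have h3 : 0 < p.dl k0 ^ (1 - η) := Real.rpow_pos_of_pos (ch_s_dl_pos p hp k0) _
  by_contra hc
  push Not at hc
  nlinarith

/-- the free case -/
theorem ch_s_free (η : ℝ) (hη0 : 0 < η) :
    ∃ C : ℝ, 0 < C ∧ ∀ (p : ChyPar), p.Ok → ∀ (a b : p.Om → ℝ), Measurable a → Measurable b →
      ∀ (k0 i0 : ℕ) (w : (p.sys η).Kc) (b0 : ℝ),
      (∀ nn cc f : ℝ, p.dl k0 ≤ f → (p.sys η).ms (tmL k0 i0) k0 0 (chBox p a b nn cc f ((2 : ℝ)⁻¹ ^ k0)) w ≤ b0 * f ^ (1 - η)) →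
      ∀ (n : ℕ) (f : ℝ), p.dl (k0 + n) ≤ f →
        ∑ j ∈ ivs k0 i0 (k0 + n), chPF ((p.sys η).mu (tmL (k0 + n) j) (k0 + n) 0 w)
            (chWin p a b (tmL (k0 + n) j - tmL k0 i0) f ((2 : ℝ)⁻¹ ^ (k0 + n)))
          ≤ ENNReal.ofReal (C * (1 + Real.log (f / p.dl (k0 + n))) * f ^ (1 - η) * 2 ^ (η * n) * b0 * ‖w‖ ^ 2) := by
  obtain ⟨C, hC, H⟩ := ch_s_tr η hη0 0
  refine ⟨C, hC, ?_⟩
  intro p hp a b ha hb k0 i0 w b0 hreg n f hf
  have hb0 := ch_s_b0_nn η p hp a b k0 i0 w b0 hreg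
  have h := H p hp a b ha hb (tmL k0 i0) {i0} k0 n 0 (fun _ _ => 1) (fun _ => ⟨measurable_const, fun _ => ⟨zero_le_one, le_rfl⟩⟩) (fun _ => w)
    (b0 * ‖w‖ ^ 2) (by positivity) (by
      intro r hr
      rw [Finset.sum_singleton, sub_self]
      refine (ch_p_root η p hp a b ha hb k0 i0 w b0 hreg r hr).trans (le_of_eq ?_)
      congr 1
      ring) f hf
  rw [Finset.sum_singleton] at h
  have e : (p.sys η).tz (tmL k0 i0) k0 0 (fun _ : p.Om × ℝ × ℝ => (1 : ℝ)) w = w := ch_s_tz_one η p hp _ _ _ _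
  rw [e] at h
  refine h.trans (le_of_eq ?_)
  congr 1
  ring

/-- the state of a branch after the last stage -/
theorem ch_s_run_last {P : PkSys} (k'' j : ℕ) (st' : List (Stg P)) (σ : Stg P) (hk : σ.k ≤ k'') (hst : ∀ σ' ∈ st', σ'.k ≤ σ.k) (w : P.Kc) :
    Xp.run k'' j (st' ++ [σ]) w
      = P.tz (tmL σ.k (ancI k'' σ.k j)) σ.k σ.b (σ.M (ancI k'' σ.k j)) (Xp.run σ.k (ancI k'' σ.k j) st' w) := by
  rw [gn_run_append, gn_run_anc hk j st' hst]
  rfl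

/-- S7 : **(SC), hybrid, pair form, at most `K` masks** -/
theorem ch_s_scp (η : ℝ) (hη0 : 0 < η) (hη1 : η < 1) (K : ℕ) :
    ∃ C : ℝ, 0 < C ∧ ∀ (p : ChyPar), p.Ok → ∀ (a b : p.Om → ℝ), Measurable a → Measurable b →
      ∀ (k0 i0 : ℕ) (w : (p.sys η).Kc) (b0 : ℝ),
      (∀ nn cc f : ℝ, p.dl k0 ≤ f → (p.sys η).ms (tmL k0 i0) k0 0 (chBox p a b nn cc f ((2 : ℝ)⁻¹ ^ k0)) w ≤ b0 * f ^ (1 - η)) →
      ∀ (n bm : ℕ) (st : List (Stg (p.sys η))), StOk k0 (k0 + n) bm K st → ∀ f : ℝ, p.dl (k0 + n) ≤ f →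
        ∑ j ∈ ivs k0 i0 (k0 + n), chPF ((p.sys η).mu (tmL (k0 + n) j) (k0 + n) 0 (Xp.run (k0 + n) j st w))
            (chWin p a b (tmL (k0 + n) j - tmL k0 i0) f ((2 : ℝ)⁻¹ ^ (k0 + n)))
          ≤ ENNReal.ofReal (C * (1 + Real.log (f / p.dl (k0 + n))) ^ (K + 1) * f ^ (1 - η) * 2 ^ (η * n) * b0 * ‖w‖ ^ 2) := by
  obtain ⟨C0, hC0, H0⟩ := ch_s_free η hη0
  induction K with
  | zero =>
    refine ⟨C0, hC0, ?_⟩
    intro p hp a b ha hb k0 i0 w b0 hreg n bm st hst f hf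
    have hnil : st = [] := List.length_eq_zero_iff.mp (Nat.le_zero.mp hst.len)
    subst hnil
    refine (H0 p hp a b ha hb k0 i0 w b0 hreg n f hf).trans (le_of_eq ?_)
    rw [zero_add, pow_one]
  | succ K ih =>
    obtain ⟨CK, hCK, HK⟩ := ih
    obtain ⟨Ct, hCt, Ht⟩ := ch_s_tr η hη0 (K + 1)
    refine ⟨max C0 (Ct * CK), lt_max_of_lt_left hC0, ?_⟩
    intro p hp a b ha hb k0 i0 w b0 hreg n bm st hst f hf
    have hb0 := ch_s_b0_nn η p hp a b k0 i0 w b0 hreg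
    have hd := ch_s_dl_pos p hp (k0 + n)
    have hf0 : 0 < f := lt_of_lt_of_le hd hf
    obtain ⟨Λ, hΛ⟩ : ∃ Λ, Λ = 1 + Real.log (f / p.dl (k0 + n)) := ⟨_, rfl⟩
    have hΛ1 : 1 ≤ Λ := by
      rw [hΛ]
      have := Real.log_nonneg ((one_le_div hd).mpr hf)
      linarith
    rcases List.eq_nil_or_concat st with hnil | ⟨st', σ, hcat⟩
    · subst hnil
      refine (H0 p hp a b ha hb k0 i0 w b0 hreg n f hf).trans ?_
      apply ENNReal.ofReal_le_ofReal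
      rw [← hΛ]
      have h1 : Λ ≤ Λ ^ (K + 1 + 1) := le_self_pow₀ hΛ1 (by omega)
      have h2 : C0 * Λ ≤ max C0 (Ct * CK) * Λ ^ (K + 1 + 1) :=
        mul_le_mul (le_max_left _ _) h1 (by linarith) (le_trans hC0.le (le_max_left _ _))
      have h3 : 0 ≤ f ^ (1 - η) * 2 ^ (η * n) * b0 * ‖w‖ ^ 2 := by positivity
      calc C0 * Λ * f ^ (1 - η) * 2 ^ (η * n) * b0 * ‖w‖ ^ 2 = (C0 * Λ) * (f ^ (1 - η) * 2 ^ (η * n) * b0 * ‖w‖ ^ 2) := by ring
        _ ≤ (max C0 (Ct * CK) * Λ ^ (K + 1 + 1)) * (f ^ (1 - η) * 2 ^ (η * n) * b0 * ‖w‖ ^ 2) := mul_le_mul_of_nonneg_right h2 h3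
        _ = _ := by ring
    · rw [List.concat_eq_append] at hcat
      subst hcat
      have hσm : σ ∈ st' ++ [σ] := by simp
      obtain ⟨hσ0, hσ1⟩ := hst.dep σ hσm
      obtain ⟨n', hn'⟩ := Nat.exists_eq_add_of_le hσ0
      have hn'n : n' ≤ n := by omega
      obtain ⟨n'', rfl⟩ := Nat.exists_eq_add_of_le hn'n
      have hmono : ∀ σ' ∈ st', σ'.k ≤ σ.k := by
        have := hst.mono
        rw [List.pairwise_append] at this
        exact fun σ' h' => this.2.2 σ' h' σ (by simp)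
      have hst' : StOk k0 (k0 + n') bm K st' := by
        refine ⟨?_, ?_, ?_, ?_, ?_⟩
        · have := hst.len
          rw [List.length_append, List.length_singleton] at this
          omega
        · intro σ' h'
          exact ⟨(hst.dep σ' (List.mem_append_left _ h')).1, hn' ▸ hmono σ' h'⟩
        · have := hst.mono
          rw [List.pairwise_append] at this
          exact this.1
        · exact fun σ' h' => hst.gen σ' (List.mem_append_left _ h')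
        · exact fun σ' h' => hst.msk σ' (List.mem_append_left _ h')
      have hIH := HK p hp a b ha hb k0 i0 w b0 hreg n' bm st' hst'
      have key := Ht p hp a b ha hb (tmL k0 i0) (ivs k0 i0 (k0 + n')) (k0 + n') n'' σ.b σ.M (hst.msk σ hσm)
        (fun j' => Xp.run (k0 + n') j' st' w) (CK * 2 ^ (η * n') * b0 * ‖w‖ ^ 2) (by positivity) (by
          intro r hr
          refine (hIH r hr).trans (le_of_eq ?_)
          congr 1
          ring) f (by rw [add_assoc]; exact hf)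
      rw [ch_s_ivs_sum k0 i0 (k0 + n') (k0 + (n' + n'')) (by omega) (by omega)]
      rw [← add_assoc] at hΛ ⊢
      have hLHS : ∀ j' ∈ ivs k0 i0 (k0 + n'), ∀ j ∈ ivs (k0 + n') j' (k0 + n' + n''),
          Xp.run (k0 + n' + n'') j (st' ++ [σ]) w
            = (p.sys η).tz (tmL (k0 + n') j') (k0 + n') σ.b (σ.M j') (Xp.run (k0 + n') j' st' w) := by
        intro j' _ j hj
        rw [ch_s_run_last (k0 + n' + n'') j st' σ (by omega) hmono w, hn', (gn_mem_ivs _ _ _ _).mp hj]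
      rw [Finset.sum_congr rfl fun j' hj' => Finset.sum_congr rfl fun j hj => by rw [hLHS j' hj' j hj]]
      refine key.trans ?_
      apply ENNReal.ofReal_le_ofReal
      rw [← hΛ]
      have h2 : (2 : ℝ) ^ (η * ((n' + n'' : ℕ) : ℝ)) = 2 ^ (η * n') * 2 ^ (η * n'') := by
        rw [← Real.rpow_add (by norm_num)]
        congr 1
        push_cast
        ring
      rw [h2]
      have h3 : 0 ≤ Λ ^ (K + 1 + 1) * f ^ (1 - η) * (2 ^ (η * n') * 2 ^ (η * n'')) * b0 * ‖w‖ ^ 2 := by positivity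
      calc Ct * (CK * 2 ^ (η * n') * b0 * ‖w‖ ^ 2) * Λ ^ (K + 1 + 1) * f ^ (1 - η) * 2 ^ (η * n'')
          = (Ct * CK) * (Λ ^ (K + 1 + 1) * f ^ (1 - η) * (2 ^ (η * n') * 2 ^ (η * n'')) * b0 * ‖w‖ ^ 2) := by ring
        _ ≤ max C0 (Ct * CK) * (Λ ^ (K + 1 + 1) * f ^ (1 - η) * (2 ^ (η * n') * 2 ^ (η * n'')) * b0 * ‖w‖ ^ 2) :=
            mul_le_mul_of_nonneg_right (le_max_right _ _) h3
        _ = _ := by ring

/-- S8 : **(SC), hybrid, with at most `K` masks** -/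
theorem ch_sch_main (η : ℝ) (hη0 : 0 < η) (hη1 : η < 1) (K : ℕ) :
    ∃ C : ℝ, 0 < C ∧ ∀ (p : ChyPar), p.Ok → ∀ (a b : p.Om → ℝ), Measurable a → Measurable b →
      ∀ (k0 i0 n : ℕ) (w : (p.sys η).Kc) (b0 : ℝ),
      (∀ nn cc f : ℝ, p.dl k0 ≤ f → (p.sys η).ms (tmL k0 i0) k0 0 (chBox p a b nn cc f ((2 : ℝ)⁻¹ ^ k0)) w ≤ b0 * f ^ (1 - η)) →
      ∀ (bm : ℕ) (st : List (Stg (p.sys η))), StOk k0 (k0 + n) bm K st →
      ∀ f : ℝ, p.dl (k0 + n) ≤ f → ∀ (L : ℕ) (iv : Fin L → ℕ) (nn cc : Fin L → ℝ) (θ : Fin L → p.Om × ℝ × ℝ → ℝ),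
        (∀ l, ancI (k0 + n) k0 (iv l) = i0) → (∀ l, Measurable (θ l)) → (∀ l x, 0 ≤ θ l x) →
        (∀ l x, θ l x ≠ 0 →
          x ∈ chBox p a (fun ω => b ω + (tmL (k0 + n) (iv l) - tmL k0 i0) * a ω) (nn l) (cc l) f ((2 : ℝ)⁻¹ ^ (k0 + n))) →
        (∀ i x, ∑ l, (if iv l = i then θ l x else 0) ≤ 1) →
        ∑ l, ((p.sys η).en (tmL (k0 + n) (iv l)) (k0 + n) 0 (θ l) (Xp.run (k0 + n) (iv l) st w)) ^ 2
          ≤ C * (1 + Real.log (f / p.dl (k0 + n))) ^ (K + 1) * f ^ (1 - η) * 2 ^ (η * n) * b0 * ‖w‖ ^ 2 := by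
  obtain ⟨C, hC, H⟩ := ch_s_scp η hη0 hη1 K
  refine ⟨C * 2 ^ (K + 1) * 2, by positivity, ?_⟩
  intro p hp a b ha hb k0 i0 n w b0 hreg bm st hst f hf L iv nn cc θ hiv hm h0 hin hsum
  have hb0 := ch_s_b0_nn η p hp a b k0 i0 w b0 hreg
  have hd := ch_s_dl_pos p hp (k0 + n)
  have hf0 : 0 < f := lt_of_lt_of_le hd hf
  have h1 := ch_p_lab η p hp a b ha hb (tmL k0 i0) k0 i0 n (fun j => Xp.run (k0 + n) j st w) f hf0 L iv nn cc θ hiv hm h0 hin hsum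
  have h2 := H p hp a b ha hb k0 i0 w b0 hreg n bm st hst (2 * f) (by linarith)
  have h3 := h1.trans h2
  obtain ⟨Λ, hΛ⟩ : ∃ Λ, Λ = 1 + Real.log (f / p.dl (k0 + n)) := ⟨_, rfl⟩
  have hΛ1 : 1 ≤ Λ := by
    rw [hΛ]
    have := Real.log_nonneg ((one_le_div hd).mpr hf)
    linarith
  have hlog : 1 + Real.log (2 * f / p.dl (k0 + n)) ≤ 2 * Λ := by
    rw [mul_div_assoc, Real.log_mul (by norm_num) (by positivity), hΛ]
    have hl2 : Real.log 2 ≤ 1 := by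
      have := Real.log_le_sub_one_of_pos (by norm_num : (0 : ℝ) < 2)
      linarith
    have := Real.log_nonneg ((one_le_div hd).mpr hf)
    linarith
  have hlog0 : 0 ≤ 1 + Real.log (2 * f / p.dl (k0 + n)) := by
    have : 1 ≤ 2 * f / p.dl (k0 + n) := (one_le_div hd).mpr (by linarith)
    have := Real.log_nonneg this
    linarith
  rw [ENNReal.ofReal_le_ofReal_iff (by positivity)] at h3
  refine h3.trans ?_
  rw [← hΛ]
  have hp1 : (1 + Real.log (2 * f / p.dl (k0 + n))) ^ (K + 1) ≤ 2 ^ (K + 1) * Λ ^ (K + 1) := by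
    rw [← mul_pow]
    exact pow_le_pow_left₀ hlog0 hlog _
  have hp2 : (2 * f) ^ (1 - η) ≤ 2 * f ^ (1 - η) := by
    rw [Real.mul_rpow (by norm_num) hf0.le]
    apply mul_le_mul_of_nonneg_right _ (by positivity)
    calc (2 : ℝ) ^ (1 - η) ≤ 2 ^ (1 : ℝ) := Real.rpow_le_rpow_of_exponent_le (by norm_num) (by linarith)
      _ = 2 := Real.rpow_one 2
  calc C * (1 + Real.log (2 * f / p.dl (k0 + n))) ^ (K + 1) * (2 * f) ^ (1 - η) * 2 ^ (η * n) * b0 * ‖w‖ ^ 2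
      ≤ C * (2 ^ (K + 1) * Λ ^ (K + 1)) * (2 * f ^ (1 - η)) * 2 ^ (η * n) * b0 * ‖w‖ ^ 2 := by gcongr
    _ = _ := by ring

end Claimed.Agent.R256
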