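-- KEEP
import Claimed.Agent.R256.Chan.Defs
import Claimed.Agent.R256.Chan.ScCl
import Claimed.Agent.R256.Chan.MemCore
import Claimed.Agent.R256.Chan.Sch
import Claimed.Agent.R256.Chan.MhMain

/-!
# Row 256 (LS paper), CHAN = the scalar channel and the memory bound : CONTRACT          (chief helper130; prefix `ch_`)

03-lower-dimensional.tex l.177-594 : Prop. low:scalar (SC), Lemma low:memory (mem) + prediction version, Cor. low:zero-memory.      Sources: reports 865, 879.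

DEFINITIONS: `Chan/Defs.lean` (`chNear`, `ChSeg`, `ChSeg.Ok`, `chBox`).

## ENTRY (what Chan consumes)
NOTHING but the DEFINITIONS of `Base/Sys`, `Base/Cyl` (`CclPar`, `ChyPar`, `cyIn`, `cyWt`, `Xp`, `Xp.run`, `PkSys.en/ms/tz`) and `Gen/Hyp` (`StOk`, `IsMask`).
No `Rate`, no `adm`, no `Loc`, no closure, no limit.  Every EXIT is ONE deterministic inequality for ONE experiment, all constants depend on `η` (and the number `K` of masks) only.
The only place where locality of the hybrid model enters is the HYPOTHESIS `(CHν)` of `ch_mem_hyb` (supplied by the builder of the documented configuration from (A) + `Loc.ker`).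

## EXIT
* `ch_sc_cl`     (SC) classical, on an arbitrary measure space with two coordinates; one width class; NO loss (constant `C_η`).   Masks are vacuous (sub-measures).   REAL `τ`-separated times; regularity used only at widths `≥ τ f`.
* `ch_mem_core`  (mem) classical, NORMALISED units (start interval `[0,1]`, end widths `r = f = 1`, real `δ`), model free (`ChSeg`).
                 ONE statement contains: (mem) quadratic case, linear case (`be0 = K0 = 0`, `Qx = 1`, ENCLOSING linear end tests), zero-memory (`Lm = 1`, `Qx = 1`, `be0 = K0 = P0 = 0`), prediction version (`g` = number of guesses).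
* `ch_doc_mem`, `ch_doc_memp`, `ch_doc_mem0`  (`Chan/Doc.lean`)  CONSUMER FORMS, classical, at the level of `SfDoc` (no model, no operator): `Core + AffP ⟹ Mem, MemP` (Nm/X.lean), `Core + Zero ⟹ CeMem` (Ce/Defs.lean).
                 (v1 had `ch_mem_cl` for `E : Xp`: DROPPED, nobody needs it.)
* `ch_sc_hyb`    (SC) hybrid with `≤ K` masks, one width class, common shear `(a ω, b ω)` depending on the exact index; loss `(1 + log(f / d_τ))^(K+1)` only (`= 1` at the Planck floor `f = d_τ`).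
* `ch_mem_hyb`   (mem) hybrid for `E : Xp (p.sys η)`, `p : ChyPar`; first stage = start gate; additive error `#pairs * ν`.
(mem) of the paper = `ch_mem_*` + `L ≤ s^-o(1) E_j/(κ_j w_j)` + `E_j/E_i`, `κ_j/κ_i` + normalising mass `≥ s^o(1) E_j` (matched chain (i)-(iii)): units AD (adapters) of Chan.

## ROUTE (differs from the paper in the hybrid part: no caps, no Whitney decomposition, no tails, no peeling, no `ε`)
CLASSICAL.  key(ω) = (base box `M` of widths `(ρ,ρ,ρ²)`, `ρ = δ^Lm`; bins of `be0, K0` of width `δ^-Qx`; bin of `P0 - 2 β~ X + 2 K~ B` of width `δ^(1-Lm)`).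
  (G1) a label and one listed cell meet `≤ 252 δ^(2-3Lm)` boxes; (G2) `(l,M)` sees `≤ (2A+3)²(10A+19)` bin tuples; (G3) Taylor (`dA = P dX + β dX² + K dV - 2K dX dB`): over one key
  the label lies in ONE scalar test of widths `(C A, C A δ)` after subtraction of the shear of the key; (G4) box `M` x sheared scalar box = cylinder test: `b0 = κ ρ^(3+η)`; `ch_sc_cl`; two Cauchy-Schwarz.
HYBRID.  (FK) FREE KERNEL ESTIMATE (normalised `ℓ = 1`):   `Σ_T ∫∫ 1[|ΔN| ≤ 2f, |ΔD| ≤ 2τf] dμ_T dμ_T ≤ C Λ f ∫∫ (max(H, τ²f²) + |z - z'|²)^(-1/2) dμ_0 dμ_0`,  `Λ = 1 + log⁺(τ f/√H)`.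
  Proof: (a) Husimi densities at times `T`, `t ∈ [T, T+τ]` dominate each other through the Gaussian overlap kernel (Schur); N-marginal = Gaussian average of the position density;
  (b) two fibres `σ, σ'`: centre of mass / relative coordinates, natural coherent states (width² `H/σ`) factorise EXACTLY; the observable is `∫ a(y + t w) dt` in the relative mode;
  (c) KEY LEMMA (KL): by positivity the time average is enlarged to the ROTATION INVARIANT average (`ζ = (1-it)/(1+it)`, weight `dt/(1+t²)`); the value at `y = 0` of the evolved coherent state is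
  `π^(-1/4) (1+it)^(-1/2) e^(-|α|²/2) exp(-α² ζ/2)`: a power series in `ζ`; Parseval in `ζ`; Bessel for the monomials `α^n e^(-|α|²/2)/√n!` in `L²((1+|α|²)^(1/2) dν)`; `binom(2m,m) 4^-m ≤ (2m+1)^(-1/2)`:
  `∫_0^2 |S_t F(0)|² dt ≤ C ∫ (1+|α|²)^(-1/2) |F|² dν`;  translations in `y` give the window `a`.
  MASKS: the kernel form is monotone under `μ_post ≤ C G * μ_pre` (same frame) and `K ≤ C Σ_{r ≥ r0} r^-1 Σ_cells 1_c ⊗ 1_c`, so `SC(K-1)` at the cut of the last mask for ALL widths `r ≥ r0` gives `SC(K)`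
  (`Σ_r r^-η ℓ'^-η ≤ C (τ f)^-η`): induction on `K`, no peeling.
  (mem): as classical; base boxes and lists are exact-index events; start gate `= Σ_keys`, triangle inequality over the `≤ C A³` connected keys, `(CHν)` for the others.

## UNITS (lines; dependencies)          registered as subtask `L-256-CHAN-*`
 CL1 `ch_sc_cl` (350; -)   CL2 geometry G1-G3 (900; -)   CL3 `ch_mem_core` assembly (700; CL1, CL2)   ADC `Chan/Doc.lean` (1500; `ch_mem_core` as a black box)   ADH hybrid adapter (after the fix of the class of shadows)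
 HF1 `an` = formula, isometry (700; -)   HF2 kernel of `an' an^*`, Gaussian overlaps, domination lemmas (1200; HF1)   HF3 shear covariance, fibrewise restriction (600; HF1)
 KL  key lemma (900; -)   REL two fibres, relative mode, lens formula (1500; KL)   FK assembly (1000; HF2, REL)   SCH `ch_sc_hyb` induction (800; FK, HF2, HF3)   MH `ch_mem_hyb` (1300; SCH, CL2, HF3)
-/

set_option autoImplicit false

namespace Claimed.Agent.R256

open MeasureTheory
open scoped ENNReal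

/-! ### the classical scalar channel -/

/-- **(SC), classical.**   Labels `l` at the `τ`-separated times `tm l ∈ [0,1]`; tests `|N - nn l| ≤ f`, `|D + T N - cc l| ≤ τ f`; fractional assignments `θ l`. -/
theorem ch_sc_cl (η : ℝ) (hη0 : 0 < η) (hη1 : η < 1) :
    ∃ C : ℝ, 0 < C ∧ ∀ {Om : Type} [MeasurableSpace Om] (μ : Measure Om) [IsFiniteMeasure μ] (N D : Om → ℝ), Measurable N → Measurable D →
      ∀ τ f b0 : ℝ, 0 < τ → τ ≤ 1 → 0 < f →
      (∀ n b u : ℝ, τ * f ≤ u → (μ {ω | |N ω - n| ≤ u ∧ |D ω - b| ≤ u}).toReal ≤ b0 * u ^ (1 - η)) →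
      ∀ (L : ℕ) (tm : Fin L → ℝ) (nn cc : Fin L → ℝ) (θ : Fin L → Om → ℝ),
        (∀ l, 0 ≤ tm l ∧ tm l ≤ 1) → (∀ l l', tm l ≠ tm l' → τ ≤ |tm l - tm l'|) → (∀ l, Measurable (θ l)) → (∀ l ω, 0 ≤ θ l ω) →
        (∀ l ω, θ l ω ≠ 0 → |N ω - nn l| ≤ f ∧ |D ω + tm l * N ω - cc l| ≤ τ * f) →
        (∀ l0 ω, ∑ l, (if tm l = tm l0 then θ l ω else 0) ≤ 1) →
        ∑ l, (∫ ω, θ l ω ∂μ) ^ 2 ≤ C * f ^ (1 - η) * τ ^ (-η) * b0 * (μ Set.univ).toReal :=
  ch_scl_main η hη0 hη1

/-! ### the memory bound, classical, normalised -/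

/-- **(mem), classical, normalised** (also: linear case, zero-memory, prediction version) -/
theorem ch_mem_core (η : ℝ) (hη0 : 0 < η) (hη1 : η < 1) :
    ∃ C : ℝ, 0 < C ∧ ∀ {Om : Type} [MeasurableSpace Om] (S : ChSeg Om) (κ A Lm Qx Rn : ℝ), S.Ok η κ A Lm Qx Rn →
      ∑ l, ∫ ω, S.th l ω * (S.hitS Lm l).indicator (fun _ => (1 : ℝ)) ω ∂S.mu
        ≤ C * A ^ 2 * Real.sqrt ((S.g : ℝ) * S.L * Rn * S.dl ^ (2 - 3 * Lm) * (κ * S.dl ^ ((3 + η) * Lm - η)) * (S.mu Set.univ).toReal) :=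
  ch_c_main η hη0 hη1

/-! ### the hybrid scalar channel -/

/-- **(SC), hybrid, with at most `K` masks.**   Root cut `(k0, i0)`, state `w` (pulled back to time `0` as everywhere), scalar regularity `b0` for `f ≥ d_{ℓ0}`;
terminal depth `k0 + n`, one width `f ≥ d_{ℓ0 τ}`; the shear `(a, b)` is transported by the free flow. -/
theorem ch_sc_hyb (η : ℝ) (hη0 : 0 < η) (hη1 : η < 1) (K : ℕ) :
    ∃ C : ℝ, 0 < C ∧ ∀ (p : ChyPar), p.Ok → ∀ (a b : p.Om → ℝ), Measurable a → Measurable b →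
      ∀ (k0 i0 n : ℕ) (w : (p.sys η).Kc) (b0 : ℝ),
      (∀ nn cc f : ℝ, p.dl k0 ≤ f → (p.sys η).ms (tmL k0 i0) k0 0 (chBox p a b nn cc f ((2 : ℝ)⁻¹ ^ k0)) w ≤ b0 * f ^ (1 - η)) →
      ∀ (bm : ℕ) (st : List (Stg (p.sys η))), StOk k0 (k0 + n) bm K st →
      ∀ f : ℝ, p.dl (k0 + n) ≤ f → ∀ (L : ℕ) (iv : Fin L → ℕ) (nn cc : Fin L → ℝ) (θ : Fin L → p.Om × ℝ × ℝ → ℝ),
        (∀ l, ancI (k0 + n) k0 (iv l) = i0) → (∀ l, Measurable (θ l)) → (∀ l x, 0 ≤ θ l x) →
        (∀ l x, θ l x ≠ 0 →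
          x ∈ chBox p a (fun ω => b ω + (tmL (k0 + n) (iv l) - tmL k0 i0) * a ω) (nn l) (cc l) f ((2 : ℝ)⁻¹ ^ (k0 + n))) →
        (∀ i x, ∑ l, (if iv l = i then θ l x else 0) ≤ 1) →
        ∑ l, ((p.sys η).en (tmL (k0 + n) (iv l)) (k0 + n) 0 (θ l) (Xp.run (k0 + n) (iv l) st w)) ^ 2
          ≤ C * (1 + Real.log (f / p.dl (k0 + n))) ^ (K + 1) * f ^ (1 - η) * 2 ^ (η * n) * b0 * ‖w‖ ^ 2 :=
  ch_sch_main η hη0 hη1 K

/-! ### the memory bound for hybrid experiments -/

/-- **(mem), hybrid experiments.**   `E.st = σ0 :: rest`, `σ0` = the start gate (depth `k0`), `rest` = at most `K` later masks;   `be0, K0, P0` = data of the start label owning a start ROW.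
`Q l` = ANY test of the common widths `(r1, f1)` enclosing the weight of the label (the documented test, or the enclosing linear test).
`(CHν)`: the part of the start gate that is NOT comparable with the label `l` contributes at most `ν` to the mass of `l`. -/
theorem ch_mem_hyb (η : ℝ) (hη0 : 0 < η) (hη1 : η < 1) (K : ℕ) :
    ∃ C : ℝ, 0 < C ∧ ∀ (p : ChyPar), p.Ok → ∀ E : Xp (p.sys η), E.Valid →
      ∀ (σ0 : Stg (p.sys η)) (rest : List (Stg (p.sys η))), E.st = σ0 :: rest → σ0.k = E.k0 → rest.length ≤ K →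
      ∀ (r1 f1 A Lm Qx Rn ν : ℝ), 0 < r1 → p.dl E.kf ≤ f1 → 1 ≤ A → 1 ≤ Lm → 1 + Qx ≤ 2 * Lm → 0 ≤ ν →
      ∀ (be0 K0 P0 : p.Om × ℝ × ℝ → ℝ), Measurable be0 → Measurable K0 → Measurable P0 →
      ∀ (Q : Fin E.L → CyT) (lst : Fin E.L → Finset ℝ),
      (∀ l x, E.th l x ≠ 0 → cyIn (Q l) ((2 : ℝ)⁻¹ ^ E.kf) (p.co (tmL E.kf (E.iv l)) x)) → (∀ l, (Q l).r = r1 ∧ (Q l).f = f1) → (∀ l, ((lst l).card : ℝ) ≤ Rn) →
      (∀ (l : Fin E.L) (S' : Set (p.Om × ℝ × ℝ)), MeasurableSet S' →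
        (∀ x ∈ S', ¬ chNear A Lm Qx E.s ((2 : ℝ)⁻¹ ^ E.k0) r1 f1 (tmL E.kf (E.iv l) - tmL E.k0 E.i0) (be0 x) (K0 x) (P0 x)
          (p.X x.1) (p.B x.1 + tmL E.kf (E.iv l) * p.X x.1) (Q l)) →
        (p.sys η).en (tmL E.kf (E.iv l)) E.kf E.bT (E.th l)
          (Xp.run E.kf (E.iv l) rest ((p.sys η).tz (tmL E.k0 E.i0) E.k0 σ0.b (fun x => σ0.M E.i0 x * S'.indicator (fun _ => (1 : ℝ)) x) E.v)) ≤ ν) →
      ∑ l, (p.sys η).en (tmL E.kf (E.iv l)) E.kf E.bT
          (fun x => E.th l x * ({x : p.Om × ℝ × ℝ | ∃ c ∈ lst l, |p.X x.1 - c| ≤ r1 * E.s ^ Lm}).indicator (fun _ => (1 : ℝ)) x) (E.fin (E.iv l))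
        ≤ C * A ^ 5 * (1 + Real.log (A * f1 / p.dl E.kf)) ^ (K + 1)
            * Real.sqrt ((E.L : ℝ) * Rn * E.s ^ (2 - 3 * Lm) * (E.ka * (r1 ^ (3 + η) * f1 ^ (1 - η)) * E.s ^ ((3 + η) * Lm - η)) * E.e)
          + C * A ^ 5 * ((E.L : ℝ) * Rn * E.s ^ (2 - 3 * Lm)) * ν :=
  ch_mh_main η hη0 hη1 K (ch_sc_hyb η hη0 hη1 K)

end Claimed.Agent.R256
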