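-- KEEP
import Mathlib

/-!
# Row 256 (LS paper), CHAN, unit ADC, file 5 : NUMEROLOGY, COVERING, ENUMERATION  (Mathlib only)          (architect helper33; prefix `ch_doc_`)

Everything is a power of `s ∈ (0,1)`: `Real.rpow_add`, `Real.rpow_mul`, `Real.rpow_le_rpow_of_exponent_ge` (`s^x ≤ s^y` for `y ≤ x`), `Real.rpow_le_rpow_left_iff`, `Real.mul_rpow`, `Real.sqrt_le_sqrt`, `Real.sqrt_eq_rpow`.
The constants `K`, `a0`, `s0` are EXISTENTIAL: choose them generously.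
-/

set_option autoImplicit false

namespace Claimed.Agent.R256

/-! ### L-256-CHAN-N1 -/

/-- `Nl κ ≤ 4 s^(-(2+M)a) s^(-(p+d)(j-i))`  (`f1^(1-η) ≤ 4 s^(-Ma) fj^(1-η)`);   `dl^(2-3Lm) dl^((3+η)Lm-η) = dl^e`, `e = 2 + η(Lm-1) ∈ [2, 2+M]`, `dl = lj/li ≤ s^(j-i-2a)`.   `K = 6 + 3M`. -/
theorem ch_doc_num_in (η p d M : ℝ) (h0 : 0 < η) (h1 : η < 1) (hM : 1 ≤ M) : ∃ K : ℝ, 0 ≤ K ∧
    ∀ (s a i j li lj rj fj f1 ek Nl Lm : ℝ), 0 < s → s < 1 → 0 < a → a ≤ 1 → i < j →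
    s ^ (i + a) ≤ li → li ≤ s ^ (i - a) → s ^ (j + a) ≤ lj → lj ≤ s ^ (j - a) → 0 < rj → 0 < fj → 0 < f1 →
    f1 ≤ 4 * s ^ (-(M * a)) * fj → 0 < ek → 0 ≤ Nl → Nl * (rj ^ (3 + η) * fj ^ (1 - η)) ≤ s ^ (-a) * ek * s ^ (-((p + d) * j)) →
    1 ≤ Lm → Lm ≤ M →
    Nl * ((lj / li) ^ (2 - 3 * Lm) * ((s ^ (-a) * s ^ ((p + d) * i) / ek * (rj ^ (3 + η) * f1 ^ (1 - η))) * (lj / li) ^ ((3 + η) * Lm - η)))
      ≤ 4 * s ^ (-(K * a)) * s ^ ((2 + η * (Lm - 1) - p - d) * (j - i)) := by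
  refine ⟨6 + 3 * M, by linarith, ?_⟩
  intro s a i j li lj rj fj f1 ek Nl Lm hs0 hs1 ha ha1 hij hli0 hli1 hlj0 hlj1 hrj hfj hf1 hf hek hNl hN hLm1 hLmM
  have hs1' : s ≤ 1 := hs1.le
  have hli : 0 < li := lt_of_lt_of_le (Real.rpow_pos_of_pos hs0 _) hli0
  have hlj : 0 < lj := lt_of_lt_of_le (Real.rpow_pos_of_pos hs0 _) hlj0
  have hdl : 0 < lj / li := div_pos hlj hli
  set e : ℝ := 2 + η * (Lm - 1) with he
  have he0 : 0 ≤ e := by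
    have : 0 ≤ η * (Lm - 1) := mul_nonneg h0.le (by linarith)
    linarith
  have heM : e ≤ 2 + M := by
    have h2 : η * (Lm - 1) ≤ 1 * (Lm - 1) := mul_le_mul_of_nonneg_right h1.le (by linarith)
    linarith
  have e1 : (lj / li) ^ (2 - 3 * Lm) * (lj / li) ^ ((3 + η) * Lm - η) = (lj / li) ^ e := by
    rw [← Real.rpow_add hdl]; congr 1; rw [he]; ring
  -- `f1^(1-η) ≤ 4 s^(-Ma) fj^(1-η)`
  have hη : 0 ≤ 1 - η := by linarith
  have hsM : 0 < s ^ (-(M * a)) := Real.rpow_pos_of_pos hs0 _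
  have hF : f1 ^ (1 - η) ≤ 4 * s ^ (-(M * a)) * fj ^ (1 - η) := by
    have q1 : f1 ^ (1 - η) ≤ (4 * s ^ (-(M * a)) * fj) ^ (1 - η) := Real.rpow_le_rpow hf1.le hf hη
    have q2 : (4 * s ^ (-(M * a)) * fj) ^ (1 - η) = (4 : ℝ) ^ (1 - η) * (s ^ (-(M * a))) ^ (1 - η) * fj ^ (1 - η) := by
      rw [Real.mul_rpow (by positivity) hfj.le, Real.mul_rpow (by norm_num) hsM.le]
    have q3 : (4 : ℝ) ^ (1 - η) ≤ 4 := by
      calc (4 : ℝ) ^ (1 - η) ≤ (4 : ℝ) ^ (1 : ℝ) := Real.rpow_le_rpow_of_exponent_le (by norm_num) (by linarith)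
        _ = 4 := Real.rpow_one 4
    have q4 : (s ^ (-(M * a))) ^ (1 - η) ≤ s ^ (-(M * a)) := by
      rw [← Real.rpow_mul hs0.le]
      apply Real.rpow_le_rpow_of_exponent_ge hs0 hs1'
      have : 0 ≤ M * a * η := by positivity
      nlinarith
    rw [q2] at q1
    refine q1.trans (mul_le_mul_of_nonneg_right ?_ (Real.rpow_nonneg hfj.le _))
    exact mul_le_mul q3 q4 (Real.rpow_nonneg hsM.le _) (by norm_num)
  set A : ℝ := rj ^ (3 + η) with hA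
  have hA0 : 0 < A := Real.rpow_pos_of_pos hrj _
  set Fj : ℝ := fj ^ (1 - η) with hFj
  set F1 : ℝ := f1 ^ (1 - η) with hF1
  have hb1 : Nl * (A * F1) ≤ 4 * s ^ (-(M * a)) * (s ^ (-a) * ek * s ^ (-((p + d) * j))) := by
    calc Nl * (A * F1) ≤ Nl * (A * (4 * s ^ (-(M * a)) * Fj)) :=
          mul_le_mul_of_nonneg_left (mul_le_mul_of_nonneg_left hF hA0.le) hNl
      _ = 4 * s ^ (-(M * a)) * (Nl * (A * Fj)) := by ring
      _ ≤ 4 * s ^ (-(M * a)) * (s ^ (-a) * ek * s ^ (-((p + d) * j))) :=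
          mul_le_mul_of_nonneg_left hN (by positivity)
  -- `dl^e ≤ s^((j-i-2a) e)`
  have hd1 : lj / li ≤ s ^ (j - i - 2 * a) := by
    have : s ^ (j - i - 2 * a) = s ^ (j - a) / s ^ (i + a) := by
      rw [← Real.rpow_sub hs0]; congr 1; ring
    rw [this]
    exact div_le_div₀ (Real.rpow_nonneg hs0.le _) hlj1 (Real.rpow_pos_of_pos hs0 _) hli0
  have hd2 : (lj / li) ^ e ≤ s ^ ((j - i - 2 * a) * e) := by
    rw [Real.rpow_mul hs0.le]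
    exact Real.rpow_le_rpow hdl.le hd1 he0
  have hW : 0 < s ^ (-a) * s ^ ((p + d) * i) / ek := by
    have := Real.rpow_pos_of_pos hs0 (-a); have := Real.rpow_pos_of_pos hs0 ((p + d) * i)
    positivity
  have hdle : 0 < (lj / li) ^ e := Real.rpow_pos_of_pos hdl _
  calc Nl * ((lj / li) ^ (2 - 3 * Lm) * ((s ^ (-a) * s ^ ((p + d) * i) / ek * (A * F1)) * (lj / li) ^ ((3 + η) * Lm - η)))
      = (Nl * (A * F1)) * (s ^ (-a) * s ^ ((p + d) * i) / ek) * ((lj / li) ^ (2 - 3 * Lm) * (lj / li) ^ ((3 + η) * Lm - η)) := by ring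
    _ = (Nl * (A * F1)) * (s ^ (-a) * s ^ ((p + d) * i) / ek) * (lj / li) ^ e := by rw [e1]
    _ ≤ (4 * s ^ (-(M * a)) * (s ^ (-a) * ek * s ^ (-((p + d) * j)))) * (s ^ (-a) * s ^ ((p + d) * i) / ek) * s ^ ((j - i - 2 * a) * e) := by
        apply mul_le_mul _ hd2 hdle.le
        · have := Real.rpow_pos_of_pos hs0 (-a); have := Real.rpow_pos_of_pos hs0 (-((p + d) * j))
          positivity
        · exact mul_le_mul_of_nonneg_right hb1 hW.le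
    _ = 4 * (s ^ (-(M * a)) * s ^ (-a) * s ^ (-((p + d) * j)) * s ^ (-a) * s ^ ((p + d) * i) * s ^ ((j - i - 2 * a) * e)) := by
        field_simp
    _ = 4 * s ^ (-(M * a) + -a + -((p + d) * j) + -a + (p + d) * i + (j - i - 2 * a) * e) := by
        rw [Real.rpow_add hs0, Real.rpow_add hs0, Real.rpow_add hs0, Real.rpow_add hs0, Real.rpow_add hs0]
    _ ≤ 4 * s ^ (-((6 + 3 * M) * a) + (e - p - d) * (j - i)) := by
        apply mul_le_mul_of_nonneg_left _ (by norm_num)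
        apply Real.rpow_le_rpow_of_exponent_ge hs0 hs1'
        have : a * e ≤ a * (2 + M) := mul_le_mul_of_nonneg_left heM ha.le
        nlinarith
    _ = 4 * s ^ (-((6 + 3 * M) * a)) * s ^ ((e - p - d) * (j - i)) := by
        rw [Real.rpow_add hs0]; ring

/-! ### L-256-CHAN-N2 -/

/-- `√(G In) ≤ 2 s^(-Ka/2) √(G s^(e h))`, `s^(d h) √(G s^(e h)) = √(G s^((e+2d)h))`;   `32 C s^(-(1+2M+K/2)a) ≤ s^(-t)`: `a0 (1+2M+K/2) ≤ t/2`, `32 C ≤ s0^(-t/2)`. -/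
theorem ch_doc_num_out (C t M K : ℝ) (hC : 0 < C) (ht : 0 < t) (hM : 0 ≤ M) (hK : 0 ≤ K) :
    ∃ a0 s0 : ℝ, 0 < a0 ∧ a0 ≤ 1 ∧ 0 < s0 ∧ s0 ≤ 1 / 2 ∧
    ∀ (s a h d e G In : ℝ), 0 < s → s < s0 → 0 < a → a ≤ a0 → 0 ≤ G → 0 ≤ In → In ≤ 4 * s ^ (-(K * a)) * s ^ (e * h) →
      s ^ (-a) * s ^ (d * h) * (C * (4 * s ^ (-(M * a))) ^ 2 * Real.sqrt (G * In)) ≤ s ^ (-t) * Real.sqrt (G * s ^ ((e + 2 * d) * h)) := by
  set c : ℝ := 1 + 2 * M + K / 2 with hc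
  have hc0 : 0 < c := by rw [hc]; positivity
  have h32 : 0 < 32 * C := by positivity
  have hp2 : 0 < (32 * C) ^ (-(2 / t)) := Real.rpow_pos_of_pos h32 _
  refine ⟨min 1 (t / (2 * c)), min (1 / 2) ((32 * C) ^ (-(2 / t))), lt_min one_pos (by positivity), min_le_left _ _,
    lt_min (by norm_num) hp2, min_le_left _ _, ?_⟩
  intro s a h d e G In hs0 hs1 ha ha0 hG hIn hI
  have hsh : s < 1 / 2 := lt_of_lt_of_le hs1 (min_le_left _ _)
  have hs1' : s ≤ 1 := by linarith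
  have hsc : s ≤ (32 * C) ^ (-(2 / t)) := (hs1.le).trans (min_le_right _ _)
  have hac : c * a ≤ t / 2 := by
    have h1 : a ≤ t / (2 * c) := ha0.trans (min_le_right _ _)
    have h2 : c * a ≤ c * (t / (2 * c)) := mul_le_mul_of_nonneg_left h1 hc0.le
    have h3 : c * (t / (2 * c)) = t / 2 := by field_simp
    linarith
  -- `32 C ≤ s^(-t/2)`
  have hCs : 32 * C ≤ s ^ (-(t / 2)) := by
    have h1 : s ^ (t / 2) ≤ ((32 * C) ^ (-(2 / t))) ^ (t / 2) := Real.rpow_le_rpow hs0.le hsc (by positivity)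
    have h2 : ((32 * C) ^ (-(2 / t))) ^ (t / 2) = (32 * C)⁻¹ := by
      rw [← Real.rpow_mul h32.le, ← Real.rpow_neg_one]
      congr 1; field_simp
    rw [h2] at h1
    rw [Real.rpow_neg hs0.le]
    have h3 : 0 < s ^ (t / 2) := Real.rpow_pos_of_pos hs0 _
    rw [le_inv_comm₀ h32 h3]
    exact h1
  have hca : s ^ (-(c * a)) ≤ s ^ (-(t / 2)) := Real.rpow_le_rpow_of_exponent_ge hs0 hs1' (by linarith)
  have hfin : 32 * C * s ^ (-(c * a)) ≤ s ^ (-t) := by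
    have h1 : s ^ (-t) = s ^ (-(t / 2)) * s ^ (-(t / 2)) := by
      rw [← Real.rpow_add hs0]; congr 1; ring
    rw [h1]
    exact mul_le_mul hCs hca (Real.rpow_nonneg hs0.le _) (Real.rpow_nonneg hs0.le _)
  -- the square roots
  have hu : 0 < s ^ (-(K * a) / 2) := Real.rpow_pos_of_pos hs0 _
  have key1 : Real.sqrt (G * In) ≤ 2 * s ^ (-(K * a) / 2) * Real.sqrt (G * s ^ (e * h)) := by
    have h1 : G * In ≤ (2 * s ^ (-(K * a) / 2)) ^ 2 * (G * s ^ (e * h)) := by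
      have h2 : (2 * s ^ (-(K * a) / 2)) ^ 2 = 4 * s ^ (-(K * a)) := by
        have h3 : (s ^ (-(K * a) / 2)) ^ 2 = s ^ (-(K * a)) := by
          rw [← Real.rpow_natCast, ← Real.rpow_mul hs0.le]
          congr 1; push_cast; ring
        rw [mul_pow, h3]; norm_num
      rw [h2]
      calc G * In ≤ G * (4 * s ^ (-(K * a)) * s ^ (e * h)) := mul_le_mul_of_nonneg_left hI hG
        _ = 4 * s ^ (-(K * a)) * (G * s ^ (e * h)) := by ring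
    calc Real.sqrt (G * In) ≤ Real.sqrt ((2 * s ^ (-(K * a) / 2)) ^ 2 * (G * s ^ (e * h))) := Real.sqrt_le_sqrt h1
      _ = 2 * s ^ (-(K * a) / 2) * Real.sqrt (G * s ^ (e * h)) := by
          rw [Real.sqrt_mul (sq_nonneg _), Real.sqrt_sq (by positivity)]
  have key2 : s ^ (d * h) * Real.sqrt (G * s ^ (e * h)) = Real.sqrt (G * s ^ ((e + 2 * d) * h)) := by
    have h1 : G * s ^ ((e + 2 * d) * h) = (s ^ (d * h)) ^ 2 * (G * s ^ (e * h)) := by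
      have : s ^ ((e + 2 * d) * h) = (s ^ (d * h)) ^ 2 * s ^ (e * h) := by
        rw [← Real.rpow_natCast, ← Real.rpow_mul hs0.le, ← Real.rpow_add hs0]
        congr 1; push_cast; ring
      rw [this]; ring
    rw [h1, Real.sqrt_mul (sq_nonneg _), Real.sqrt_sq (Real.rpow_nonneg hs0.le _)]
  have hX : 0 ≤ Real.sqrt (G * s ^ ((e + 2 * d) * h)) := Real.sqrt_nonneg _
  have hsa : 0 < s ^ (-a) := Real.rpow_pos_of_pos hs0 _
  have hsd : 0 < s ^ (d * h) := Real.rpow_pos_of_pos hs0 _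
  have hsM : 0 < s ^ (-(M * a)) := Real.rpow_pos_of_pos hs0 _
  calc s ^ (-a) * s ^ (d * h) * (C * (4 * s ^ (-(M * a))) ^ 2 * Real.sqrt (G * In))
      ≤ s ^ (-a) * s ^ (d * h) * (C * (4 * s ^ (-(M * a))) ^ 2 * (2 * s ^ (-(K * a) / 2) * Real.sqrt (G * s ^ (e * h)))) := by
        apply mul_le_mul_of_nonneg_left _ (by positivity)
        exact mul_le_mul_of_nonneg_left key1 (by positivity)
    _ = 32 * C * (s ^ (-a) * (s ^ (-(M * a)) * s ^ (-(M * a))) * s ^ (-(K * a) / 2)) * (s ^ (d * h) * Real.sqrt (G * s ^ (e * h))) := by ring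
    _ = 32 * C * s ^ (-(c * a)) * Real.sqrt (G * s ^ ((e + 2 * d) * h)) := by
        rw [key2, ← Real.rpow_add hs0, ← Real.rpow_add hs0, ← Real.rpow_add hs0]
        congr 3; rw [hc]; ring
    _ ≤ s ^ (-t) * Real.sqrt (G * s ^ ((e + 2 * d) * h)) := mul_le_mul_of_nonneg_right hfin hX

/-! ### L-256-CHAN-N3 -/

theorem ch_doc_num_add (s a j lj : ℝ) (hs0 : 0 < s) (hs1 : s < 1) (ha : 0 < a) (ha1 : a ≤ 1) (hj : j ≤ 1) (h : s ^ (j + a) ≤ lj) :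
    (1 / lj + 1) * s ^ (1 / a) ≤ 2 * s ^ (1 / a - 2) := by
  have h2 : s ^ (2 : ℝ) ≤ lj := (Real.rpow_le_rpow_of_exponent_ge hs0 hs1.le (by linarith)).trans h
  have hp2 : 0 < s ^ (2 : ℝ) := Real.rpow_pos_of_pos hs0 _
  have hlj : 0 < lj := lt_of_lt_of_le hp2 h2
  have h3 : 1 / lj ≤ s ^ (-2 : ℝ) := by
    rw [Real.rpow_neg hs0.le, ← one_div]
    exact one_div_le_one_div_of_le hp2 h2
  have h4 : 1 ≤ s ^ (-2 : ℝ) := Real.one_le_rpow_of_pos_of_le_one_of_nonpos hs0 hs1.le (by norm_num)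
  have hp : 0 < s ^ (1 / a) := Real.rpow_pos_of_pos hs0 _
  have e : s ^ (1 / a - 2) = s ^ (-2 : ℝ) * s ^ (1 / a) := by
    rw [← Real.rpow_add hs0]
    congr 1
    ring
  rw [e]
  calc (1 / lj + 1) * s ^ (1 / a) ≤ (s ^ (-2 : ℝ) + s ^ (-2 : ℝ)) * s ^ (1 / a) := mul_le_mul_of_nonneg_right (by linarith) hp.le
    _ = 2 * (s ^ (-2 : ℝ) * s ^ (1 / a)) := by ring

/-- aux: a constant is absorbed by a negative power of a small `s` -/
theorem ch_doc_s0 (C t : ℝ) (hC : 0 < C) (ht : 0 < t) : ∃ s0 : ℝ, 0 < s0 ∧ s0 ≤ 1 / 2 ∧ ∀ s : ℝ, 0 < s → s < s0 → C ≤ s ^ (-t) := by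
  refine ⟨min (1 / 2) (C ^ (-(1 / t))), lt_min (by norm_num) (Real.rpow_pos_of_pos hC _), min_le_left _ _, fun s hs hs0 => ?_⟩
  have h1 : s ≤ C ^ (-(1 / t)) := hs0.le.trans (min_le_right _ _)
  have h2 : (C ^ (-(1 / t))) ^ (-t) ≤ s ^ (-t) := Real.rpow_le_rpow_of_nonpos hs h1 (by linarith)
  have h3 : (C ^ (-(1 / t))) ^ (-t) = C := by
    rw [← Real.rpow_mul hC.le]
    have : -(1 / t) * -t = 1 := by field_simp
    rw [this, Real.rpow_one]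
  linarith

/-- aux: the common end of `ch_doc_num_aff` and `ch_doc_num_zero` -/
theorem ch_doc_fin (s t a M Y S : ℝ) (hs0 : 0 < s) (hs1 : s < 1) (h4 : 4 ≤ s ^ (-(t / 4))) (hY : s ^ (M / 2) ≤ Y) (hS : S ≤ 2 * s ^ (-(t / 4)) * Y)
    (ha : 2 + M / 2 ≤ 1 / a) : s ^ (-(t / 2)) * S + 2 * s ^ (1 / a - 2) ≤ s ^ (-t) * Y := by
  have e2 : s ^ (-(t / 2)) = (s ^ (-(t / 4))) ^ 2 := by
    rw [← Real.rpow_natCast, ← Real.rpow_mul hs0.le]
    congr 1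
    push_cast
    ring
  have e4 : s ^ (-t) = (s ^ (-(t / 4))) ^ 4 := by
    rw [← Real.rpow_natCast, ← Real.rpow_mul hs0.le]
    congr 1
    push_cast
    ring
  have hY0 : 0 < Y := lt_of_lt_of_le (Real.rpow_pos_of_pos hs0 _) hY
  have h1 : s ^ (1 / a - 2) ≤ Y := (Real.rpow_le_rpow_of_exponent_ge hs0 hs1.le (by linarith)).trans hY
  rw [e2, e4]
  generalize s ^ (-(t / 4)) = u at *
  have hu0 : 0 < u := by linarith
  have h2 : u ^ 2 * S ≤ u ^ 2 * (2 * u * Y) := mul_le_mul_of_nonneg_left hS (by positivity)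
  have hu3 : (64 : ℝ) ≤ u ^ 3 := by
    calc (64 : ℝ) = 4 ^ 3 := by norm_num
      _ ≤ u ^ 3 := pow_le_pow_left₀ (by norm_num) h4 3
  have hu4 : 4 * u ^ 3 ≤ u ^ 4 := by
    have : u ^ 4 = u * u ^ 3 := by ring
    rw [this]
    exact mul_le_mul_of_nonneg_right h4 (by positivity)
  have h3 : (2 * u ^ 3 + 2) * Y ≤ u ^ 4 * Y := mul_le_mul_of_nonneg_right (by linarith) hY0.le
  have h5 : u ^ 2 * (2 * u * Y) + 2 * Y = (2 * u ^ 3 + 2) * Y := by ring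
  linarith

/-- first term `≤ √2 s^(-t/2 - aM) Y`, `Y = s^((m-R-Z)/2 h) ≥ s^(M/2)`;   `a0 M ≤ t/4`, `1/a0 ≥ 2 + M/2`, `4 ≤ s0^(-t/4)`. -/
theorem ch_doc_num_aff (t M : ℝ) (ht : 0 < t) (hM : 0 ≤ M) : ∃ a0 s0 : ℝ, 0 < a0 ∧ a0 ≤ 1 ∧ 0 < s0 ∧ s0 ≤ 1 / 2 ∧
    ∀ (s a h m R Z g Lm : ℝ), 0 < s → s < s0 → 0 < a → a ≤ a0 → 0 < h → h ≤ 1 → 0 ≤ R → 0 ≤ Z → R + Z ≤ m → m ≤ M → 0 ≤ Lm → Lm ≤ M →
      0 ≤ g → g ≤ s ^ (-(Z * h)) →
      s ^ (-(t / 2)) * Real.sqrt (g * (s ^ (-(R * h)) * (s ^ (-(2 * a * Lm)) + 1)) * s ^ (m * h)) + 2 * s ^ (1 / a - 2)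
        ≤ s ^ (-t) * s ^ ((m - R - Z) / 2 * h) := by
  obtain ⟨s0, hs0, hs0', hS0⟩ := ch_doc_s0 4 (t / 4) (by norm_num) (by positivity)
  refine ⟨min 1 (min (t / (4 * (M + 1))) (1 / (2 + M / 2))), s0, lt_min one_pos (lt_min (by positivity) (by positivity)), min_le_left _ _, hs0, hs0', ?_⟩
  intro s a h m R Z g Lm hs hss ha haa hh hh1 hR hZ hRZ hmM hLm hLmM hg hgZ
  have hs1 : s < 1 := by linarith
  have h4 := hS0 s hs hss
  have ha1 : a ≤ t / (4 * (M + 1)) := haa.trans ((min_le_right _ _).trans (min_le_left _ _))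
  have ha2 : a ≤ 1 / (2 + M / 2) := haa.trans ((min_le_right _ _).trans (min_le_right _ _))
  have haM : a * M ≤ t / 4 := by
    have h1 : a * (4 * (M + 1)) ≤ t := by rwa [le_div_iff₀ (by positivity)] at ha1
    nlinarith
  have hinv : 2 + M / 2 ≤ 1 / a := by
    rw [le_div_iff₀ ha]
    have h1 := (le_div_iff₀ (by positivity)).1 ha2
    linarith
  have hE : (m - R - Z) / 2 * h ≤ M / 2 := by
    have h1 : (m - R - Z) * h ≤ m - R - Z := mul_le_of_le_one_right (by linarith) hh1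
    linarith
  have hYM : s ^ (M / 2) ≤ s ^ ((m - R - Z) / 2 * h) := Real.rpow_le_rpow_of_exponent_ge hs hs1.le hE
  refine ch_doc_fin s t a M _ _ hs hs1 h4 hYM ?_ hinv
  have e1 : s ^ (-(Z * h)) * s ^ (-(R * h)) * s ^ (m * h) = (s ^ ((m - R - Z) / 2 * h)) ^ 2 := by
    rw [← Real.rpow_natCast, ← Real.rpow_mul hs.le, ← Real.rpow_add hs, ← Real.rpow_add hs]
    congr 1
    push_cast
    ring
  have e2 : s ^ (-(2 * a * Lm)) ≤ (s ^ (-(t / 4))) ^ 2 := by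
    rw [← Real.rpow_natCast, ← Real.rpow_mul hs.le]
    apply Real.rpow_le_rpow_of_exponent_ge hs hs1.le
    push_cast
    have h1 : a * Lm ≤ a * M := mul_le_mul_of_nonneg_left hLmM ha.le
    linarith
  have hYpos : 0 < s ^ ((m - R - Z) / 2 * h) := Real.rpow_pos_of_pos hs _
  have hp1 : 0 < s ^ (-(R * h)) := Real.rpow_pos_of_pos hs _
  have hp2 : 0 < s ^ (m * h) := Real.rpow_pos_of_pos hs _
  have hp3 : 0 < s ^ (-(2 * a * Lm)) := Real.rpow_pos_of_pos hs _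
  generalize s ^ ((m - R - Z) / 2 * h) = Y at *
  generalize s ^ (-(t / 4)) = u at *
  have hu0 : 0 < u := by linarith
  have e3 : 1 ≤ u ^ 2 := by nlinarith
  refine Real.sqrt_le_iff.2 ⟨by positivity, ?_⟩
  calc g * (s ^ (-(R * h)) * (s ^ (-(2 * a * Lm)) + 1)) * s ^ (m * h)
      ≤ s ^ (-(Z * h)) * (s ^ (-(R * h)) * (u ^ 2 + u ^ 2)) * s ^ (m * h) := by gcongr
    _ = 2 * u ^ 2 * (s ^ (-(Z * h)) * s ^ (-(R * h)) * s ^ (m * h)) := by ring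
    _ = 2 * u ^ 2 * Y ^ 2 := by rw [e1]
    _ ≤ (2 * u * Y) ^ 2 := by nlinarith [sq_nonneg (u * Y)]

/-! ### L-256-CHAN-N4 -/

/-- as `ch_doc_num_aff`: `√(Lc (s^(-a)+1) s^(m h)) ≤ √2 s^(-a/2) √(Lc s^(h m))`, `√(Lc s^(h m)) ≥ s^(M/2)`. -/
theorem ch_doc_num_zero (t M : ℝ) (ht : 0 < t) (hM : 0 ≤ M) : ∃ a0 s0 : ℝ, 0 < a0 ∧ a0 ≤ 1 ∧ 0 < s0 ∧ s0 ≤ 1 / 2 ∧
    ∀ (s a h m Lc : ℝ), 0 < s → s < s0 → 0 < a → a ≤ a0 → 0 < h → h ≤ 1 → 0 ≤ m → m ≤ M → 1 ≤ Lc →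
      s ^ (-(t / 2)) * Real.sqrt (1 * (Lc * (s ^ (-a) + 1)) * s ^ (m * h)) + 2 * s ^ (1 / a - 2) ≤ s ^ (-t) * Real.sqrt (Lc * s ^ (h * m)) := by
  obtain ⟨s0, hs0, hs0', hS0⟩ := ch_doc_s0 4 (t / 4) (by norm_num) (by positivity)
  refine ⟨min 1 (min (t / 2) (1 / (2 + M / 2))), s0, lt_min one_pos (lt_min (by positivity) (by positivity)), min_le_left _ _, hs0, hs0', ?_⟩
  intro s a h m Lc hs hss ha haa hh hh1 hm hmM hLc
  have hs1 : s < 1 := by linarith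
  have h4 := hS0 s hs hss
  have ha1 : a ≤ t / 2 := haa.trans ((min_le_right _ _).trans (min_le_left _ _))
  have ha2 : a ≤ 1 / (2 + M / 2) := haa.trans ((min_le_right _ _).trans (min_le_right _ _))
  have hinv : 2 + M / 2 ≤ 1 / a := by
    rw [le_div_iff₀ ha]
    have h1 := (le_div_iff₀ (by positivity)).1 ha2
    linarith
  have hp : 0 < s ^ (h * m) := Real.rpow_pos_of_pos hs _
  have hE : h * m ≤ M := by
    have h1 : h * m ≤ m := mul_le_of_le_one_left hm hh1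
    linarith
  have hYM : s ^ (M / 2) ≤ Real.sqrt (Lc * s ^ (h * m)) := by
    apply Real.le_sqrt_of_sq_le
    rw [← Real.rpow_natCast, ← Real.rpow_mul hs.le]
    have h1 : s ^ (M / 2 * ((2 : ℕ) : ℝ)) ≤ s ^ (h * m) := by
      apply Real.rpow_le_rpow_of_exponent_ge hs hs1.le
      push_cast
      linarith
    nlinarith
  refine ch_doc_fin s t a M _ _ hs hs1 h4 hYM ?_ hinv
  have e2 : s ^ (-a) ≤ (s ^ (-(t / 4))) ^ 2 := by
    rw [← Real.rpow_natCast, ← Real.rpow_mul hs.le]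
    apply Real.rpow_le_rpow_of_exponent_ge hs hs1.le
    push_cast
    linarith
  have hp3 : 0 < s ^ (-a) := Real.rpow_pos_of_pos hs _
  have em : s ^ (m * h) = s ^ (h * m) := by rw [mul_comm]
  rw [em]
  have hW : Real.sqrt (Lc * s ^ (h * m)) ^ 2 = Lc * s ^ (h * m) := Real.sq_sqrt (by positivity)
  have hW0 : 0 ≤ Real.sqrt (Lc * s ^ (h * m)) := Real.sqrt_nonneg _
  generalize Real.sqrt (Lc * s ^ (h * m)) = Wq at *
  generalize s ^ (-(t / 4)) = u at *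
  have hu0 : 0 < u := by linarith
  have e3 : 1 ≤ u ^ 2 := by nlinarith
  refine Real.sqrt_le_iff.2 ⟨by positivity, ?_⟩
  calc 1 * (Lc * (s ^ (-a) + 1)) * s ^ (h * m) ≤ 1 * (Lc * (u ^ 2 + u ^ 2)) * s ^ (h * m) := by gcongr
    _ = 2 * u ^ 2 * (Lc * s ^ (h * m)) := by ring
    _ = 2 * u ^ 2 * Wq ^ 2 := by rw [hW]
    _ ≤ (2 * u * Wq) ^ 2 := by nlinarith [sq_nonneg (u * Wq)]

/-! ### L-256-CHAN-N5 -/

/-- centres `x - hw + (2k+1) ρ`, `k < ⌊hw/ρ⌋₊ + 1`;   `Finset.card_biUnion_le`, `Finset.card_image_le`. -/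
theorem ch_doc_cover {ι : Type} (c : ι → Finset ℝ) (hw ρ : ℝ) (hρ : 0 < ρ) (hw0 : 0 ≤ hw) :
    ∃ cs : ι → Finset ℝ, (∀ lam, ((cs lam).card : ℝ) ≤ ((c lam).card : ℝ) * (hw / ρ + 1)) ∧
      ∀ lam, ∀ x ∈ c lam, ∀ y : ℝ, |y - x| ≤ hw → ∃ x' ∈ cs lam, |y - x'| ≤ ρ := by
  classical
  refine ⟨fun lam => (c lam).biUnion fun x => (Finset.range (⌊hw / ρ⌋₊ + 1)).image fun k : ℕ => x - hw + (2 * (k : ℝ) + 1) * ρ, fun lam => ?_,
    fun lam x hx y hy => ?_⟩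
  · have h1 : ((c lam).biUnion fun x => (Finset.range (⌊hw / ρ⌋₊ + 1)).image fun k : ℕ => x - hw + (2 * (k : ℝ) + 1) * ρ).card
        ≤ (c lam).card * (⌊hw / ρ⌋₊ + 1) := by
      refine Finset.card_biUnion_le_card_mul _ _ _ fun x _ => ?_
      exact Finset.card_image_le.trans (by rw [Finset.card_range])
    have h2 : ((⌊hw / ρ⌋₊ : ℕ) : ℝ) ≤ hw / ρ := Nat.floor_le (by positivity)
    calc (((c lam).biUnion fun x => (Finset.range (⌊hw / ρ⌋₊ + 1)).image fun k : ℕ => x - hw + (2 * (k : ℝ) + 1) * ρ).card : ℝ)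
        ≤ (((c lam).card * (⌊hw / ρ⌋₊ + 1) : ℕ) : ℝ) := by exact_mod_cast h1
      _ = ((c lam).card : ℝ) * ((⌊hw / ρ⌋₊ : ℝ) + 1) := by push_cast; ring
      _ ≤ _ := by gcongr
  · obtain ⟨hy1, hy2⟩ := abs_le.1 hy
    set u : ℝ := (y - x + hw) / (2 * ρ) with hu
    have hu0 : 0 ≤ u := div_nonneg (by linarith) (by positivity)
    have hule : u ≤ hw / ρ := by
      rw [hu, div_le_div_iff₀ (by positivity) hρ]
      nlinarith
    have hk1 : ((⌊u⌋₊ : ℕ) : ℝ) ≤ u := Nat.floor_le hu0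
    have hk2 : u < (⌊u⌋₊ : ℝ) + 1 := Nat.lt_floor_add_one u
    have hyu : y = x - hw + 2 * ρ * u := by
      rw [hu]
      field_simp
      ring
    refine ⟨x - hw + (2 * ((⌊u⌋₊ : ℕ) : ℝ) + 1) * ρ, ?_, ?_⟩
    · refine Finset.mem_biUnion.2 ⟨x, hx, Finset.mem_image.2 ⟨⌊u⌋₊, ?_, rfl⟩⟩
      exact Finset.mem_range.2 (Nat.lt_succ_of_le (Nat.floor_mono hule))
    · rw [abs_le, hyu]
      constructor <;> nlinarith

/-- `P0 a ρ = ((gs ρ).toList).getD a 0`. -/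
theorem ch_doc_enum {ι : Type} (gs : ι → Finset ℝ) (g : ℕ) (h : ∀ ρ, (gs ρ).card ≤ g) :
    ∃ P0 : Fin g → ι → ℝ, (∀ ρ, ∀ γ ∈ gs ρ, ∃ a, P0 a ρ = γ) ∧ ∀ a ρ, P0 a ρ ∈ gs ρ ∨ P0 a ρ = 0 := by
  refine ⟨fun a ρ => ((gs ρ).toList).getD a 0, fun ρ γ hγ => ?_, fun a ρ => ?_⟩
  · obtain ⟨i, hi, hiγ⟩ := List.getElem_of_mem (Finset.mem_toList.2 hγ)
    have hi' : i < g := lt_of_lt_of_le (by simpa using hi) (h ρ)
    refine ⟨⟨i, hi'⟩, ?_⟩
    show ((gs ρ).toList).getD i 0 = γ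
    rw [List.getD_eq_getElem _ _ hi, hiγ]
  · by_cases ha : (a : ℕ) < ((gs ρ).toList).length
    · left
      show ((gs ρ).toList).getD a 0 ∈ gs ρ
      rw [List.getD_eq_getElem _ _ ha]
      exact Finset.mem_toList.1 (List.getElem_mem ha)
    · right
      exact List.getD_eq_default _ _ (not_lt.1 ha)

end Claimed.Agent.R256
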