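-- KEEP
import Claimed.Agent.R256.Chan.Contract
import Claimed.Agent.R256.Soft.Voc
import Claimed.Agent.R256.Nm.X
import Claimed.Agent.R256.Ce.Defs
import Claimed.Agent.R255.Ent.Basic

/-!
# Row 256 (LS paper), CHAN, unit ADC, file 1 : DEFINITIONS of the adapter `SfDoc ⟹ ChSeg`          (architect helper33; chief helper130; prefix `ch_doc_`, `chD`)

Gates `i < j` of a CLASSICAL documented configuration `D`.   `l0 = len i`, `r1 = r j`, `f1` = end normal width (`f j`, or `4 s^(-4a) f j` for the enclosing linear tests), `dl = len j / len i`.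
* `chDocMS`      the discrete sigma-algebra on `D.Row i` (use `attribute [local instance] chDocMS`)
* `chWM w`       the weighted counting measure `Σ w ω δ_ω`
* `chNT l0 r1 f1 Q`   the test `Q : SfTest` in the units `(l0, r1, f1)`;   `chCy Q = chNT 1 1 1 Q` without the divisions;   `chUT` the inverse (at the time `T0`)
* `chAt D i j t' ρ`   `= P_j {T_j = t', ancestor ρ}`
* `ChDd D i j`   the DATA of one application of `ch_mem_core`: `f1`, enclosing end tests `Qe`, start data `be0 K0`, `g` guesses `P0` (REAL units), the event `Ev` at the gate `j`, lists of centres `cs` (REAL units, half width `r j * dl^Lm`), domination constant `cd`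
* `X.aW lam ρ`   `= P_j {lab = lam, ancestor ρ, Ev}`;   `X.th T0 lam ρ = aW / max (cd P_i ρ) (At lam.T ρ)` on `T_i ρ = T0`
* `chLabs D i j T0`   the labels of the gate `j` whose interval lies in `[T0, T0 + len i]`
* `X.seg T0`     the segment;   `X.E Lm`  the event that is estimated;   `X.Ok`  the hypotheses.
-/

set_option autoImplicit false

namespace Claimed.Agent.R256

open Claimed.Agent.R255 MeasureTheory
open scoped BigOperators
open Classical

/-- the discrete sigma-algebra on the rows -/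
@[reducible] def chDocMS (D : SfDoc) (i : ℝ) : MeasurableSpace (D.Row i) := ⊤

attribute [local instance] chDocMS

/-- the weighted counting measure -/
noncomputable def chWM {Om : Type} [Fintype Om] [MeasurableSpace Om] (w : Om → ℝ) : Measure Om :=
  ∑ ω, ENNReal.ofReal (w ω) • Measure.dirac ω

/-- a test in the units `(l0, r1, f1)` -/
noncomputable def chNT (l0 r1 f1 : ℝ) (Q : SfTest) : CyT where
  x := Q.x / r1
  b := Q.b / (l0 * r1)
  y := Q.y / (l0 * r1 ^ 2)
  r := Q.r / r1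
  f := Q.f / f1
  c := Q.c / f1
  d := Q.d / (l0 * f1)
  al := Q.al * r1 / f1
  be := Q.be * r1 ^ 2 / f1
  K := Q.K * l0 * r1 ^ 2 / f1

/-- forget the time -/
def chCy (Q : SfTest) : CyT := ⟨Q.x, Q.b, Q.y, Q.r, Q.f, Q.c, Q.d, Q.al, Q.be, Q.K⟩

/-- back to real units, at the time `T0` -/
noncomputable def chUT (T0 l0 r1 f1 : ℝ) (Q : CyT) : SfTest where
  T := T0
  x := Q.x * r1
  b := Q.b * (l0 * r1)
  y := Q.y * (l0 * r1 ^ 2)
  c := Q.c * f1
  d := Q.d * (l0 * f1)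
  al := Q.al * f1 / r1
  be := Q.be * f1 / r1 ^ 2
  K := Q.K * f1 / (l0 * r1 ^ 2)
  r := Q.r * r1
  f := Q.f * f1

/-- a ray at the time `T0 + T l0` in the units `(l0, r1, f1)` -/
noncomputable def chNR (T0 l0 r1 f1 : ℝ) (z : SfRay) (T : ℝ) : Cy5 :=
  ⟨z.X / r1, z.Bt T0 / (l0 * r1) + T * (z.X / r1), z.Yt T0 / (l0 * r1 ^ 2) + T * (z.X / r1) ^ 2, z.N / f1,
    z.Dt T0 / (l0 * f1) + T * (z.N / f1)⟩

/-- the mass of the gate `j` at the time `t'` below the row `ρ` of the gate `i` -/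
noncomputable def chAt (D : SfDoc) (i j t' : ℝ) (ρ : D.Row i) : ℝ :=
  (D.P j).pr (fun ρ' => D.T j ρ' = t' ∧ D.Conn i j ρ ρ')

/-- the labels of the gate `j` whose interval lies in `[T0, T0 + len i]` -/
noncomputable def chLabs (D : SfDoc) (i j T0 : ℝ) : Finset SfTest :=
  (Finset.univ.image (D.lab j)).filter (fun lam => T0 ≤ lam.T ∧ lam.T + D.len j ≤ T0 + D.len i)

/-- enumeration of the labels -/
noncomputable def chLam (D : SfDoc) (i j T0 : ℝ) (l : Fin (chLabs D i j T0).card) : SfTest :=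
  ((chLabs D i j T0).equivFin.symm l).1

/-- the data of one application of `ch_mem_core` -/
structure ChDd (D : SfDoc) (i j : ℝ) where
  /-- end normal width -/
  f1 : ℝ
  /-- enclosing end tests -/
  Qe : SfTest → SfTest
  /-- start data (real units) -/
  be0 : D.Row i → ℝ
  K0 : D.Row i → ℝ
  g : ℕ
  P0 : Fin g → D.Row i → ℝ
  /-- the event at the gate `j` -/
  Ev : D.Row j → Prop
  /-- centres of the listed cells (real units) -/
  cs : SfTest → Finset ℝ
  /-- the domination constant -/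
  cd : ℝ

namespace ChDd

variable {D : SfDoc} {i j : ℝ} (X : ChDd D i j)

/-- `P_j {lab = lam, ancestor ρ, Ev}` -/
noncomputable def aW (lam : SfTest) (ρ : D.Row i) : ℝ :=
  (D.P j).pr (fun ρ' => D.lab j ρ' = lam ∧ D.Conn i j ρ ρ' ∧ X.Ev ρ')

/-- the fractional weights -/
noncomputable def th (T0 : ℝ) (lam : SfTest) (ρ : D.Row i) : ℝ :=
  if D.T i ρ = T0 then X.aW lam ρ / max (X.cd * (D.P i).p ρ) (chAt D i j lam.T ρ) else 0

/-- the angle of the row `ρ` lies in a cell listed by `lam` -/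
def hit (Lm : ℝ) (lam : SfTest) (ρ : D.Row i) : Prop :=
  ∃ x ∈ X.cs lam, |(D.ray i ρ).X - x| ≤ D.r j * (D.len j / D.len i) ^ Lm

/-- the event which is estimated -/
def E (Lm : ℝ) (ρ' : D.Row j) : Prop :=
  X.Ev ρ' ∧ ∃ x ∈ X.cs (D.lab j ρ'), |(D.ray j ρ').X - x| ≤ D.r j * (D.len j / D.len i) ^ Lm

/-- the segment with the start time `T0` -/
noncomputable def seg (T0 : ℝ) : ChSeg (D.Row i) where
  mu := chWM (fun ρ => if D.T i ρ = T0 then (D.P i).p ρ else 0)
  X := fun ρ => (D.ray i ρ).X / D.r j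
  B := fun ρ => (D.ray i ρ).Bt T0 / (D.len i * D.r j)
  Y := fun ρ => (D.ray i ρ).Yt T0 / (D.len i * D.r j ^ 2)
  N := fun ρ => (D.ray i ρ).N / X.f1
  D := fun ρ => (D.ray i ρ).Dt T0 / (D.len i * X.f1)
  dl := D.len j / D.len i
  be0 := fun ρ => X.be0 ρ * D.r j ^ 2 / X.f1
  K0 := fun ρ => X.K0 ρ * D.len i * D.r j ^ 2 / X.f1
  g := X.g
  P0 := fun a ρ => X.P0 a ρ * D.r j / X.f1
  L := (chLabs D i j T0).card
  tm := fun l => ((chLam D i j T0 l).T - T0) / D.len i
  Q := fun l => chNT (D.len i) (D.r j) X.f1 (X.Qe (chLam D i j T0 l))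
  th := fun l ρ => X.th T0 (chLam D i j T0 l) ρ
  lst := fun l => (X.cs (chLam D i j T0 l)).image (fun x => x / D.r j)

/-- the hypotheses -/
structure Ok (π : SfPar) (C0 a κ A Lm Qx Rn : ℝ) : Prop where
  core : D.Core π C0 a
  cl : π.hyb = false
  a0 : 0 < a
  gi : i ∈ D.G
  gj : j ∈ D.G
  ij : i < j
  cd : X.cd = D.s ^ (-a) * D.s ^ (π.d * (j - i))
  A1 : 1 ≤ A
  ka0 : 0 ≤ κ
  L1 : 1 ≤ Lm
  ML : 1 + Qx ≤ 2 * Lm
  f1 : 0 < X.f1
  QeT : ∀ lam, (X.Qe lam).T = lam.T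
  Qew : ∀ ρ', (X.Qe (D.lab j ρ')).r = D.r j ∧ (X.Qe (D.lab j ρ')).f = X.f1
  Qein : ∀ ρ', (X.Qe (D.lab j ρ')).Mem (D.len j) (D.ray j ρ')
  near : ∀ ρ ρ', D.Conn i j ρ ρ' → X.Ev ρ' → ∃ a', chNear A Lm Qx (D.len j / D.len i) (D.len i) (D.r j) X.f1
    (D.T j ρ' - D.T i ρ) (X.be0 ρ) (X.K0 ρ) (X.P0 a' ρ) (D.ray i ρ).X ((D.ray i ρ).Bt (D.T j ρ')) (chCy (X.Qe (D.lab j ρ')))
  card : ∀ lam, ((X.cs lam).card : ℝ) ≤ Rn
  reg : ∀ (T0 : ℝ) (Q : CyT), (X.seg T0).RT Lm Qx Q →
    ((X.seg T0).mu {ω | cyIn Q 1 ((X.seg T0).co 0 ω)}).toReal ≤ κ * cyWt π.η Q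

end ChDd

theorem ch_doc_defs_eqns_cite : True := by
  have := @chWM.eq_1
  have := @chNT.eq_1
  have := @chCy.eq_1
  have := @chUT.eq_1
  have := @chNR.eq_1
  have := @chAt.eq_1
  have := @chLabs.eq_1
  have := @chLam.eq_1
  have := @ChDd.aW.eq_1
  have := @ChDd.th.eq_1
  have := @ChDd.hit.eq_1
  have := @ChDd.E.eq_1
  have := @ChDd.seg.eq_1
  trivial

end Claimed.Agent.R256
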