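-- KEEP
import Claimed.Agent.R256.Chan.DocDefs

/-!
# Row 256 (LS paper), CHAN, unit ADC, file 2 : THE GENERAL INEQUALITY `ch_doc_gen`          (architect helper33; prefix `ch_doc_`)

`X : ChDd D i j`, `X.Ok π C0 a κ A Lm Qx Rn`.   `𝒯 = image (T i)`, `𝓛 = image (lab j)`, `cd = s^(-a) s^(d (j-i))`.
  (A)  `P_j (X.E Lm) ≤ Σ_ρ Σ_{lam ∈ 𝓛} 1[hit lam ρ] aW lam ρ`                       (every charged row has an ancestor with the same ray: `clPath`, `normC`)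
  (BC) `.. ≤ cd Σ_ρ Σ_lam P_i ρ th lam ρ 1[hit] + (1/len j + 1) s^(1/a)`            (domination by `tp` with `M = 1`; number of times of the gate `j`)
  (D)  `Σ_ρ Σ_lam P_i ρ th lam ρ 1[hit] = Σ_{T0 ∈ 𝒯} Σ_l ∫ th_l 1[hitS] dμ_T0`      (bookkeeping)
  (E)  `(X.seg T0).Ok`, then `ch_mem_core`
  (F)  Cauchy-Schwarz over `T0`: `Σ L_T0 ≤ #𝓛`, `Σ μ_T0 univ = 1`.
-/

set_option autoImplicit false

namespace Claimed.Agent.R256

open Claimed.Agent.R255 MeasureTheory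
open scoped BigOperators
open Classical

attribute [local instance] chDocMS

/-! ### L-256-CHAN-D1 : weighted counting measures on a finite type with the discrete sigma-algebra (Mathlib only) -/

theorem ch_doc_wm_fin {Om : Type} [Fintype Om] [MeasurableSpace Om] (w : Om → ℝ) : IsFiniteMeasure (chWM w) := by
  refine ⟨?_⟩
  unfold chWM
  rw [Measure.finsetSum_apply]
  refine ENNReal.sum_lt_top.2 fun ω _ => ?_
  rw [Measure.smul_apply, smul_eq_mul]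
  exact ENNReal.mul_lt_top ENNReal.ofReal_lt_top (measure_lt_top _ _)

/-- `integral_finset_sum_measure`, `integral_smul_measure`, `integral_dirac'` (everything is measurable: `measurable_from_top`). -/
theorem ch_doc_wm_integral {Om : Type} [Fintype Om] (w : Om → ℝ) (hw : ∀ ω, 0 ≤ w ω) (f : Om → ℝ) :
    ∫ ω, f ω ∂(@chWM Om _ ⊤ w) = ∑ ω, w ω * f ω := by
  let _ : MeasurableSpace Om := ⊤
  have hm : StronglyMeasurable f := (measurable_from_top : Measurable f).stronglyMeasurable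
  unfold chWM
  rw [integral_finsetSum_measure]
  · refine Finset.sum_congr rfl fun ω _ => ?_
    rw [integral_smul_measure, integral_dirac' f ω hm, ENNReal.toReal_ofReal (hw ω), smul_eq_mul]
  · intro ω _
    refine Integrable.smul_measure ?_ ENNReal.ofReal_ne_top
    exact ⟨hm.aestronglyMeasurable, by
      rw [hasFiniteIntegral_iff_enorm, lintegral_dirac' ω hm.enorm]
      exact enorm_lt_top⟩

theorem ch_doc_wm_apply {Om : Type} [Fintype Om] (w : Om → ℝ) (hw : ∀ ω, 0 ≤ w ω) (A : Set Om) :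
    ((@chWM Om _ ⊤ w) A).toReal = ∑ ω, if ω ∈ A then w ω else 0 := by
  let _ : MeasurableSpace Om := ⊤
  have hA : MeasurableSet A := trivial
  unfold chWM
  rw [Measure.finsetSum_apply, ENNReal.toReal_sum]
  · refine Finset.sum_congr rfl fun ω _ => ?_
    rw [Measure.smul_apply, smul_eq_mul, Measure.dirac_apply' ω hA, ENNReal.toReal_mul, ENNReal.toReal_ofReal (hw ω)]
    by_cases h : ω ∈ A
    · simp [h]
    · simp [h]
  · intro ω _
    rw [Measure.smul_apply, smul_eq_mul]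
    exact ENNReal.mul_ne_top ENNReal.ofReal_ne_top (measure_ne_top _ _)

variable {D : SfDoc} {i j : ℝ} {X : ChDd D i j} {π : SfPar} {C0 a κ A Lm Qx Rn : ℝ}

variable {D : SfDoc} {i j : ℝ} {X : ChDd D i j} {π : SfPar} {C0 a κ A Lm Qx Rn : ℝ}

/-! ### L-256-CHAN-D2 : lengths, ancestors -/

theorem ch_doc_s_pos (h : D.Core π C0 a) : 0 < D.s := h.hs.1

theorem ch_doc_len_pos (h : D.Core π C0 a) {k : ℝ} (hk : k ∈ D.G) : 0 < D.len k :=
  lt_of_lt_of_le (Real.rpow_pos_of_pos h.hs.1 _) (h.hlen.2 k hk).1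

/-- `base` (same index, nested intervals), `grid` (start intervals are disjoint), `clUniq` (`i < j ≤ 1`). -/
theorem ch_doc_anc_unique (h : D.Core π C0 a) (hc : π.hyb = false) (hi : i ∈ D.G) (hj : j ∈ D.G) (hij : i < j)
    {ρ1 ρ2 : D.Row i} {ρ' : D.Row j} (h1 : D.Conn i j ρ1 ρ') (h2 : D.Conn i j ρ2 ρ') : ρ1 = ρ2 := by
  obtain ⟨a1, a2, a3, -⟩ := h.base i hi j hj hij ρ1 ρ' h1
  obtain ⟨b1, b2, b3, -⟩ := h.base i hi j hj hij ρ2 ρ' h2
  have hl := ch_doc_len_pos h hj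
  have hT : D.T i ρ1 = D.T i ρ2 := by
    by_contra hne
    have h3 := h.grid i hi ρ1 ρ2 hne
    have h4 : |D.T i ρ1 - D.T i ρ2| < D.len i := abs_lt.2 ⟨by linarith, by linarith⟩
    linarith
  exact h.clUniq hc i hi (lt_of_lt_of_le hij (h.gate.2 j hj).2) ρ1 ρ2 (a3.trans b3.symm) hT

/-- some row of `j` is charged (`sum_one`), it has an ancestor (`clPath`), `base`: nested intervals. -/
theorem ch_doc_len_le (h : D.Core π C0 a) (hc : π.hyb = false) (hi : i ∈ D.G) (hj : j ∈ D.G) (hij : i < j) :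
    D.len j ≤ D.len i := by
  obtain ⟨ρ', hρ'⟩ := ent_exists_supp (D.P j)
  obtain ⟨ρ, hρ, -⟩ := h.clPath hc i hi j hj hij ρ' (lt_of_le_of_ne ((D.P j).nonneg ρ') (Ne.symm hρ'))
  obtain ⟨a1, a2, -, -⟩ := h.base i hi j hj hij ρ ρ' hρ
  linarith

/-! ### L-256-CHAN-D3 : (A) -/

theorem ch_doc_pr_eq {Om : Type} [Fintype Om] (P : FLaw Om) (E : Om → Prop) [DecidablePred E] :
    P.pr E = ∑ ω, if E ω then P.p ω else 0 := by
  unfold FLaw.pr
  exact Finset.sum_congr rfl fun _ _ => by congr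

/-- exchange the sums: RHS `= Σ_ρ' p ρ' #{(ρ, lam) : lam = lab ρ', Conn ρ ρ', Ev ρ', hit lam ρ}`; for a charged `ρ' ∈ E` the ancestor `ρ` of `clPath` has `ray i ρ = ray j ρ'` (`normC`). -/
theorem ch_doc_A (hX : X.Ok π C0 a κ A Lm Qx Rn) :
    (D.P j).pr (X.E Lm) ≤ ∑ ρ : D.Row i, ∑ lam ∈ Finset.univ.image (D.lab j), (if X.hit Lm lam ρ then X.aW lam ρ else 0) := by
  have e1 : ∀ (ρ : D.Row i) (lam : SfTest), (if X.hit Lm lam ρ then X.aW lam ρ else 0)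
      = ∑ ρ' : D.Row j, (if X.hit Lm lam ρ then (if D.lab j ρ' = lam ∧ D.Conn i j ρ ρ' ∧ X.Ev ρ' then (D.P j).p ρ' else 0) else 0) := by
    intro ρ lam
    by_cases hh : X.hit Lm lam ρ
    · simp only [hh, if_true]
      exact ch_doc_pr_eq _ _
    · simp [hh]
  simp only [e1]
  rw [ch_doc_pr_eq]
  have e2 : ∑ ρ : D.Row i, ∑ lam ∈ Finset.univ.image (D.lab j), ∑ ρ' : D.Row j,
        (if X.hit Lm lam ρ then (if D.lab j ρ' = lam ∧ D.Conn i j ρ ρ' ∧ X.Ev ρ' then (D.P j).p ρ' else 0) else 0)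
      = ∑ ρ' : D.Row j, ∑ ρ : D.Row i, ∑ lam ∈ Finset.univ.image (D.lab j),
        (if X.hit Lm lam ρ then (if D.lab j ρ' = lam ∧ D.Conn i j ρ ρ' ∧ X.Ev ρ' then (D.P j).p ρ' else 0) else 0) := by
    calc _ = ∑ ρ : D.Row i, ∑ ρ' : D.Row j, ∑ lam ∈ Finset.univ.image (D.lab j),
        (if X.hit Lm lam ρ then (if D.lab j ρ' = lam ∧ D.Conn i j ρ ρ' ∧ X.Ev ρ' then (D.P j).p ρ' else 0) else 0) :=
          Finset.sum_congr rfl fun ρ _ => Finset.sum_comm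
      _ = _ := Finset.sum_comm
  rw [e2]
  refine Finset.sum_le_sum fun ρ' _ => ?_
  have hnn : ∀ (ρ : D.Row i) (lam : SfTest),
      0 ≤ (if X.hit Lm lam ρ then (if D.lab j ρ' = lam ∧ D.Conn i j ρ ρ' ∧ X.Ev ρ' then (D.P j).p ρ' else 0) else 0) := by
    intro ρ lam
    split_ifs
    exacts [(D.P j).nonneg ρ', le_rfl, le_rfl]
  by_cases hE : X.E Lm ρ'
  · rw [if_pos hE]
    rcases eq_or_lt_of_le ((D.P j).nonneg ρ') with h0 | h0
    · rw [← h0]
      exact Finset.sum_nonneg fun ρ _ => Finset.sum_nonneg fun lam _ => by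
        have := hnn ρ lam
        rwa [← h0] at this
    · obtain ⟨ρ, hρ, -⟩ := hX.core.clPath hX.cl i hX.gi j hX.gj hX.ij ρ' h0
      have hray := hX.core.normC hX.cl i hX.gi j hX.gj hX.ij ρ ρ' hρ
      have hhit : X.hit Lm (D.lab j ρ') ρ := by
        obtain ⟨-, x, hx, hx'⟩ := hE
        exact ⟨x, hx, by rw [hray]; exact hx'⟩
      calc (D.P j).p ρ' = (if X.hit Lm (D.lab j ρ') ρ then (if D.lab j ρ' = D.lab j ρ' ∧ D.Conn i j ρ ρ' ∧ X.Ev ρ' then (D.P j).p ρ' else 0) else 0) := by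
            rw [if_pos hhit, if_pos ⟨rfl, hρ, hE.1⟩]
        _ ≤ ∑ lam ∈ Finset.univ.image (D.lab j),
            (if X.hit Lm lam ρ then (if D.lab j ρ' = lam ∧ D.Conn i j ρ ρ' ∧ X.Ev ρ' then (D.P j).p ρ' else 0) else 0) :=
            Finset.single_le_sum (f := fun lam => (if X.hit Lm lam ρ then (if D.lab j ρ' = lam ∧ D.Conn i j ρ ρ' ∧ X.Ev ρ' then (D.P j).p ρ' else 0) else 0))
              (fun lam _ => hnn ρ lam) (Finset.mem_image_of_mem _ (Finset.mem_univ ρ'))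
        _ ≤ _ := Finset.single_le_sum (f := fun ρ => ∑ lam ∈ Finset.univ.image (D.lab j),
            (if X.hit Lm lam ρ then (if D.lab j ρ' = lam ∧ D.Conn i j ρ ρ' ∧ X.Ev ρ' then (D.P j).p ρ' else 0) else 0))
              (fun ρ _ => Finset.sum_nonneg fun lam _ => hnn ρ lam) (Finset.mem_univ ρ)
  · rw [if_neg hE]
    exact Finset.sum_nonneg fun ρ _ => Finset.sum_nonneg fun lam _ => hnn ρ lam

/-! ### L-256-CHAN-D4 : domination -/

/-- `tp` with `U = {T_j = t', ancestor in S}`, `S = {ρ | cd P_i ρ < At t' ρ}`, `M = 1`; `P_j U = Σ_{ρ ∈ S} At t' ρ` (`ch_doc_anc_unique`). -/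
theorem ch_doc_dom (h : D.Core π C0 a) (hc : π.hyb = false) (hi : i ∈ D.G) (hj : j ∈ D.G) (hij : i < j) (t' : ℝ) :
    ∑ ρ : D.Row i, max 0 (chAt D i j t' ρ - D.s ^ (-a) * D.s ^ (π.d * (j - i)) * (D.P i).p ρ) ≤ D.s ^ (1 / a) := by
  obtain ⟨cd, hcd⟩ : ∃ cd : ℝ, cd = D.s ^ (-a) * D.s ^ (π.d * (j - i)) := ⟨_, rfl⟩
  rw [← hcd]
  obtain ⟨S, hS⟩ : ∃ S : D.Row i → Prop, S = fun ρ => cd * (D.P i).p ρ < chAt D i j t' ρ := ⟨_, rfl⟩
  obtain ⟨U, hU⟩ : ∃ U : D.Row j → Prop, U = fun ρ' => D.T j ρ' = t' ∧ ∃ ρ, S ρ ∧ D.Conn i j ρ ρ' := ⟨_, rfl⟩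
  have hPred : D.Pred i j U S := by
    intro ρ' hρ' ρ hρ
    rw [hU] at hρ'
    obtain ⟨-, ρ0, h0, h1⟩ := hρ'
    rwa [ch_doc_anc_unique h hc hi hj hij hρ h1]
  have hM : ∀ ρ, S ρ → (({t'' | ∃ ρ', U ρ' ∧ D.Conn i j ρ ρ' ∧ D.T j ρ' = t''} : Set ℝ).ncard : ℝ) ≤ 1 := by
    intro ρ _
    have hsub : ({t'' | ∃ ρ', U ρ' ∧ D.Conn i j ρ ρ' ∧ D.T j ρ' = t''} : Set ℝ) ⊆ {t'} := by
      rintro t'' ⟨ρ', h1, -, rfl⟩
      rw [hU] at h1
      exact h1.1
    have := Set.ncard_le_ncard hsub (Set.finite_singleton _)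
    rw [Set.ncard_singleton] at this
    exact_mod_cast this
  have htp := h.tp i hi j hj hij U S 1 hPred hM
  rw [mul_one, ← hcd] at htp
  -- the sum over S of At is at most P_j U
  have hsum : ∑ ρ : D.Row i, (if S ρ then chAt D i j t' ρ else 0) ≤ (D.P j).pr U := by
    have e1 : ∀ ρ : D.Row i, (if S ρ then chAt D i j t' ρ else 0)
        = ∑ ρ' : D.Row j, (if S ρ then (if D.T j ρ' = t' ∧ D.Conn i j ρ ρ' then (D.P j).p ρ' else 0) else 0) := by
      intro ρ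
      by_cases hh : S ρ
      · simp only [hh, if_true]
        exact ch_doc_pr_eq _ _
      · simp [hh]
    simp only [e1]
    rw [Finset.sum_comm, ch_doc_pr_eq]
    refine Finset.sum_le_sum fun ρ' _ => ?_
    by_cases hex : ∃ ρ, S ρ ∧ D.T j ρ' = t' ∧ D.Conn i j ρ ρ'
    · obtain ⟨ρ0, h0, h1, h2⟩ := hex
      have hUρ : U ρ' := by rw [hU]; exact ⟨h1, ρ0, h0, h2⟩
      rw [if_pos hUρ, Finset.sum_eq_single ρ0]
      · rw [if_pos h0, if_pos ⟨h1, h2⟩]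
      · intro ρ _ hne
        by_cases hs : S ρ
        · rw [if_pos hs, if_neg]
          rintro ⟨-, h3⟩
          exact hne (ch_doc_anc_unique h hc hi hj hij h3 h2)
        · rw [if_neg hs]
      · intro hn
        exact absurd (Finset.mem_univ _) hn
    · have : ∀ ρ : D.Row i, (if S ρ then (if D.T j ρ' = t' ∧ D.Conn i j ρ ρ' then (D.P j).p ρ' else 0) else 0) = 0 := by
        intro ρ
        by_cases hs : S ρ
        · rw [if_pos hs, if_neg]
          rintro ⟨h3, h4⟩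
          exact hex ⟨ρ, hs, h3, h4⟩
        · rw [if_neg hs]
      simp only [this, Finset.sum_const_zero]
      split_ifs
      exacts [(D.P j).nonneg ρ', le_rfl]
  have e3 : ∀ ρ : D.Row i, max 0 (chAt D i j t' ρ - cd * (D.P i).p ρ)
      = (if S ρ then chAt D i j t' ρ else 0) - cd * (if S ρ then (D.P i).p ρ else 0) := by
    intro ρ
    by_cases hs : S ρ
    · rw [if_pos hs, if_pos hs]
      rw [hS] at hs
      exact max_eq_right (by linarith)
    · rw [if_neg hs, if_neg hs]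
      rw [hS] at hs
      rw [mul_zero, sub_zero]
      exact max_eq_left (by linarith [not_lt.1 hs])
  simp only [e3]
  rw [Finset.sum_sub_distrib, ← Finset.mul_sum, ← ch_doc_pr_eq]
  linarith

theorem ch_doc_times_abs (F : Finset ℝ) {l : ℝ} (hl : 0 < l) (h01 : ∀ t ∈ F, 0 ≤ t ∧ t ≤ 1) (hsep : ∀ t ∈ F, ∀ t' ∈ F, t ≠ t' → l ≤ |t - t'|) :
    (F.card : ℝ) ≤ 1 / l + 1 := by
  have h1 : F.card ≤ (Finset.range (⌊1 / l⌋₊ + 1)).card := by
    refine Finset.card_le_card_of_injOn (fun t => ⌊t / l⌋₊) ?_ ?_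
    · intro t ht
      have := h01 t ht
      simp only [Finset.coe_range, Set.mem_Iio]
      exact Nat.lt_succ_of_le (Nat.floor_le_floor (div_le_div_of_nonneg_right this.2 hl.le))
    · intro t ht t' ht' hfl
      by_contra hne
      have h2 := hsep t ht t' ht' hne
      have a1 := Nat.floor_le (div_nonneg (h01 t ht).1 hl.le)
      have a2 := Nat.lt_floor_add_one (t / l)
      have b1 := Nat.floor_le (div_nonneg (h01 t' ht').1 hl.le)
      have b2 := Nat.lt_floor_add_one (t' / l)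
      have hfl' : (⌊t / l⌋₊ : ℝ) = ⌊t' / l⌋₊ := by exact_mod_cast hfl
      have h3 : |t / l - t' / l| < 1 := abs_lt.2 ⟨by linarith, by linarith⟩
      rw [← sub_div, abs_div, abs_of_pos hl, div_lt_one hl] at h3
      linarith
  rw [Finset.card_range] at h1
  calc (F.card : ℝ) ≤ ((⌊1 / l⌋₊ + 1 : ℕ) : ℝ) := by exact_mod_cast h1
    _ = (⌊1 / l⌋₊ : ℝ) + 1 := by push_cast; ring
    _ ≤ 1 / l + 1 := by
        have := Nat.floor_le (div_nonneg zero_le_one hl.le : 0 ≤ 1 / l)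
        linarith

/-- a finite set of reals in `[0,1]`, `ℓ`-separated, has at most `1/ℓ + 1` elements (`own`, `grid`). -/
theorem ch_doc_times (h : D.Core π C0 a) (hj : j ∈ D.G) : ((Finset.univ.image (D.T j)).card : ℝ) ≤ 1 / D.len j + 1 := by
  have hl := ch_doc_len_pos h hj
  refine ch_doc_times_abs _ hl ?_ ?_
  · intro t ht
    obtain ⟨ρ, -, rfl⟩ := Finset.mem_image.1 ht
    obtain ⟨-, -, -, h1, h2⟩ := h.own j hj ρ
    exact ⟨h1, by linarith⟩
  · intro t ht t' ht' hne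
    obtain ⟨ρ, -, rfl⟩ := Finset.mem_image.1 ht
    obtain ⟨ρ', -, rfl⟩ := Finset.mem_image.1 ht'
    exact h.grid j hj ρ ρ' hne

/-! ### L-256-CHAN-D5 : the weights -/

theorem ch_doc_aW_nonneg (X : ChDd D i j) (lam : SfTest) (ρ : D.Row i) : 0 ≤ X.aW lam ρ := ent_pr_nonneg _ _

/-- disjoint events (`T j ρ' = (lab j ρ').T`). -/
theorem ch_doc_aW_sum (X : ChDd D i j) (t' : ℝ) (ρ : D.Row i) (s : Finset SfTest) (hs : ∀ lam ∈ s, lam.T = t') :
    ∑ lam ∈ s, X.aW lam ρ ≤ chAt D i j t' ρ := by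
  have h1 := ent_pr_sum_values (D.P j) (fun ρ' => D.lab j ρ' ∈ s ∧ D.Conn i j ρ ρ' ∧ X.Ev ρ') (D.lab j) s
    (fun ω _ h => h.1)
  have h2 : ∑ lam ∈ s, X.aW lam ρ
      = ∑ x ∈ s, (D.P j).pr (fun ω => (D.lab j ω ∈ s ∧ D.Conn i j ρ ω ∧ X.Ev ω) ∧ D.lab j ω = x) := by
    refine Finset.sum_congr rfl fun x hx => ?_
    unfold ChDd.aW
    refine ent_pr_congr _ fun ω _ => ?_
    constructor
    · rintro ⟨h1, h2, h3⟩
      exact ⟨⟨h1 ▸ hx, h2, h3⟩, h1⟩
    · rintro ⟨⟨_, h2, h3⟩, h1⟩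
      exact ⟨h1, h2, h3⟩
  rw [h2, ← h1]
  unfold chAt
  refine ent_pr_mono _ fun ω _ h => ⟨hs _ h.1, h.2.1⟩

theorem ch_doc_cd_nonneg (hX : X.Ok π C0 a κ A Lm Qx Rn) : 0 ≤ X.cd := by
  rw [hX.cd]
  have := hX.core.hs.1
  positivity

theorem ch_doc_cp_nonneg (hX : X.Ok π C0 a κ A Lm Qx Rn) (ρ : D.Row i) : 0 ≤ X.cd * (D.P i).p ρ :=
  mul_nonneg (ch_doc_cd_nonneg hX) ((D.P i).nonneg ρ)

theorem ch_doc_real_exc {S c M : ℝ} (hS : 0 ≤ S) (hc : 0 ≤ c) (hM : c ≤ M) : 0 ≤ S - c * (S / M) := by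
  rcases eq_or_lt_of_le (hc.trans hM) with h0 | h0
  · rw [← h0]; simpa using hS
  · have : c * (S / M) = S * (c / M) := by ring
    rw [this]
    have h1 : c / M ≤ 1 := (div_le_one h0).2 hM
    nlinarith

theorem ch_doc_real_exc2 {S c B : ℝ} (hS : 0 ≤ S) (hc : 0 ≤ c) (hSB : S ≤ B) :
    S - c * (S / max c B) ≤ max 0 (B - c) := by
  rcases le_total B c with h | h
  · rw [max_eq_left h]
    rcases eq_or_lt_of_le hc with h0 | h0
    · have : S = 0 := le_antisymm (by linarith) hS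
      rw [this]; simp
    · have : c * (S / c) = S := by field_simp
      rw [this]; simp
  · rw [max_eq_right h]
    refine le_trans ?_ (le_max_right _ _)
    rcases eq_or_lt_of_le (hS.trans hSB) with h0 | h0
    · have hS0 : S = 0 := le_antisymm (by linarith) hS
      have hc0 : c = 0 := le_antisymm (by linarith) hc
      rw [hS0, hc0, ← h0]; simp
    · have e : S - c * (S / B) = S * ((B - c) / B) := by field_simp
      rw [e]
      have h1 : 0 ≤ (B - c) / B := div_nonneg (by linarith) h0.le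
      calc S * ((B - c) / B) ≤ B * ((B - c) / B) := mul_le_mul_of_nonneg_right hSB h1
        _ = B - c := by field_simp

theorem ch_doc_th_nonneg (hX : X.Ok π C0 a κ A Lm Qx Rn) (T0 : ℝ) (lam : SfTest) (ρ : D.Row i) : 0 ≤ X.th T0 lam ρ := by
  unfold ChDd.th
  split_ifs
  · exact div_nonneg (ch_doc_aW_nonneg X lam ρ) ((ch_doc_cp_nonneg hX ρ).trans (le_max_left _ _))
  · exact le_rfl

/-- `aW lam ρ ≤ At lam.T ρ ≤ max ..`. -/
theorem ch_doc_exc_nonneg (hX : X.Ok π C0 a κ A Lm Qx Rn) (lam : SfTest) (ρ : D.Row i) :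
    0 ≤ X.aW lam ρ - X.cd * (D.P i).p ρ * X.th (D.T i ρ) lam ρ := by
  unfold ChDd.th
  rw [if_pos rfl]
  exact ch_doc_real_exc (ch_doc_aW_nonneg X lam ρ) (ch_doc_cp_nonneg hX ρ) (le_max_left _ _)

/-- `Σ_{lam.T = t'} aW (1 - cd P_i ρ / max (cd P_i ρ) (At t' ρ)) ≤ (At t' ρ - cd P_i ρ)_+`. -/
theorem ch_doc_exc_sum (hX : X.Ok π C0 a κ A Lm Qx Rn) (t' : ℝ) (ρ : D.Row i) (s : Finset SfTest) (hs : ∀ lam ∈ s, lam.T = t') :
    ∑ lam ∈ s, (X.aW lam ρ - X.cd * (D.P i).p ρ * X.th (D.T i ρ) lam ρ) ≤ max 0 (chAt D i j t' ρ - X.cd * (D.P i).p ρ) := by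
  have h1 : ∑ lam ∈ s, (X.aW lam ρ - X.cd * (D.P i).p ρ * X.th (D.T i ρ) lam ρ)
      = (∑ lam ∈ s, X.aW lam ρ) - X.cd * (D.P i).p ρ * ((∑ lam ∈ s, X.aW lam ρ) / max (X.cd * (D.P i).p ρ) (chAt D i j t' ρ)) := by
    rw [Finset.sum_sub_distrib, Finset.sum_div, Finset.mul_sum]
    congr 1
    refine Finset.sum_congr rfl fun lam hl => ?_
    unfold ChDd.th
    rw [if_pos rfl, hs lam hl]
  rw [h1]
  exact ch_doc_real_exc2 (Finset.sum_nonneg fun lam _ => ch_doc_aW_nonneg X lam ρ) (ch_doc_cp_nonneg hX ρ)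
    (ch_doc_aW_sum X t' ρ s hs)

/-! ### L-256-CHAN-D6 : (BC) -/

/-- `1[hit] aW ≤ cd P_i ρ th 1[hit] + exc` (`ch_doc_exc_nonneg`);  `Σ_ρ Σ_lam exc = Σ_{t' ∈ image (T j)} Σ_ρ Σ_{lam.T = t'} exc` (`Finset.sum_fiberwise_of_maps_to`), `ch_doc_exc_sum`, `ch_doc_dom`, `ch_doc_times`. -/
theorem ch_doc_BC (hX : X.Ok π C0 a κ A Lm Qx Rn) :
    ∑ ρ : D.Row i, ∑ lam ∈ Finset.univ.image (D.lab j), (if X.hit Lm lam ρ then X.aW lam ρ else 0)
      ≤ X.cd * ∑ ρ : D.Row i, ∑ lam ∈ Finset.univ.image (D.lab j),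
          (D.P i).p ρ * (X.th (D.T i ρ) lam ρ * (if X.hit Lm lam ρ then 1 else 0))
        + (1 / D.len j + 1) * D.s ^ (1 / a) := by
  have hterm : ∀ (ρ : D.Row i) (lam : SfTest), (if X.hit Lm lam ρ then X.aW lam ρ else 0)
      ≤ X.cd * ((D.P i).p ρ * (X.th (D.T i ρ) lam ρ * (if X.hit Lm lam ρ then 1 else 0)))
        + (X.aW lam ρ - X.cd * (D.P i).p ρ * X.th (D.T i ρ) lam ρ) := by
    intro ρ lam
    have h0 := ch_doc_exc_nonneg hX lam ρ
    split_ifs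
    · apply le_of_eq; ring
    · simpa using h0
  have hexc : ∑ ρ : D.Row i, ∑ lam ∈ Finset.univ.image (D.lab j), (X.aW lam ρ - X.cd * (D.P i).p ρ * X.th (D.T i ρ) lam ρ)
      ≤ (1 / D.len j + 1) * D.s ^ (1 / a) := by
    have hmaps : ∀ lam ∈ Finset.univ.image (D.lab j), SfTest.T lam ∈ Finset.univ.image (D.T j) := by
      intro lam hl
      obtain ⟨ρ', -, rfl⟩ := Finset.mem_image.1 hl
      exact Finset.mem_image.2 ⟨ρ', Finset.mem_univ _, rfl⟩
    have h1 : ∀ ρ : D.Row i, ∑ lam ∈ Finset.univ.image (D.lab j), (X.aW lam ρ - X.cd * (D.P i).p ρ * X.th (D.T i ρ) lam ρ)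
        ≤ ∑ t' ∈ Finset.univ.image (D.T j), max 0 (chAt D i j t' ρ - X.cd * (D.P i).p ρ) := by
      intro ρ
      rw [← Finset.sum_fiberwise_of_maps_to hmaps]
      refine Finset.sum_le_sum fun t' _ => ?_
      exact ch_doc_exc_sum hX t' ρ _ fun lam hl => (Finset.mem_filter.1 hl).2
    refine (Finset.sum_le_sum fun ρ _ => h1 ρ).trans ?_
    rw [Finset.sum_comm]
    have h2 : ∀ t' ∈ Finset.univ.image (D.T j), ∑ ρ : D.Row i, max 0 (chAt D i j t' ρ - X.cd * (D.P i).p ρ) ≤ D.s ^ (1 / a) := by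
      intro t' _
      have := ch_doc_dom hX.core hX.cl hX.gi hX.gj hX.ij t'
      rw [← hX.cd] at this
      exact this
    refine (Finset.sum_le_sum h2).trans ?_
    rw [Finset.sum_const, nsmul_eq_mul]
    refine mul_le_mul_of_nonneg_right (ch_doc_times hX.core hX.gj) ?_
    exact Real.rpow_nonneg hX.core.hs.1.le _
  calc _ ≤ ∑ ρ : D.Row i, ∑ lam ∈ Finset.univ.image (D.lab j),
        (X.cd * ((D.P i).p ρ * (X.th (D.T i ρ) lam ρ * (if X.hit Lm lam ρ then 1 else 0)))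
        + (X.aW lam ρ - X.cd * (D.P i).p ρ * X.th (D.T i ρ) lam ρ)) :=
        Finset.sum_le_sum fun ρ _ => Finset.sum_le_sum fun lam _ => hterm ρ lam
    _ = X.cd * ∑ ρ : D.Row i, ∑ lam ∈ Finset.univ.image (D.lab j),
          (D.P i).p ρ * (X.th (D.T i ρ) lam ρ * (if X.hit Lm lam ρ then 1 else 0))
        + ∑ ρ : D.Row i, ∑ lam ∈ Finset.univ.image (D.lab j), (X.aW lam ρ - X.cd * (D.P i).p ρ * X.th (D.T i ρ) lam ρ) := by
        simp only [Finset.sum_add_distrib, Finset.mul_sum]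
    _ ≤ _ := by gcongr

/-! ### L-256-CHAN-D7 : (D) -/

/-- `th T0 lam ρ ≠ 0`: `T i ρ = T0` and some `ρ'` with `lab j ρ' = lam`, `Conn ρ ρ'`, `Ev ρ'` (`ent_pr_pos_iff`). -/
theorem ch_doc_th_ne (X : ChDd D i j) {T0 : ℝ} {lam : SfTest} {ρ : D.Row i} (h : X.th T0 lam ρ ≠ 0) :
    D.T i ρ = T0 ∧ ∃ ρ', D.lab j ρ' = lam ∧ D.Conn i j ρ ρ' ∧ X.Ev ρ' := by
  unfold ChDd.th at h
  by_cases hT : D.T i ρ = T0
  · refine ⟨hT, ?_⟩
    rw [if_pos hT] at h
    have h1 : X.aW lam ρ ≠ 0 := fun h0 => h (by rw [h0, zero_div])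
    have h2 : 0 < X.aW lam ρ := lt_of_le_of_ne (ch_doc_aW_nonneg X lam ρ) (Ne.symm h1)
    unfold ChDd.aW at h2
    obtain ⟨ρ', h3, -⟩ := (ent_pr_pos_iff _ _).1 h2
    exact ⟨ρ', h3⟩
  · rw [if_neg hT] at h
    exact absurd rfl h

/-- `base`. -/
theorem ch_doc_th_labs (hX : X.Ok π C0 a κ A Lm Qx Rn) {T0 : ℝ} {lam : SfTest} {ρ : D.Row i} (h : X.th T0 lam ρ ≠ 0) :
    lam ∈ chLabs D i j T0 := by
  obtain ⟨hT, ρ', h1, h2, -⟩ := ch_doc_th_ne X h
  have hb := hX.core.base i hX.gi j hX.gj hX.ij ρ ρ' h2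
  unfold chLabs
  rw [Finset.mem_filter]
  refine ⟨Finset.mem_image.2 ⟨ρ', Finset.mem_univ _, h1⟩, ?_⟩
  have e : lam.T = D.T j ρ' := by rw [← h1]; rfl
  rw [e, ← hT]
  exact ⟨hb.1, hb.2.1⟩

/-- divide by `r j > 0`. -/
theorem ch_doc_hitS (hX : X.Ok π C0 a κ A Lm Qx Rn) (T0 : ℝ) (l : Fin (chLabs D i j T0).card) (ρ : D.Row i) :
    ρ ∈ (X.seg T0).hitS Lm l ↔ X.hit Lm (chLam D i j T0 l) ρ := by
  have hr : 0 < D.r j := (hX.core.hw.2.2 j hX.gj).1
  have key : ∀ x : ℝ, |(D.ray i ρ).X / D.r j - x / D.r j| ≤ (D.len j / D.len i) ^ Lm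
      ↔ |(D.ray i ρ).X - x| ≤ D.r j * (D.len j / D.len i) ^ Lm := by
    intro x
    rw [← sub_div, abs_div, abs_of_pos hr, div_le_iff₀ hr, mul_comm]
  unfold ChSeg.hitS ChDd.hit
  simp only [Set.mem_ofPred_eq, ChDd.seg, Finset.mem_image]
  constructor
  · rintro ⟨c, ⟨x, hx, rfl⟩, hc⟩
    exact ⟨x, hx, (key x).1 hc⟩
  · rintro ⟨x, hx, hc⟩
    exact ⟨_, ⟨x, hx, rfl⟩, (key x).2 hc⟩

theorem ch_doc_sum_lam (D : SfDoc) (i j T0 : ℝ) (F : SfTest → ℝ) :
    ∑ l : Fin (chLabs D i j T0).card, F (chLam D i j T0 l) = ∑ lam ∈ chLabs D i j T0, F lam := by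
  unfold chLam
  rw [Equiv.sum_comp (chLabs D i j T0).equivFin.symm (fun x => F x.1), Finset.sum_coe_sort]

/-- `ch_doc_wm_integral`, `Finset.sum_coe_sort` / `Equiv.sum_comp` for `equivFin`. -/
theorem ch_doc_seg_int (hX : X.Ok π C0 a κ A Lm Qx Rn) (T0 : ℝ) :
    ∑ l, ∫ ω, (X.seg T0).th l ω * ((X.seg T0).hitS Lm l).indicator (fun _ => (1 : ℝ)) ω ∂(X.seg T0).mu
      = ∑ lam ∈ chLabs D i j T0, ∑ ρ : D.Row i,
          (if D.T i ρ = T0 then (D.P i).p ρ else 0) * (X.th T0 lam ρ * (if X.hit Lm lam ρ then 1 else 0)) := by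
  rw [← ch_doc_sum_lam D i j T0 (fun lam => ∑ ρ : D.Row i,
          (if D.T i ρ = T0 then (D.P i).p ρ else 0) * (X.th T0 lam ρ * (if X.hit Lm lam ρ then 1 else 0)))]
  refine Finset.sum_congr rfl fun l _ => ?_
  have hw : ∀ ρ : D.Row i, 0 ≤ (if D.T i ρ = T0 then (D.P i).p ρ else 0) := by
    intro ρ; split_ifs
    · exact (D.P i).nonneg ρ
    · exact le_rfl
  have h1 := ch_doc_wm_integral (fun ρ : D.Row i => if D.T i ρ = T0 then (D.P i).p ρ else 0) hw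
    (fun ω => (X.seg T0).th l ω * ((X.seg T0).hitS Lm l).indicator (fun _ => (1 : ℝ)) ω)
  refine h1.trans ?_
  refine Finset.sum_congr rfl fun ρ _ => ?_
  congr 2
  rw [Set.indicator_apply]
  exact if_congr (ch_doc_hitS hX T0 l ρ) rfl rfl

/-- fibre the sum over `ρ` by `T i ρ`; restrict `lam` to `chLabs` (`ch_doc_th_labs`); `ch_doc_seg_int`. -/
theorem ch_doc_D (hX : X.Ok π C0 a κ A Lm Qx Rn) :
    ∑ ρ : D.Row i, ∑ lam ∈ Finset.univ.image (D.lab j), (D.P i).p ρ * (X.th (D.T i ρ) lam ρ * (if X.hit Lm lam ρ then 1 else 0))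
      = ∑ T0 ∈ Finset.univ.image (D.T i), ∑ l,
          ∫ ω, (X.seg T0).th l ω * ((X.seg T0).hitS Lm l).indicator (fun _ => (1 : ℝ)) ω ∂(X.seg T0).mu := by
  have h1 : ∀ T0 : ℝ, ∑ l,
          ∫ ω, (X.seg T0).th l ω * ((X.seg T0).hitS Lm l).indicator (fun _ => (1 : ℝ)) ω ∂(X.seg T0).mu
      = ∑ lam ∈ Finset.univ.image (D.lab j), ∑ ρ : D.Row i,
          (if D.T i ρ = T0 then (D.P i).p ρ else 0) * (X.th T0 lam ρ * (if X.hit Lm lam ρ then 1 else 0)) := by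
    intro T0
    rw [ch_doc_seg_int hX T0]
    refine Finset.sum_subset (Finset.filter_subset _ _) ?_
    intro lam _ hl
    refine Finset.sum_eq_zero fun ρ _ => ?_
    have : X.th T0 lam ρ = 0 := by
      by_contra h
      exact hl (ch_doc_th_labs hX h)
    rw [this]; ring
  simp only [h1]
  rw [Finset.sum_comm]
  conv_rhs => rw [Finset.sum_comm]
  refine Finset.sum_congr rfl fun lam _ => ?_
  conv_rhs => rw [Finset.sum_comm]
  refine Finset.sum_congr rfl fun ρ _ => ?_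
  rw [Finset.sum_eq_single (D.T i ρ)]
  · rw [if_pos rfl]
  · intro T0 _ hne
    rw [if_neg (Ne.symm hne), zero_mul]
  · intro h
    exact absurd (Finset.mem_image.2 ⟨ρ, Finset.mem_univ _, rfl⟩) h

/-! ### L-256-CHAN-D8 : (F) -/

/-- the intervals `[T0, T0 + len i]` of different start times are disjoint up to end points (`grid`), `len j > 0`: `Finset.card_biUnion`, `Finset.card_le_card`. -/
theorem ch_doc_labs_card (h : D.Core π C0 a) (hi : i ∈ D.G) (hj : j ∈ D.G) :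
    ∑ T0 ∈ Finset.univ.image (D.T i), (chLabs D i j T0).card ≤ (Set.range (D.lab j)).ncard := by
  have hlj : 0 < D.len j := ch_doc_len_pos h hj
  have hdis : ∀ x ∈ Finset.univ.image (D.T i), ∀ y ∈ Finset.univ.image (D.T i), x ≠ y →
      Disjoint (chLabs D i j x) (chLabs D i j y) := by
    intro x hx y hy hxy
    obtain ⟨ρ1, -, rfl⟩ := Finset.mem_image.1 hx
    obtain ⟨ρ2, -, rfl⟩ := Finset.mem_image.1 hy
    have hg := h.grid i hi ρ1 ρ2 hxy
    rw [Finset.disjoint_left]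
    intro lam h1 h2
    have h1' := (Finset.mem_filter.1 h1).2
    have h2' := (Finset.mem_filter.1 h2).2
    rcases abs_cases (D.T i ρ1 - D.T i ρ2) with hc | hc
    · rw [hc.1] at hg
      linarith [h1'.1, h1'.2, h2'.1, h2'.2]
    · rw [hc.1] at hg
      linarith [h1'.1, h1'.2, h2'.1, h2'.2]
  rw [← Finset.card_biUnion hdis]
  have hr : (Set.range (D.lab j)).ncard = (Finset.univ.image (D.lab j)).card := by
    rw [← Set.ncard_coe_finset, Finset.coe_image, Finset.coe_univ, Set.image_univ]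
  rw [hr]
  apply Finset.card_le_card
  intro lam hlam
  obtain ⟨T0, -, h0⟩ := Finset.mem_biUnion.1 hlam
  exact (Finset.mem_filter.1 h0).1

theorem ch_doc_mu_sum (X : ChDd D i j) : ∑ T0 ∈ Finset.univ.image (D.T i), ((X.seg T0).mu Set.univ).toReal = 1 := by
  have h1 : ∀ T0 : ℝ, ((X.seg T0).mu Set.univ).toReal = ∑ ρ : D.Row i, if D.T i ρ = T0 then (D.P i).p ρ else 0 := by
    intro T0
    have h2 := ch_doc_wm_apply (fun ρ : D.Row i => if D.T i ρ = T0 then (D.P i).p ρ else 0)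
      (fun ρ => by
        show 0 ≤ (if D.T i ρ = T0 then (D.P i).p ρ else 0)
        split_ifs
        · exact (D.P i).nonneg ρ
        · exact le_refl _) Set.univ
    simp only [Set.mem_univ, if_true] at h2
    exact h2
  rw [Finset.sum_congr rfl (fun T0 _ => h1 T0), Finset.sum_comm]
  rw [← (D.P i).sum_one]
  apply Finset.sum_congr rfl
  intro ρ _
  rw [Finset.sum_ite_eq]
  rw [if_pos (Finset.mem_image_of_mem _ (Finset.mem_univ ρ))]

/-- `Finset.sum_sqrt_mul_sqrt_le`. -/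
theorem ch_doc_F (hX : X.Ok π C0 a κ A Lm Qx Rn) (a1 a2 a3 : ℝ) (h1 : 0 ≤ a1) (h2 : 0 ≤ a2) (h3 : 0 ≤ a3) :
    ∑ T0 ∈ Finset.univ.image (D.T i),
        Real.sqrt ((X.g : ℝ) * ((chLabs D i j T0).card : ℝ) * a1 * a2 * a3 * ((X.seg T0).mu Set.univ).toReal)
      ≤ Real.sqrt ((X.g : ℝ) * ((Set.range (D.lab j)).ncard : ℝ) * a1 * a2 * a3) := by
  have hf : ∀ T0 : ℝ, 0 ≤ (X.g : ℝ) * ((chLabs D i j T0).card : ℝ) * a1 * a2 * a3 := by
    intro T0
    positivity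
  have hcs := Real.sum_sqrt_mul_sqrt_le (Finset.univ.image (D.T i))
    (f := fun T0 => (X.g : ℝ) * ((chLabs D i j T0).card : ℝ) * a1 * a2 * a3)
    (g := fun T0 => ((X.seg T0).mu Set.univ).toReal) (fun T0 => hf T0) (fun T0 => ENNReal.toReal_nonneg)
  rw [ch_doc_mu_sum X, Real.sqrt_one, mul_one] at hcs
  have hl : ∑ T0 ∈ Finset.univ.image (D.T i),
        Real.sqrt ((X.g : ℝ) * ((chLabs D i j T0).card : ℝ) * a1 * a2 * a3 * ((X.seg T0).mu Set.univ).toReal)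
      = ∑ T0 ∈ Finset.univ.image (D.T i),
        Real.sqrt ((X.g : ℝ) * ((chLabs D i j T0).card : ℝ) * a1 * a2 * a3) * Real.sqrt (((X.seg T0).mu Set.univ).toReal) := by
    apply Finset.sum_congr rfl
    intro T0 _
    rw [Real.sqrt_mul (hf T0)]
  rw [hl]
  refine le_trans hcs (Real.sqrt_le_sqrt ?_)
  have hc : ((∑ T0 ∈ Finset.univ.image (D.T i), (chLabs D i j T0).card : ℕ) : ℝ) ≤ ((Set.range (D.lab j)).ncard : ℝ) := by
    exact_mod_cast ch_doc_labs_card hX.core hX.gi hX.gj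
  rw [Nat.cast_sum] at hc
  have he : ∑ T0 ∈ Finset.univ.image (D.T i), (X.g : ℝ) * ((chLabs D i j T0).card : ℝ) * a1 * a2 * a3
      = (X.g : ℝ) * (∑ T0 ∈ Finset.univ.image (D.T i), ((chLabs D i j T0).card : ℝ)) * a1 * a2 * a3 := by
    rw [Finset.mul_sum, Finset.sum_mul, Finset.sum_mul, Finset.sum_mul]
  rw [he]
  have hg : (0 : ℝ) ≤ (X.g : ℝ) := Nat.cast_nonneg _
  gcongr

end Claimed.Agent.R256
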