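-- KEEP
import Claimed.Agent.R256.Chan.DocGen

/-!
# Row 256 (LS paper), CHAN, unit ADC, file 3 : THE SEGMENT IS ADMISSIBLE, and the glue `ch_doc_gen`          (architect helper33; prefix `ch_doc_`)
-/

set_option autoImplicit false

namespace Claimed.Agent.R256

open Claimed.Agent.R255 MeasureTheory
open scoped BigOperators
open Classical

attribute [local instance] chDocMS

/-! ### L-256-CHAN-D9 : change of units (pure algebra: unfold, `abs_div`, `div_le_div_iff_of_pos_right`, `field_simp`, `ring_nf`) -/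

theorem ch_doc_abs_scale {a b c a' b' : ℝ} (hc : 0 < c) (ha : a' = a / c) (hb : b' = b / c) :
    |a| ≤ b ↔ |a'| ≤ b' := by
  rw [ha, hb, abs_div, abs_of_pos hc, div_le_div_iff_of_pos_right hc]

/-- THE algebraic lemma.   Each of the five inequalities is divided by `r1`, `l0 r1`, `l0 r1²`, `f1`, `l0 f1`. -/
theorem ch_doc_mem_iff {l0 r1 f1 : ℝ} (hl : 0 < l0) (hr : 0 < r1) (hf : 0 < f1) (T0 l : ℝ) (Q : SfTest) (z : SfRay) :
    Q.Mem l z ↔ cyIn (chNT l0 r1 f1 Q) (l / l0) (chNR T0 l0 r1 f1 z ((Q.T - T0) / l0)) := by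
  unfold SfTest.Mem cyIn cyTilt cyVel cyPos chNT chNR SfRay.Bt SfRay.Yt SfRay.Dt
  dsimp only
  refine and_congr (ch_doc_abs_scale hr ?_ rfl) (and_congr (ch_doc_abs_scale (mul_pos hl hr) ?_ ?_)
    (and_congr (ch_doc_abs_scale (mul_pos hl (pow_pos hr 2)) ?_ ?_) (and_congr (ch_doc_abs_scale hf ?_ rfl)
      (ch_doc_abs_scale (mul_pos hl hf) ?_ ?_))))
  all_goals
    field_simp
    try ring

theorem ch_doc_NT_UT {l0 r1 f1 : ℝ} (hl : 0 < l0) (hr : 0 < r1) (hf : 0 < f1) (T0 : ℝ) (Q : CyT) :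
    chNT l0 r1 f1 (chUT T0 l0 r1 f1 Q) = Q := by
  cases Q
  simp only [chNT, chUT, CyT.mk.injEq]
  refine ⟨?_, ?_, ?_, ?_, ?_, ?_, ?_, ?_, ?_, ?_⟩ <;> field_simp

theorem ch_doc_near_scale {l0 r1 f1 : ℝ} (hl : 0 < l0) (hr : 0 < r1) (hf : 0 < f1) {A Lm Qx dl dT be0 K0 P0 Xc BT : ℝ} {Q : SfTest}
    (h : chNear A Lm Qx dl l0 r1 f1 dT be0 K0 P0 Xc BT (chCy Q)) :
    chNear A Lm Qx dl 1 1 1 (dT / l0) (be0 * r1 ^ 2 / f1) (K0 * l0 * r1 ^ 2 / f1) (P0 * r1 / f1) (Xc / r1) (BT / (l0 * r1))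
      (chNT l0 r1 f1 Q) := by
  unfold chNear chCy at h
  dsimp only at h
  obtain ⟨h1, h2, h3⟩ := h
  unfold chNear chNT
  dsimp only
  have hc2 : 0 < f1 / r1 ^ 2 := div_pos hf (pow_pos hr 2)
  have hc1 : 0 < f1 / r1 := div_pos hf hr
  have h2' : |l0 * (K0 - Q.K)| ≤ A * (f1 / r1 ^ 2) * dl ^ (-Qx) := by
    rwa [abs_mul, abs_of_pos hl]
  refine ⟨(ch_doc_abs_scale hc2 ?_ ?_).1 h1, ?_, (ch_doc_abs_scale hc1 ?_ ?_).1 h3⟩
  · field_simp
  · field_simp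
  · rw [one_mul]
    refine (ch_doc_abs_scale hc2 ?_ ?_).1 h2'
    · field_simp
    · field_simp
  · field_simp
  · field_simp

/-- `cyWt η Q * (r1^(3+η) f1^(1-η)) = (chUT ..).w η`   (`Real.mul_rpow`). -/
theorem ch_doc_wt {r1 f1 : ℝ} (hr : 0 < r1) (hf : 0 < f1) (T0 l0 η : ℝ) {Q : CyT} (hQr : 0 ≤ Q.r) (hQf : 0 ≤ Q.f) :
    (chUT T0 l0 r1 f1 Q).w η = cyWt η Q * (r1 ^ (3 + η) * f1 ^ (1 - η)) := by
  unfold SfTest.w cyWt chUT
  dsimp only
  rw [Real.mul_rpow hQr hr.le, Real.mul_rpow hQf hf.le]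
  ring

variable {D : SfDoc} {i j : ℝ} {X : ChDd D i j} {π : SfPar} {C0 a κ A Lm Qx Rn : ℝ}

theorem ch_doc_seg_co (X : ChDd D i j) (T0 T : ℝ) (ρ : D.Row i) :
    (X.seg T0).co T ρ = chNR T0 (D.len i) (D.r j) X.f1 (D.ray i ρ) T := rfl

theorem ch_doc_r_pos (h : D.Core π C0 a) {k : ℝ} (hk : k ∈ D.G) : 0 < D.r k := (h.hw.2.2 k hk).1

theorem ch_doc_lam_mem (D : SfDoc) (i j T0 : ℝ) (l : Fin (chLabs D i j T0).card) : chLam D i j T0 l ∈ chLabs D i j T0 :=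
  ((chLabs D i j T0).equivFin.symm l).2

/-- a label of `chLabs` is the label of a row. -/
theorem ch_doc_lam_row (D : SfDoc) (i j T0 : ℝ) (l : Fin (chLabs D i j T0).card) :
    (∃ ρ', D.lab j ρ' = chLam D i j T0 l) ∧ T0 ≤ (chLam D i j T0 l).T ∧ (chLam D i j T0 l).T + D.len j ≤ T0 + D.len i := by
  have h := ch_doc_lam_mem D i j T0 l
  unfold chLabs at h
  rw [Finset.mem_filter, Finset.mem_image] at h
  obtain ⟨⟨ρ', -, h1⟩, h2⟩ := h
  exact ⟨⟨ρ', h1⟩, h2⟩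

theorem ch_doc_lam_inj (D : SfDoc) (i j T0 : ℝ) : Function.Injective (chLam D i j T0) := by
  intro l l' h
  have := Subtype.ext h
  exact (chLabs D i j T0).equivFin.symm.injective this

/-! ### L-256-CHAN-D10 : times and widths of the labels -/

theorem ch_doc_seg_tm_rg (hX : X.Ok π C0 a κ A Lm Qx Rn) (T0 : ℝ) (l : Fin (X.seg T0).L) :
    0 ≤ (X.seg T0).tm l ∧ (X.seg T0).tm l ≤ 1 := by
  obtain ⟨-, h1, h2⟩ := ch_doc_lam_row D i j T0 l
  have hi := ch_doc_len_pos hX.core hX.gi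
  have hj := ch_doc_len_pos hX.core hX.gj
  change 0 ≤ ((chLam D i j T0 l).T - T0) / D.len i ∧ ((chLam D i j T0 l).T - T0) / D.len i ≤ 1
  refine ⟨div_nonneg (by linarith) hi.le, ?_⟩
  rw [div_le_one hi]; linarith

/-- `grid` at the gate `j`, divided by `len i`. -/
theorem ch_doc_seg_tm_sep (hX : X.Ok π C0 a κ A Lm Qx Rn) (T0 : ℝ) (l l' : Fin (X.seg T0).L)
    (h : (X.seg T0).tm l ≠ (X.seg T0).tm l') : (X.seg T0).dl ≤ |(X.seg T0).tm l - (X.seg T0).tm l'| := by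
  obtain ⟨⟨ρ1, e1⟩, -, -⟩ := ch_doc_lam_row D i j T0 l
  obtain ⟨⟨ρ2, e2⟩, -, -⟩ := ch_doc_lam_row D i j T0 l'
  have hi := ch_doc_len_pos hX.core hX.gi
  change ((chLam D i j T0 l).T - T0) / D.len i ≠ ((chLam D i j T0 l').T - T0) / D.len i at h
  change D.len j / D.len i ≤ |((chLam D i j T0 l).T - T0) / D.len i - ((chLam D i j T0 l').T - T0) / D.len i|
  have hne : D.T j ρ1 ≠ D.T j ρ2 := by
    intro he
    apply h
    have : (chLam D i j T0 l).T = (chLam D i j T0 l').T := by rw [← e1, ← e2]; exact he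
    rw [this]
  have hg := hX.core.grid j hX.gj ρ1 ρ2 hne
  have e : ((chLam D i j T0 l).T - T0) / D.len i - ((chLam D i j T0 l').T - T0) / D.len i
      = (D.T j ρ1 - D.T j ρ2) / D.len i := by
    rw [← e1, ← e2, ← sub_div]; congr 1
    unfold SfDoc.T; ring
  rw [e, abs_div, abs_of_pos hi]
  exact div_le_div_of_nonneg_right hg hi.le

theorem ch_doc_seg_wid (hX : X.Ok π C0 a κ A Lm Qx Rn) (T0 : ℝ) (l : Fin (X.seg T0).L) :
    ((X.seg T0).Q l).r = 1 ∧ ((X.seg T0).Q l).f = 1 := by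
  obtain ⟨⟨ρ1, e1⟩, -, -⟩ := ch_doc_lam_row D i j T0 l
  have hr := ch_doc_r_pos hX.core hX.gj
  have hw := hX.Qew ρ1
  rw [e1] at hw
  change (X.Qe (chLam D i j T0 l)).r / D.r j = 1 ∧ (X.Qe (chLam D i j T0 l)).f / X.f1 = 1
  rw [hw.1, hw.2]
  exact ⟨div_self hr.ne', div_self hX.f1.ne'⟩

theorem ch_doc_seg_card (hX : X.Ok π C0 a κ A Lm Qx Rn) (T0 : ℝ) (l : Fin (X.seg T0).L) :
    (((X.seg T0).lst l).card : ℝ) ≤ Rn := by
  refine le_trans ?_ (hX.card (chLam D i j T0 l))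
  change ((((X.cs (chLam D i j T0 l)).image (fun x => x / D.r j)).card : ℕ) : ℝ) ≤ _
  exact_mod_cast Finset.card_image_le

/-! ### L-256-CHAN-D11 : the fractional weights -/

/-- `tm l = tm l0 ↔ (chLam l).T = (chLam l0).T`; `chLam` injective: the sum is `Σ_{lam ∈ s} aW lam ρ / max ..` over a `Finset` of labels with the time `t'`; `ch_doc_aW_sum`. -/
theorem ch_doc_seg_th_sum (hX : X.Ok π C0 a κ A Lm Qx Rn) (T0 : ℝ) (l0 : Fin (X.seg T0).L) (ρ : D.Row i) :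
    ∑ l, (if (X.seg T0).tm l = (X.seg T0).tm l0 then (X.seg T0).th l ρ else 0) ≤ 1 := by
  have hi := ch_doc_len_pos hX.core hX.gi
  obtain ⟨t', ht'⟩ : ∃ t', t' = (chLam D i j T0 l0).T := ⟨_, rfl⟩
  have h1 : ∀ l : Fin (chLabs D i j T0).card, (if (X.seg T0).tm l = (X.seg T0).tm l0 then (X.seg T0).th l ρ else 0)
      = (fun lam : SfTest => if lam.T = t' then X.th T0 lam ρ else 0) (chLam D i j T0 l) := by
    intro l
    refine if_congr ?_ rfl rfl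
    change ((chLam D i j T0 l).T - T0) / D.len i = ((chLam D i j T0 l0).T - T0) / D.len i ↔ _
    rw [div_left_inj' hi.ne', sub_left_inj, ht']
  have h2 : ∑ l, (if (X.seg T0).tm l = (X.seg T0).tm l0 then (X.seg T0).th l ρ else 0)
      = ∑ lam ∈ chLabs D i j T0, (if lam.T = t' then X.th T0 lam ρ else 0) := by
    rw [← ch_doc_sum_lam D i j T0 (fun lam : SfTest => if lam.T = t' then X.th T0 lam ρ else 0)]
    exact Finset.sum_congr rfl fun l _ => h1 l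
  rw [h2, ← Finset.sum_filter]
  by_cases hT : D.T i ρ = T0
  · have h3 : ∑ lam ∈ (chLabs D i j T0).filter (fun lam => lam.T = t'), X.th T0 lam ρ
        = (∑ lam ∈ (chLabs D i j T0).filter (fun lam => lam.T = t'), X.aW lam ρ) / max (X.cd * (D.P i).p ρ) (chAt D i j t' ρ) := by
      rw [Finset.sum_div]
      refine Finset.sum_congr rfl fun lam hl => ?_
      unfold ChDd.th
      rw [if_pos hT, (Finset.mem_filter.1 hl).2]
    rw [h3]
    refine div_le_one_of_le₀ ?_ ((ch_doc_cp_nonneg hX ρ).trans (le_max_left _ _))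
    exact (ch_doc_aW_sum X t' ρ _ fun lam hl => (Finset.mem_filter.1 hl).2).trans (le_max_right _ _)
  · refine le_trans (le_of_eq ?_) zero_le_one
    refine Finset.sum_eq_zero fun lam _ => ?_
    unfold ChDd.th
    rw [if_neg hT]

/-- `ch_doc_th_ne`, `normC`, `Qein`, `QeT`, `ch_doc_mem_iff` with `l = len j`. -/
theorem ch_doc_seg_th_in (hX : X.Ok π C0 a κ A Lm Qx Rn) (T0 : ℝ) (l : Fin (X.seg T0).L) (ρ : D.Row i)
    (h : (X.seg T0).th l ρ ≠ 0) : cyIn ((X.seg T0).Q l) (X.seg T0).dl ((X.seg T0).co ((X.seg T0).tm l) ρ) := by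
  have hi := ch_doc_len_pos hX.core hX.gi
  have hr := ch_doc_r_pos hX.core hX.gj
  obtain ⟨hT, ρ', h1, h2, h3⟩ := ch_doc_th_ne X (T0 := T0) (lam := chLam D i j T0 l) (ρ := ρ) h
  have hray := hX.core.normC hX.cl i hX.gi j hX.gj hX.ij ρ ρ' h2
  have hin := hX.Qein ρ'
  rw [h1, ← hray] at hin
  have := (ch_doc_mem_iff hi hr hX.f1 T0 (D.len j) (X.Qe (chLam D i j T0 l)) (D.ray i ρ)).1 hin
  rw [hX.QeT] at this
  exact this

/-- `ch_doc_th_ne`, `hX.near`, `ch_doc_near_scale`;   `Bt T0 /(l0 r1) + ((T' - T0)/l0) (X/r1) = Bt T' /(l0 r1)`. -/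
theorem ch_doc_seg_near (hX : X.Ok π C0 a κ A Lm Qx Rn) (T0 : ℝ) (l : Fin (X.seg T0).L) (ρ : D.Row i)
    (h : (X.seg T0).th l ρ ≠ 0) :
    ∃ a', chNear A Lm Qx (X.seg T0).dl 1 1 1 ((X.seg T0).tm l) ((X.seg T0).be0 ρ) ((X.seg T0).K0 ρ) ((X.seg T0).P0 a' ρ)
      ((X.seg T0).X ρ) ((X.seg T0).B ρ + (X.seg T0).tm l * (X.seg T0).X ρ) ((X.seg T0).Q l) := by
  have hi := ch_doc_len_pos hX.core hX.gi
  have hr := ch_doc_r_pos hX.core hX.gj
  obtain ⟨hT, ρ', h1, h2, h3⟩ := ch_doc_th_ne X (T0 := T0) (lam := chLam D i j T0 l) (ρ := ρ) h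
  obtain ⟨a', ha'⟩ := hX.near ρ ρ' h2 h3
  refine ⟨a', ?_⟩
  have h4 := ch_doc_near_scale hi hr hX.f1 ha'
  have eT : D.T j ρ' = (chLam D i j T0 l).T := by rw [← h1]; rfl
  rw [h1, hT, eT] at h4
  have e : (D.ray i ρ).Bt (chLam D i j T0 l).T / (D.len i * D.r j)
      = (D.ray i ρ).Bt T0 / (D.len i * D.r j) + ((chLam D i j T0 l).T - T0) / D.len i * ((D.ray i ρ).X / D.r j) := by
    unfold SfRay.Bt
    field_simp
    ring
  rw [e] at h4
  exact h4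

/-! ### (E) -/

theorem ch_doc_seg_ok (hX : X.Ok π C0 a κ A Lm Qx Rn) (T0 : ℝ) : (X.seg T0).Ok π.η κ A Lm Qx Rn where
  fin := ch_doc_wm_fin _
  mX := measurable_from_top
  mB := measurable_from_top
  mY := measurable_from_top
  mN := measurable_from_top
  mD := measurable_from_top
  mbe := measurable_from_top
  mK := measurable_from_top
  mP := fun _ => measurable_from_top
  mth := fun _ => measurable_from_top
  A1 := hX.A1
  dl0 := div_pos (ch_doc_len_pos hX.core hX.gj) (ch_doc_len_pos hX.core hX.gi)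
  dl1 := (div_le_one (ch_doc_len_pos hX.core hX.gi)).2 (ch_doc_len_le hX.core hX.cl hX.gi hX.gj hX.ij)
  ka0 := hX.ka0
  L1 := hX.L1
  ML := hX.ML
  reg := hX.reg T0
  tm_rg := ch_doc_seg_tm_rg hX T0
  tm_sep := ch_doc_seg_tm_sep hX T0
  wid := ch_doc_seg_wid hX T0
  th_nn := fun l ρ => ch_doc_th_nonneg hX T0 _ ρ
  th_sum := ch_doc_seg_th_sum hX T0
  th_in := ch_doc_seg_th_in hX T0
  near := ch_doc_seg_near hX T0
  card := ch_doc_seg_card hX T0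

/-! ### the general inequality -/

theorem ch_doc_gen (η : ℝ) (hη0 : 0 < η) (hη1 : η < 1) :
    ∃ C : ℝ, 0 < C ∧ ∀ (D : SfDoc) (i j : ℝ) (X : ChDd D i j) (π : SfPar) (C0 a κ A Lm Qx Rn : ℝ), π.η = η → 0 ≤ Rn →
      X.Ok π C0 a κ A Lm Qx Rn →
      (D.P j).pr (X.E Lm) ≤ X.cd * (C * A ^ 2 * Real.sqrt ((X.g : ℝ) * ((Set.range (D.lab j)).ncard : ℝ) * Rn
          * (D.len j / D.len i) ^ (2 - 3 * Lm) * (κ * (D.len j / D.len i) ^ ((3 + η) * Lm - η))))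
        + (1 / D.len j + 1) * D.s ^ (1 / a) := by
  obtain ⟨C, hC, hcore⟩ := ch_mem_core η hη0 hη1
  refine ⟨C, hC, fun D i j X π C0 a κ A Lm Qx Rn hπ hRn hX => ?_⟩
  have hdl : 0 < D.len j / D.len i := div_pos (ch_doc_len_pos hX.core hX.gj) (ch_doc_len_pos hX.core hX.gi)
  have hcd := ch_doc_cd_nonneg hX
  refine (ch_doc_A hX).trans ((ch_doc_BC hX).trans ?_)
  refine add_le_add_left ?_ _
  refine mul_le_mul_of_nonneg_left ?_ hcd
  rw [ch_doc_D hX]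
  have hseg : ∀ T0 ∈ Finset.univ.image (D.T i), ∑ l,
      ∫ ω, (X.seg T0).th l ω * ((X.seg T0).hitS Lm l).indicator (fun _ => (1 : ℝ)) ω ∂(X.seg T0).mu
      ≤ C * A ^ 2 * Real.sqrt ((X.g : ℝ) * ((chLabs D i j T0).card : ℝ) * Rn * (D.len j / D.len i) ^ (2 - 3 * Lm)
          * (κ * (D.len j / D.len i) ^ ((3 + η) * Lm - η)) * ((X.seg T0).mu Set.univ).toReal) := by
    intro T0 _
    have h := ch_doc_seg_ok hX T0
    rw [hπ] at h
    exact hcore (X.seg T0) κ A Lm Qx Rn h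
  refine (Finset.sum_le_sum hseg).trans ?_
  rw [← Finset.mul_sum]
  refine mul_le_mul_of_nonneg_left ?_ (by positivity)
  exact ch_doc_F hX Rn _ _ hRn (by positivity) (mul_nonneg hX.ka0 (by positivity))

end Claimed.Agent.R256
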