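-- KEEP
import Claimed.Agent.R256.Chan.DocSeg

/-!
# Row 256 (LS paper), CHAN, unit ADC, file 4 : REGULARITY OF THE SEGMENT `ch_doc_reg`          (architect helper33; prefix `ch_doc_`)

`Q : CyT` with `(X.seg T0).RT Lm Qx Q`;  `Q' = chUT T0 (len i) (r j) f1 Q` = the test in real units.
  (R1) `mu {cyIn Q 1 (co 0)} = P_i {T_i = T0, Q'.Mem (len i) (ray i)}`
  (R2) the witness of `RT` in real units (`chRTr`)
  (R3) PURE ALGEBRA: all data `≤ Λ`, one witness, one member  ⟹  `Q'.size ≤ Λ^n`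
  (R4) all data of the segment are `≤ s^(-M1)`
  (R5) `Q'.f ≥ s^(-M2)`  ⟹  the bound is `≥ 1`
  glue: no member: `0`;   `Q'.f` huge: trivial;   otherwise `Q'` is `Adm` and `Core.reg` applies.
-/

set_option autoImplicit false

namespace Claimed.Agent.R256

open Claimed.Agent.R255 MeasureTheory
open scoped BigOperators
open Classical

attribute [local instance] chDocMS

/-- polynomial bounds of the data -/
structure ChDd.Pb {D : SfDoc} {i j : ℝ} (X : ChDd D i j) (M : ℝ) : Prop where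
  r : D.s ^ M ≤ D.r j ∧ D.r j ≤ D.s ^ (-M)
  f : D.s ^ M ≤ X.f1 ∧ X.f1 ≤ D.s ^ (-M)
  be : ∀ ρ, |X.be0 ρ| ≤ D.s ^ (-M)
  K : ∀ ρ, |X.K0 ρ| ≤ D.s ^ (-M)
  P : ∀ a ρ, |X.P0 a ρ| ≤ D.s ^ (-M)

/-- the witness of `RT` in real units (`e2 = dl^(-Qx)`, `e1 = dl^(1-Lm)`) -/
def chRTr (l0 r1 f1 e2 e1 T0 be0 K0 P0 : ℝ) (Q : SfTest) (z : SfRay) : Prop :=
  |z.X - Q.x| ≤ Q.r ∧ |z.Bt T0 - Q.b| ≤ l0 * Q.r ∧ |Q.be - be0| ≤ 4 * e2 * (f1 / r1 ^ 2) ∧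
    l0 * |Q.K - K0| ≤ 4 * e2 * (f1 / r1 ^ 2) ∧ |Q.al + 2 * Q.be * z.X - 2 * Q.K * z.Bt T0 - P0| ≤ 4 * e1 * (f1 / r1)

theorem ch_doc_reg_eqns_cite : True := by
  have := @chRTr.eq_1
  trivial

variable {D : SfDoc} {i j : ℝ}

/-! ### L-256-CHAN-R1 -/

/-- `ch_doc_wm_apply`, `FLaw.pr`;   `ch_doc_mem_iff` with `Q := chUT ..`, `l = l0` (`(T0 - T0)/l0 = 0`, `l0/l0 = 1`), `ch_doc_NT_UT`, `ch_doc_seg_co`. -/
theorem ch_doc_reg_eq (X : ChDd D i j) (hl : 0 < D.len i) (hr : 0 < D.r j) (hf : 0 < X.f1) (T0 : ℝ) (Q : CyT) :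
    ((X.seg T0).mu {ω | cyIn Q 1 ((X.seg T0).co 0 ω)}).toReal
      = (D.P i).pr (fun ρ => D.T i ρ = T0 ∧ (chUT T0 (D.len i) (D.r j) X.f1 Q).Mem (D.len i) (D.ray i ρ)) := by
  have h1 : ((X.seg T0).mu {ω | cyIn Q 1 ((X.seg T0).co 0 ω)}).toReal
      = ∑ ρ, if ρ ∈ {ω | cyIn Q 1 ((X.seg T0).co 0 ω)} then (if D.T i ρ = T0 then (D.P i).p ρ else 0) else 0 :=
    ch_doc_wm_apply _ (fun ρ => by
      split_ifs
      exacts [(D.P i).nonneg ρ, le_rfl]) _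
  rw [h1]
  unfold FLaw.pr
  refine Finset.sum_congr rfl fun ρ _ => ?_
  have hiff : (chUT T0 (D.len i) (D.r j) X.f1 Q).Mem (D.len i) (D.ray i ρ) ↔ cyIn Q 1 ((X.seg T0).co 0 ρ) := by
    rw [ch_doc_mem_iff hl hr hf T0 (D.len i) (chUT T0 (D.len i) (D.r j) X.f1 Q) (D.ray i ρ), ch_doc_NT_UT hl hr hf,
      div_self hl.ne', ch_doc_seg_co]
    have : ((chUT T0 (D.len i) (D.r j) X.f1 Q).T - T0) / D.len i = 0 := by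
      show (T0 - T0) / D.len i = 0
      rw [sub_self, zero_div]
    rw [this]
  by_cases hT : D.T i ρ = T0
  · by_cases hm : cyIn Q 1 ((X.seg T0).co 0 ρ)
    · rw [if_pos (show ρ ∈ {ω | cyIn Q 1 ((X.seg T0).co 0 ω)} from hm), if_pos hT, if_pos ⟨hT, hiff.2 hm⟩]
    · rw [if_neg (show ρ ∉ {ω | cyIn Q 1 ((X.seg T0).co 0 ω)} from hm), if_neg (fun h => hm (hiff.1 h.2))]
  · have hn : ¬ (fun ρ => D.T i ρ = T0 ∧ (chUT T0 (D.len i) (D.r j) X.f1 Q).Mem (D.len i) (D.ray i ρ)) ρ := fun h => hT h.1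
    rw [if_neg hT, if_neg hn, ite_self]

/-! ### L-256-CHAN-R2 -/

/-- multiply the inequalities of `RT` by `r1`, `l0 r1`, `f1/r1²`, `f1/r1²`, `f1/r1`. -/
theorem ch_doc_rt_real (X : ChDd D i j) (hl : 0 < D.len i) (hr : 0 < D.r j) (hf : 0 < X.f1) {T0 Lm Qx : ℝ} {Q : CyT}
    (h : (X.seg T0).RT Lm Qx Q) :
    (chUT T0 (D.len i) (D.r j) X.f1 Q).r = (D.len j / D.len i) ^ Lm * D.r j ∧
    (D.len j / D.len i) * X.f1 ≤ (chUT T0 (D.len i) (D.r j) X.f1 Q).f ∧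
    ∃ (ρ : D.Row i) (a' : Fin X.g), chRTr (D.len i) (D.r j) X.f1 ((D.len j / D.len i) ^ (-Qx)) ((D.len j / D.len i) ^ (1 - Lm)) T0
      (X.be0 ρ) (X.K0 ρ) (X.P0 a' ρ) (chUT T0 (D.len i) (D.r j) X.f1 Q) (D.ray i ρ) := by
  obtain ⟨h1, h2, ρ, a', g1, g2, g3, g4, g5⟩ := h
  have hc2 : 0 < X.f1 / D.r j ^ 2 := div_pos hf (pow_pos hr 2)
  have hc1 : 0 < X.f1 / D.r j := div_pos hf hr
  have hlr : 0 < D.len i * D.r j := mul_pos hl hr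
  refine ⟨?_, ?_, ρ, a', ?_, ?_, ?_, ?_, ?_⟩
  · show Q.r * D.r j = _
    rw [h1]
    rfl
  · show _ ≤ Q.f * X.f1
    exact mul_le_mul_of_nonneg_right h2 hf.le
  · show |(D.ray i ρ).X - Q.x * D.r j| ≤ Q.r * D.r j
    refine (ch_doc_abs_scale hr ?_ ?_).2 g1
    · show (D.ray i ρ).X / D.r j - Q.x = ((D.ray i ρ).X - Q.x * D.r j) / D.r j
      field_simp
    · field_simp
  · show |(D.ray i ρ).Bt T0 - Q.b * (D.len i * D.r j)| ≤ D.len i * (Q.r * D.r j)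
    refine (ch_doc_abs_scale hlr ?_ ?_).2 g2
    · show (D.ray i ρ).Bt T0 / (D.len i * D.r j) - Q.b = ((D.ray i ρ).Bt T0 - Q.b * (D.len i * D.r j)) / (D.len i * D.r j)
      field_simp
    · field_simp
  · show |Q.be * X.f1 / D.r j ^ 2 - X.be0 ρ| ≤ 4 * (D.len j / D.len i) ^ (-Qx) * (X.f1 / D.r j ^ 2)
    refine (ch_doc_abs_scale hc2 ?_ ?_).2 g3
    · show Q.be - X.be0 ρ * D.r j ^ 2 / X.f1 = (Q.be * X.f1 / D.r j ^ 2 - X.be0 ρ) / (X.f1 / D.r j ^ 2)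
      field_simp
    · show 4 * (D.len j / D.len i) ^ (-Qx) = 4 * (D.len j / D.len i) ^ (-Qx) * (X.f1 / D.r j ^ 2) / (X.f1 / D.r j ^ 2)
      rw [mul_div_assoc, div_self hc2.ne', mul_one]
  · show D.len i * |Q.K * X.f1 / (D.len i * D.r j ^ 2) - X.K0 ρ| ≤ 4 * (D.len j / D.len i) ^ (-Qx) * (X.f1 / D.r j ^ 2)
    rw [← abs_of_pos hl, ← abs_mul, abs_of_pos hl]
    refine (ch_doc_abs_scale hc2 ?_ ?_).2 g4
    · show Q.K - X.K0 ρ * D.len i * D.r j ^ 2 / X.f1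
        = (D.len i * (Q.K * X.f1 / (D.len i * D.r j ^ 2) - X.K0 ρ)) / (X.f1 / D.r j ^ 2)
      field_simp
    · show 4 * (D.len j / D.len i) ^ (-Qx) = 4 * (D.len j / D.len i) ^ (-Qx) * (X.f1 / D.r j ^ 2) / (X.f1 / D.r j ^ 2)
      rw [mul_div_assoc, div_self hc2.ne', mul_one]
  · show |Q.al * X.f1 / D.r j + 2 * (Q.be * X.f1 / D.r j ^ 2) * (D.ray i ρ).X
        - 2 * (Q.K * X.f1 / (D.len i * D.r j ^ 2)) * (D.ray i ρ).Bt T0 - X.P0 a' ρ|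
      ≤ 4 * (D.len j / D.len i) ^ (1 - Lm) * (X.f1 / D.r j)
    refine (ch_doc_abs_scale hc1 ?_ ?_).2 g5
    · show Q.al + 2 * Q.be * ((D.ray i ρ).X / D.r j) - 2 * Q.K * ((D.ray i ρ).Bt T0 / (D.len i * D.r j))
          - X.P0 a' ρ * D.r j / X.f1
        = (Q.al * X.f1 / D.r j + 2 * (Q.be * X.f1 / D.r j ^ 2) * (D.ray i ρ).X
          - 2 * (Q.K * X.f1 / (D.len i * D.r j ^ 2)) * (D.ray i ρ).Bt T0 - X.P0 a' ρ) / (X.f1 / D.r j)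
      field_simp
    · show 4 * (D.len j / D.len i) ^ (1 - Lm) = 4 * (D.len j / D.len i) ^ (1 - Lm) * (X.f1 / D.r j) / (X.f1 / D.r j)
      rw [mul_div_assoc, div_self hc1.ne', mul_one]

/-! ### L-256-CHAN-R3 : pure algebra -/

theorem ch_doc_mulb {Λ a b : ℝ} {m k : ℕ} (ha : |a| ≤ Λ ^ m) (hb : |b| ≤ Λ ^ k) : |a * b| ≤ Λ ^ (m + k) := by
  rw [abs_mul, pow_add]
  exact mul_le_mul ha hb (abs_nonneg _) ((abs_nonneg _).trans ha)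

theorem ch_doc_size_aux (Λ l0 r1 f1 e2 e1 T0 be0 K0 P0 X B X' B' Y' N' D' x b y c d al be K r f : ℝ) (hΛ : 2 ≤ Λ)
    (hl0 : Λ⁻¹ ≤ l0) (hl0' : l0 ≤ Λ) (hr1 : Λ⁻¹ ≤ r1) (hf1 : 0 < f1) (hf1' : f1 ≤ Λ) (he2 : 0 ≤ e2) (he2' : e2 ≤ Λ)
    (he1 : 0 ≤ e1) (he1' : e1 ≤ Λ) (hT0 : 0 ≤ T0) (hT0' : T0 ≤ 1)
    (hbe0 : |be0| ≤ Λ) (hK0 : |K0| ≤ Λ) (hP0 : |P0| ≤ Λ) (hX : |X| ≤ Λ) (hB : |B| ≤ Λ)
    (hX' : |X'| ≤ Λ) (hB' : |B'| ≤ Λ) (hY' : |Y'| ≤ Λ) (hN' : |N'| ≤ Λ) (hD' : |D'| ≤ Λ)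
    (hr : 0 ≤ r) (hr' : r ≤ Λ) (hf : 0 ≤ f) (hf' : f ≤ Λ)
    (w1 : |X - x| ≤ r) (w2 : |B + T0 * X - b| ≤ l0 * r) (w3 : |be - be0| ≤ 4 * e2 * (f1 / r1 ^ 2))
    (w4 : l0 * |K - K0| ≤ 4 * e2 * (f1 / r1 ^ 2)) (w5 : |al + 2 * be * X - 2 * K * (B + T0 * X) - P0| ≤ 4 * e1 * (f1 / r1))
    (m2 : |B' + T0 * X' - b| ≤ l0 * r) (m3 : |Y' + T0 * X' ^ 2 - y - 2 * x * (B' + T0 * X' - b)| ≤ l0 * r ^ 2)
    (m4 : |N' - c - al * X' - be * X' ^ 2 - K * (Y' + T0 * X' ^ 2 - 2 * X' * (B' + T0 * X'))| ≤ f)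
    (m5 : |D' + T0 * N' - d - al * (B' + T0 * X') - be * (Y' + T0 * X' ^ 2) + K * (B' + T0 * X') ^ 2| ≤ l0 * f) :
    |x| ≤ Λ ^ 16 ∧ |b| ≤ Λ ^ 16 ∧ |y| ≤ Λ ^ 16 ∧ |c| ≤ Λ ^ 16 ∧ |d| ≤ Λ ^ 16 ∧ |al| ≤ Λ ^ 16 ∧ |be| ≤ Λ ^ 16 ∧ |K| ≤ Λ ^ 16 := by
  have hΛ0 : 0 < Λ := by linarith
  have P : ∀ k : ℕ, 2 * Λ ^ k ≤ Λ ^ (k + 1) := by
    intro k
    rw [pow_succ, mul_comm]
    exact mul_le_mul_of_nonneg_left hΛ (by positivity)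
  have Z : ∀ k : ℕ, 0 < Λ ^ k := fun k => by positivity
  have P0' := P 0; have P1 := P 1; have P2 := P 2; have P3 := P 3; have P4 := P 4; have P5 := P 5; have P6 := P 6; have P7 := P 7
  have P8 := P 8; have P9 := P 9; have P10 := P 10; have P11 := P 11; have P12 := P 12; have P13 := P 13; have P14 := P 14; have P15 := P 15
  have Z0 := Z 0; have Z1 := Z 1
  simp only [zero_add, Nat.reduceAdd] at P0' P1 P2 P3 P4 P5 P6 P7 P8 P9 P10 P11 P12 P13 P14 P15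
  rw [pow_zero] at P0' Z0
  have e1' : Λ ^ 1 = Λ := pow_one _
  -- `T0 u`
  have T : ∀ u U : ℝ, |u| ≤ U → |T0 * u| ≤ U := by
    intro u U hu
    rw [abs_mul, abs_of_nonneg hT0]
    calc T0 * |u| ≤ 1 * |u| := mul_le_mul_of_nonneg_right hT0' (abs_nonneg _)
      _ ≤ U := by rw [one_mul]; exact hu
  have hl0p : 0 < l0 := lt_of_lt_of_le (inv_pos.2 hΛ0) hl0
  have hr1p : 0 < r1 := lt_of_lt_of_le (inv_pos.2 hΛ0) hr1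
  have hr1i : r1⁻¹ ≤ Λ := by
    rw [inv_le_comm₀ hr1p hΛ0]; exact hr1
  have hl0i : l0⁻¹ ≤ Λ := by
    rw [inv_le_comm₀ hl0p hΛ0]; exact hl0
  have hlr : l0 * r ≤ Λ ^ 2 := by
    rw [pow_two]; exact mul_le_mul hl0' hr' hr hΛ0.le
  have hlf : l0 * f ≤ Λ ^ 2 := by
    rw [pow_two]; exact mul_le_mul hl0' hf' hf hΛ0.le
  have hrr : r ^ 2 ≤ Λ ^ 2 := pow_le_pow_left₀ hr hr' 2
  have hlrr : l0 * r ^ 2 ≤ Λ ^ 3 := by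
    have : Λ ^ 3 = Λ * Λ ^ 2 := by ring
    rw [this]; exact mul_le_mul hl0' hrr (by positivity) hΛ0.le
  have hfr : f1 / r1 ≤ Λ ^ 2 := by
    rw [div_eq_mul_inv, pow_two]; exact mul_le_mul hf1' hr1i (inv_pos.2 hr1p).le hΛ0.le
  have hfr0 : 0 ≤ f1 / r1 := by positivity
  have hfrr : f1 / r1 ^ 2 ≤ Λ ^ 3 := by
    have e : f1 / r1 ^ 2 = f1 / r1 * r1⁻¹ := by field_simp
    have : Λ ^ 3 = Λ ^ 2 * Λ := by ring
    rw [e, this]; exact mul_le_mul hfr hr1i (inv_pos.2 hr1p).le (by positivity)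
  have hfrr0 : 0 ≤ f1 / r1 ^ 2 := by positivity
  have hE2 : 4 * e2 * (f1 / r1 ^ 2) ≤ Λ ^ 6 := by
    have : e2 * (f1 / r1 ^ 2) ≤ Λ * Λ ^ 3 := mul_le_mul he2' hfrr hfrr0 hΛ0.le
    have e : Λ * Λ ^ 3 = Λ ^ 4 := by ring
    rw [e] at this
    linarith
  have hE1 : 4 * e1 * (f1 / r1) ≤ Λ ^ 5 := by
    have : e1 * (f1 / r1) ≤ Λ * Λ ^ 2 := mul_le_mul he1' hfr hfr0 hΛ0.le
    have e : Λ * Λ ^ 2 = Λ ^ 3 := by ring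
    rw [e] at this
    linarith
  -- the witness
  have bx : |x| ≤ Λ ^ 2 := by
    rw [abs_le] at w1 hX ⊢
    constructor <;> linarith [w1.1, w1.2, hX.1, hX.2]
  have tX := T X Λ hX
  have bBt : |B + T0 * X| ≤ Λ ^ 2 := by
    rw [abs_le] at tX hB ⊢
    constructor <;> linarith [tX.1, tX.2, hB.1, hB.2]
  have bb : |b| ≤ Λ ^ 3 := by
    rw [abs_le] at w2 bBt ⊢
    constructor <;> linarith [w2.1, w2.2, bBt.1, bBt.2]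
  have bbe : |be| ≤ Λ ^ 7 := by
    rw [abs_le] at w3 hbe0 ⊢
    constructor <;> linarith [w3.1, w3.2, hbe0.1, hbe0.2]
  have bKK : |K - K0| ≤ Λ ^ 7 := by
    have : |K - K0| = l0⁻¹ * (l0 * |K - K0|) := by field_simp
    rw [this]
    have e : Λ ^ 7 = Λ * Λ ^ 6 := by ring
    rw [e]
    exact mul_le_mul hl0i (w4.trans hE2) (by positivity) hΛ0.le
  have bK : |K| ≤ Λ ^ 8 := by
    rw [abs_le] at bKK hK0 ⊢
    constructor <;> linarith [bKK.1, bKK.2, hK0.1, hK0.2]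
  have hX1 : |X| ≤ Λ ^ 1 := by rw [e1']; exact hX
  have hX1' : |X'| ≤ Λ ^ 1 := by rw [e1']; exact hX'
  have q1 := ch_doc_mulb bbe hX1
  have q2 := ch_doc_mulb bK bBt
  simp only [Nat.reduceAdd] at q1 q2
  have bal : |al| ≤ Λ ^ 12 := by
    rw [abs_le] at w5 q1 q2 hP0 ⊢
    constructor <;> linarith [w5.1, w5.2, q1.1, q1.2, q2.1, q2.2, hP0.1, hP0.2]
  -- the member
  have tX' := T X' Λ hX'
  have bBt' : |B' + T0 * X'| ≤ Λ ^ 2 := by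
    rw [abs_le] at tX' hB' ⊢
    constructor <;> linarith [tX'.1, tX'.2, hB'.1, hB'.2]
  have bXX' : |X' ^ 2| ≤ Λ ^ 2 := by
    have := ch_doc_mulb hX1' hX1'
    rwa [← pow_two] at this
  have tXX' := T _ _ bXX'
  have bYt' : |Y' + T0 * X' ^ 2| ≤ Λ ^ 3 := by
    rw [abs_le] at tXX' hY' ⊢
    constructor <;> linarith [tXX'.1, tXX'.2, hY'.1, hY'.2]
  have tN' := T N' Λ hN'
  have bDt' : |D' + T0 * N'| ≤ Λ ^ 2 := by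
    rw [abs_le] at tN' hD' ⊢
    constructor <;> linarith [tN'.1, tN'.2, hD'.1, hD'.2]
  have q3 := ch_doc_mulb bx (m2.trans hlr)
  simp only [Nat.reduceAdd] at q3
  have by' : |y| ≤ Λ ^ 6 := by
    rw [abs_le] at m3 q3 bYt' ⊢
    constructor <;> linarith [m3.1, m3.2, q3.1, q3.2, bYt'.1, bYt'.2]
  have q4 := ch_doc_mulb bal hX1'
  have q5 := ch_doc_mulb bbe bXX'
  have q6 := ch_doc_mulb hX1' bBt'
  simp only [Nat.reduceAdd] at q4 q5 q6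
  have q7 : |Y' + T0 * X' ^ 2 - 2 * X' * (B' + T0 * X')| ≤ Λ ^ 5 := by
    rw [abs_le] at q6 bYt' ⊢
    constructor <;> linarith [q6.1, q6.2, bYt'.1, bYt'.2]
  have q8 := ch_doc_mulb bK q7
  simp only [Nat.reduceAdd] at q8
  have bc : |c| ≤ Λ ^ 15 := by
    rw [abs_le] at m4 q4 q5 q8 hN' ⊢
    constructor <;> linarith [m4.1, m4.2, q4.1, q4.2, q5.1, q5.2, q8.1, q8.2, hN'.1, hN'.2]
  have q9 := ch_doc_mulb bal bBt'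
  have q10 := ch_doc_mulb bbe bYt'
  have q11 := ch_doc_mulb bBt' bBt'
  rw [← pow_two] at q11
  have q12 := ch_doc_mulb bK q11
  simp only [Nat.reduceAdd] at q9 q10 q12
  have bd : |d| ≤ Λ ^ 16 := by
    rw [abs_le] at m5 q9 q10 q12 bDt' ⊢
    constructor <;> linarith [m5.1, m5.2, q9.1, q9.2, q10.1, q10.2, q12.1, q12.2, bDt'.1, bDt'.2]
  have U : ∀ k : ℕ, k ≤ 16 → Λ ^ k ≤ Λ ^ 16 := fun k hk => pow_le_pow_right₀ (by linarith) hk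
  exact ⟨bx.trans (U _ (by norm_num)), bb.trans (U _ (by norm_num)), by'.trans (U _ (by norm_num)), bc.trans (U _ (by norm_num)), bd,
    bal.trans (U _ (by norm_num)), bbe.trans (U _ (by norm_num)), bK.trans (U _ (by norm_num))⟩

/-- `|x| ≤ 2Λ`, `|b| ≤ 3Λ²`, `|be| ≤ 5Λ⁴`, `|K| ≤ 5Λ⁵`, `|al| ≤ 35Λ⁶` (witness `z`);   `|y| ≤ 7Λ³`, `|c| ≤ 72Λ⁷`, `|d| ≤ 103Λ⁷` (member `z'`);   `n = 14` should do (any `n` is fine). -/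
theorem ch_doc_size : ∃ n : ℕ, ∀ (Λ l0 r1 f1 e2 e1 T0 be0 K0 P0 : ℝ) (Q : SfTest) (z z' : SfRay), 2 ≤ Λ →
    Λ⁻¹ ≤ l0 → l0 ≤ Λ → Λ⁻¹ ≤ r1 → r1 ≤ Λ → 0 < f1 → f1 ≤ Λ → 0 ≤ e2 → e2 ≤ Λ → 0 ≤ e1 → e1 ≤ Λ → 0 ≤ T0 → T0 ≤ 1 →
    |be0| ≤ Λ → |K0| ≤ Λ → |P0| ≤ Λ → z.size ≤ Λ → z'.size ≤ Λ → Q.T = T0 → 0 ≤ Q.r → Q.r ≤ Λ → 0 ≤ Q.f → Q.f ≤ Λ →
    chRTr l0 r1 f1 e2 e1 T0 be0 K0 P0 Q z → Q.Mem l0 z' → Q.size ≤ Λ ^ n := by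
  refine ⟨16, ?_⟩
  intro Λ l0 r1 f1 e2 e1 T0 be0 K0 P0 Q z z' hΛ hl0 hl0' hr1 hr1' hf1 hf1' he2 he2' he1 he1' hT0 hT0' hbe0 hK0 hP0 hz hz' hQT hQr hQr' hQf hQf' hW hMem
  obtain ⟨w1, w2, w3, w4, w5⟩ := hW
  obtain ⟨m1, m2, m3, m4, m5⟩ := hMem
  rw [hQT] at m2 m3 m4 m5
  unfold SfRay.size at hz hz'
  simp only [max_le_iff] at hz hz'
  obtain ⟨zX, zB, -, -, -⟩ := hz
  obtain ⟨zX', zB', zY', zN', zD'⟩ := hz'
  unfold SfRay.Bt at w2 w5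
  unfold SfRay.Bt at m2
  unfold SfRay.Bt SfRay.Yt at m3 m4
  unfold SfRay.Bt SfRay.Yt SfRay.Dt at m5
  obtain ⟨a1, a2, a3, a4, a5, a6, a7, a8⟩ := ch_doc_size_aux Λ l0 r1 f1 e2 e1 T0 be0 K0 P0 z.X z.B z'.X z'.B z'.Y z'.N z'.D Q.x Q.b Q.y Q.c Q.d Q.al Q.be Q.K Q.r Q.f
    hΛ hl0 hl0' hr1 hf1 hf1' he2 he2' he1 he1' hT0 hT0' hbe0 hK0 hP0 zX zB zX' zB' zY' zN' zD' hQr hQr' hQf hQf' w1 w2 w3 w4 w5 m2 m3 m4 m5
  unfold SfTest.size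
  simp only [max_le_iff]
  exact ⟨a1, a2, a3, a4, a5, a6, a7, a8⟩

/-! ### L-256-CHAN-R4 -/

/-- `len i ∈ [s², s⁻¹]`, `dl ∈ [s³, 1]` (`hlen`, `gate`, `ch_doc_len_le`), `bdd`;   `M1 = 4 |M| + |C0| + 3` should do. -/
theorem ch_doc_pb_bds (C0 M : ℝ) : ∃ M1 : ℝ, 1 ≤ M1 ∧ ∀ (D : SfDoc) (π : SfPar) (a i j : ℝ) (X : ChDd D i j) (Lm Qx : ℝ),
    0 < a → a ≤ 1 → D.Core π C0 a → π.hyb = false → i ∈ D.G → j ∈ D.G → i < j → X.Pb M → 1 ≤ Lm → Lm ≤ M → 0 ≤ Qx → Qx ≤ M →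
    (D.s ^ M1 ≤ D.len i ∧ D.len i ≤ D.s ^ (-M1)) ∧ (D.s ^ M1 ≤ D.r j ∧ D.r j ≤ D.s ^ (-M1)) ∧ X.f1 ≤ D.s ^ (-M1) ∧
    (D.len j / D.len i) ^ (-Qx) ≤ D.s ^ (-M1) ∧ (D.len j / D.len i) ^ (1 - Lm) ≤ D.s ^ (-M1) ∧
    (D.s ^ M1 ≤ (D.len j / D.len i) ^ Lm * D.r j ∧ (D.len j / D.len i) ^ Lm * D.r j ≤ D.s ^ (-M1)) ∧
    D.s ^ M1 ≤ (D.len j / D.len i) * X.f1 ∧ (∀ ρ, (D.ray i ρ).size ≤ D.s ^ (-M1)) ∧
    (∀ ρ, |X.be0 ρ| ≤ D.s ^ (-M1)) ∧ (∀ ρ, |X.K0 ρ| ≤ D.s ^ (-M1)) ∧ ∀ a' ρ, |X.P0 a' ρ| ≤ D.s ^ (-M1) := by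
  refine ⟨4 * |M| + |C0| + 3, by linarith [abs_nonneg M, abs_nonneg C0], ?_⟩
  intro D π a i j X Lm Qx ha ha1 hC hc hi hj hij hP hLm hLmM hQx hQxM
  have hs := hC.hs.1
  have hs1 := hC.hs.2
  have hM1 : 1 ≤ M := hLm.trans hLmM
  have hMa : |M| = M := abs_of_nonneg (by linarith)
  rw [hMa]
  have hC0 := abs_nonneg C0
  have hC0' := le_abs_self C0
  obtain ⟨hi0, hi1⟩ := hC.gate.2 i hi
  obtain ⟨hj0, hj1⟩ := hC.gate.2 j hj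
  obtain ⟨li1, li2⟩ := hC.hlen.2 i hi
  obtain ⟨lj1, lj2⟩ := hC.hlen.2 j hj
  have lip := ch_doc_len_pos hC hi
  have ljp := ch_doc_len_pos hC hj
  have lle := ch_doc_len_le hC hc hi hj hij
  -- monotonicity in the exponent
  have mono : ∀ u v : ℝ, u ≤ v → D.s ^ v ≤ D.s ^ u := fun u v h => Real.rpow_le_rpow_of_exponent_ge hs hs1.le h
  have pos : ∀ u : ℝ, 0 < D.s ^ u := fun u => Real.rpow_pos_of_pos hs u
  set dl := D.len j / D.len i with hdl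
  have dlp : 0 < dl := div_pos ljp lip
  have dl1 : dl ≤ 1 := (div_le_one lip).2 lle
  have dl3 : D.s ^ (3 : ℝ) ≤ dl := by
    rw [hdl, le_div_iff₀ lip]
    calc D.s ^ (3 : ℝ) * D.len i ≤ D.s ^ (3 : ℝ) * D.s ^ (i - a) := mul_le_mul_of_nonneg_left li2 (pos _).le
      _ = D.s ^ (3 + (i - a)) := (Real.rpow_add hs _ _).symm
      _ ≤ D.s ^ (j + a) := mono _ _ (by linarith)
      _ ≤ D.len j := lj1
  -- negative powers of `dl`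
  have neg : ∀ u : ℝ, 0 ≤ u → u ≤ M → dl ^ (-u) ≤ D.s ^ (-(4 * M + |C0| + 3)) := by
    intro u hu huM
    calc dl ^ (-u) ≤ (D.s ^ (3 : ℝ)) ^ (-u) := Real.rpow_le_rpow_of_nonpos (pos _) dl3 (by linarith)
      _ = D.s ^ (3 * -u) := (Real.rpow_mul hs.le _ _).symm
      _ ≤ D.s ^ (-(4 * M + |C0| + 3)) := mono _ _ (by linarith)
  have up : ∀ x : ℝ, x ≤ D.s ^ (-M) → x ≤ D.s ^ (-(4 * M + |C0| + 3)) := fun x hx => hx.trans (mono _ _ (by linarith))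
  have dlLm : D.s ^ (3 * M) ≤ dl ^ Lm := by
    calc D.s ^ (3 * M) ≤ D.s ^ (3 * Lm) := mono _ _ (by linarith)
      _ = (D.s ^ (3 : ℝ)) ^ Lm := Real.rpow_mul hs.le _ _
      _ ≤ dl ^ Lm := Real.rpow_le_rpow (pos _).le dl3 (by linarith)
  have dlLm1 : dl ^ Lm ≤ 1 := Real.rpow_le_one dlp.le dl1 (by linarith)
  have rjp : 0 < D.r j := lt_of_lt_of_le (pos _) hP.r.1
  refine ⟨⟨?_, ?_⟩, ⟨?_, up _ hP.r.2⟩, up _ hP.f.2, neg Qx hQx hQxM, ?_, ⟨?_, ?_⟩, ?_, ?_, fun ρ => up _ (hP.be ρ), fun ρ => up _ (hP.K ρ),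
    fun a' ρ => up _ (hP.P a' ρ)⟩
  · exact (mono _ _ (by linarith)).trans li1
  · exact li2.trans (mono _ _ (by linarith))
  · exact (mono _ _ (by linarith)).trans hP.r.1
  · have := neg (Lm - 1) (by linarith) (by linarith)
    rwa [neg_sub] at this
  · calc D.s ^ (4 * M + |C0| + 3) ≤ D.s ^ (3 * M + M) := mono _ _ (by linarith)
      _ = D.s ^ (3 * M) * D.s ^ M := Real.rpow_add hs _ _
      _ ≤ dl ^ Lm * D.r j := mul_le_mul dlLm hP.r.1 (pos _).le (Real.rpow_nonneg dlp.le _)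
  · calc dl ^ Lm * D.r j ≤ 1 * D.r j := mul_le_mul_of_nonneg_right dlLm1 rjp.le
      _ = D.r j := one_mul _
      _ ≤ _ := up _ hP.r.2
  · calc D.s ^ (4 * M + |C0| + 3) ≤ D.s ^ (3 + M) := mono _ _ (by linarith)
      _ = D.s ^ (3 : ℝ) * D.s ^ M := Real.rpow_add hs _ _
      _ ≤ dl * X.f1 := mul_le_mul dl3 hP.f.1 (pos _).le dlp.le
  · intro ρ
    exact ((hC.bdd i hi ρ).1).trans (mono _ _ (by linarith))

/-! ### L-256-CHAN-R5 : pure real numbers -/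

/-- `M2 (1 - η) ≥ |pd| + |C0| + 4 M1`. -/
theorem ch_doc_reg_triv (η C0 M1 pd : ℝ) (h0 : 0 < η) (h1 : η < 1) (hM : 0 ≤ M1) : ∃ M2 : ℝ, M1 ≤ M2 ∧
    ∀ (s a i ek r f : ℝ), 0 < s → s < 1 → 0 < a → 0 ≤ i → i ≤ 1 → 0 < ek → ek ≤ s ^ (-C0) → s ^ M1 ≤ r → s ^ (-M2) ≤ f →
      1 ≤ s ^ (-a) * s ^ (pd * i) / ek * (r ^ (3 + η) * f ^ (1 - η)) := by
  have h1η : 0 < 1 - η := by linarith
  refine ⟨(|pd| + |C0| + 4 * M1) / (1 - η), ?_, ?_⟩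
  · rw [le_div_iff₀ h1η]
    nlinarith [abs_nonneg pd, abs_nonneg C0]
  intro s a i ek r f hs hs1 ha hi0 hi1 hek hek' hr hf
  have A0 : 1 ≤ s ^ (-a) := Real.one_le_rpow_of_pos_of_le_one_of_nonpos hs hs1.le (by linarith)
  have A1 : s ^ |pd| ≤ s ^ (pd * i) := by
    refine Real.rpow_le_rpow_of_exponent_ge hs hs1.le ?_
    calc pd * i ≤ |pd| * i := mul_le_mul_of_nonneg_right (le_abs_self _) hi0
      _ ≤ |pd| * 1 := mul_le_mul_of_nonneg_left hi1 (abs_nonneg _)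
      _ = |pd| := mul_one _
  have A2 : s ^ |C0| ≤ ek⁻¹ := by
    have e1 : ek ≤ s ^ (-|C0|) := hek'.trans (Real.rpow_le_rpow_of_exponent_ge hs hs1.le (by linarith [le_abs_self C0]))
    rw [Real.rpow_neg hs.le] at e1
    rw [le_inv_comm₀ (Real.rpow_pos_of_pos hs _) hek]
    exact e1
  have A3 : s ^ (4 * M1) ≤ r ^ (3 + η) := by
    calc s ^ (4 * M1) ≤ s ^ (M1 * (3 + η)) := Real.rpow_le_rpow_of_exponent_ge hs hs1.le (by nlinarith)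
      _ = (s ^ M1) ^ (3 + η) := Real.rpow_mul hs.le _ _
      _ ≤ r ^ (3 + η) := Real.rpow_le_rpow (Real.rpow_pos_of_pos hs _).le hr (by linarith)
  have A4 : s ^ (-(|pd| + |C0| + 4 * M1)) ≤ f ^ (1 - η) := by
    calc s ^ (-(|pd| + |C0| + 4 * M1)) = s ^ (-((|pd| + |C0| + 4 * M1) / (1 - η)) * (1 - η)) := by
          congr 1
          field_simp
      _ = (s ^ (-((|pd| + |C0| + 4 * M1) / (1 - η)))) ^ (1 - η) := Real.rpow_mul hs.le _ _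
      _ ≤ f ^ (1 - η) := Real.rpow_le_rpow (Real.rpow_pos_of_pos hs _).le hf h1η.le
  have p1 := Real.rpow_pos_of_pos hs |pd|
  have p2 := Real.rpow_pos_of_pos hs |C0|
  have p3 := Real.rpow_pos_of_pos hs (4 * M1)
  have p4 := Real.rpow_pos_of_pos hs (-(|pd| + |C0| + 4 * M1))
  have e : (1 : ℝ) = 1 * s ^ |pd| * s ^ |C0| * (s ^ (4 * M1) * s ^ (-(|pd| + |C0| + 4 * M1))) := by
    rw [one_mul, ← Real.rpow_add hs, ← Real.rpow_add hs, ← Real.rpow_add hs]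
    have : |pd| + |C0| + (4 * M1 + -(|pd| + |C0| + 4 * M1)) = 0 := by ring
    rw [this, Real.rpow_zero]
  rw [div_eq_mul_inv]
  calc (1 : ℝ) = 1 * s ^ |pd| * s ^ |C0| * (s ^ (4 * M1) * s ^ (-(|pd| + |C0| + 4 * M1))) := e
    _ ≤ s ^ (-a) * s ^ (pd * i) * ek⁻¹ * (r ^ (3 + η) * f ^ (1 - η)) := by
        have q3 : 0 ≤ r ^ (3 + η) := p3.le.trans A3
        gcongr

end Claimed.Agent.R256
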