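-- KEEP
import Claimed.Agent.R256.Chan.DocReg

/-!
# Row 256 (LS paper), CHAN, unit ADC, file 4b : glue `ch_doc_reg`          (architect helper33; prefix `ch_doc_`)
-/

set_option autoImplicit false

namespace Claimed.Agent.R256

open Claimed.Agent.R255 MeasureTheory
open scoped BigOperators
open Classical

attribute [local instance] chDocMS

/-- **regularity of the segment** with `κ = s^(-a) s^((p+d) i) / ek * (r_j^(3+η) f1^(1-η))` -/
theorem ch_doc_reg (π : SfPar) (hη : 0 < π.η ∧ π.η < 1) (hc : π.hyb = false) (C0 M : ℝ) :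
    ∃ a0 : ℝ, 0 < a0 ∧ a0 ≤ 1 ∧ ∀ (D : SfDoc) (a i j : ℝ) (X : ChDd D i j) (Lm Qx : ℝ), 0 < a → a ≤ a0 → D.s ≤ 1 / 2 →
      D.Core π C0 a → i ∈ D.G → j ∈ D.G → i < j → X.Pb M → 1 ≤ Lm → Lm ≤ M → 0 ≤ Qx → Qx ≤ M →
      ∀ (T0 : ℝ) (Q : CyT), (X.seg T0).RT Lm Qx Q →
      ((X.seg T0).mu {ω | cyIn Q 1 ((X.seg T0).co 0 ω)}).toReal
        ≤ (D.s ^ (-a) * D.s ^ ((π.p + π.d) * i) / D.ek * (D.r j ^ (3 + π.η) * X.f1 ^ (1 - π.η))) * cyWt π.η Q := by
  obtain ⟨n, hn⟩ := ch_doc_size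
  obtain ⟨M1, hM1, hb⟩ := ch_doc_pb_bds C0 M
  obtain ⟨M2, hM2, htr⟩ := ch_doc_reg_triv π.η C0 M1 (π.p + π.d) hη.1 hη.2 (by linarith)
  have hM2' : 1 ≤ M2 := le_trans hM1 hM2
  have hnM : 1 ≤ ((n : ℝ) + 1) * M2 := by
    have : (0 : ℝ) ≤ n := Nat.cast_nonneg n
    nlinarith
  refine ⟨1 / (((n : ℝ) + 1) * M2), by positivity, ?_, ?_⟩
  · rw [div_le_one (by positivity)]
    exact hnM
  intro D a i j X Lm Qx ha ha0 hs hC hi hj hij hP hL1 hLM hQ0 hQM T0 Q hRT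
  have hs0 := hC.hs.1
  have hs1 := hC.hs.2
  have ha1 : a ≤ 1 := ha0.trans (by rw [div_le_one (by positivity)]; exact hnM)
  have hinv : ((n : ℝ) + 1) * M2 ≤ 1 / a := by
    rw [le_div_iff₀ ha]
    have := mul_le_mul_of_nonneg_left ha0 (by positivity : (0 : ℝ) ≤ ((n : ℝ) + 1) * M2)
    rwa [mul_one_div, div_self (by positivity)] at this
  have hM2a : M2 ≤ 1 / a := by
    have : (0 : ℝ) ≤ n := Nat.cast_nonneg n
    nlinarith
  have hnM2a : (n : ℝ) * M2 ≤ 1 / a := by nlinarith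
  -- monotonicity in the exponent
  have hmono : ∀ x y : ℝ, y ≤ x → D.s ^ x ≤ D.s ^ y := fun x y h => Real.rpow_le_rpow_of_exponent_ge hs0 hs1.le h
  obtain ⟨⟨hl1, hl2⟩, ⟨hr1, hr2⟩, hf2, he2, he1, ⟨hw1, hw2⟩, hdf, hray, hbe, hK, hP0⟩ :=
    hb D π a i j X Lm Qx ha ha1 hC hc hi hj hij hP hL1 hLM hQ0 hQM
  have hl : 0 < D.len i := ch_doc_len_pos hC hi
  have hlj : 0 < D.len j := ch_doc_len_pos hC hj
  have hdl : 0 < D.len j / D.len i := div_pos hlj hl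
  have hr : 0 < D.r j := ch_doc_r_pos hC hj
  have hf : 0 < X.f1 := lt_of_lt_of_le (Real.rpow_pos_of_pos hs0 _) hP.f.1
  have hek0 : 0 < D.ek := lt_of_lt_of_le (Real.rpow_pos_of_pos hs0 _) hC.hek.1
  obtain ⟨hQr, hQf, ρ, a', hW⟩ := ch_doc_rt_real X hl hr hf hRT
  have hQr0 : 0 ≤ Q.r := by
    rw [hRT.1]
    exact (Real.rpow_pos_of_pos hdl _).le
  have hQf0 : 0 ≤ Q.f := le_trans hdl.le hRT.2.1
  have hwt := ch_doc_wt hr hf T0 (D.len i) π.η hQr0 hQf0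
  rw [ch_doc_reg_eq X hl hr hf T0 Q]
  have hRHS : (D.s ^ (-a) * D.s ^ ((π.p + π.d) * i) / D.ek * (D.r j ^ (3 + π.η) * X.f1 ^ (1 - π.η))) * cyWt π.η Q
      = D.s ^ (-a) * D.s ^ ((π.p + π.d) * i) / D.ek * (chUT T0 (D.len i) (D.r j) X.f1 Q).w π.η := by
    rw [hwt]; ring
  rw [hRHS]
  have hQT : (chUT T0 (D.len i) (D.r j) X.f1 Q).T = T0 := rfl
  generalize chUT T0 (D.len i) (D.r j) X.f1 Q = Q' at *
  have hpos : 0 ≤ D.s ^ (-a) * D.s ^ ((π.p + π.d) * i) / D.ek * Q'.w π.η := by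
    have h1 : 0 ≤ Q'.r := by rw [hQr]; positivity
    have h2 : 0 ≤ Q'.f := le_trans (by positivity) hQf
    unfold SfTest.w
    positivity
  by_cases hex : ∃ ρ0, D.T i ρ0 = T0 ∧ Q'.Mem (D.len i) (D.ray i ρ0)
  · obtain ⟨ρ0, hT, hmem⟩ := hex
    by_cases hbig : D.s ^ (-M2) ≤ Q'.f
    · refine (ent_pr_le_one _ _).trans ?_
      exact htr D.s a i D.ek Q'.r Q'.f hs0 hs1 ha (hC.gate.2 i hi).1 (hC.gate.2 i hi).2 hek0 hC.hek.2 (hQr ▸ hw1) hbig
    · rw [not_le] at hbig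
      have hown := hC.own i hi ρ0
      have hT0 : 0 ≤ T0 := hT ▸ hown.2.2.2.1
      have hT1 : T0 ≤ 1 := by
        have := hown.2.2.2.2
        rw [hT] at this
        linarith
      have hΛ2 : (2 : ℝ) ≤ D.s ^ (-M2) := by
        have h1 : D.s ^ (-(1 : ℝ)) ≤ D.s ^ (-M2) := hmono _ _ (by linarith)
        have h2 : (2 : ℝ) ≤ D.s ^ (-(1 : ℝ)) := by
          rw [Real.rpow_neg_one, le_inv_comm₀ (by norm_num) hs0]
          linarith
        linarith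
      have hΛi : (D.s ^ (-M2))⁻¹ = D.s ^ M2 := by rw [Real.rpow_neg hs0.le, inv_inv]
      have hup : D.s ^ (-M1) ≤ D.s ^ (-M2) := hmono _ _ (by linarith)
      have hlo : D.s ^ M2 ≤ D.s ^ M1 := hmono _ _ hM2
      have hsz := hn (D.s ^ (-M2)) (D.len i) (D.r j) X.f1 ((D.len j / D.len i) ^ (-Qx)) ((D.len j / D.len i) ^ (1 - Lm)) T0
        (X.be0 ρ) (X.K0 ρ) (X.P0 a' ρ) Q' (D.ray i ρ) (D.ray i ρ0) hΛ2 (hΛi ▸ hlo.trans hl1) (hl2.trans hup) (hΛi ▸ hlo.trans hr1)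
        (hr2.trans hup) hf (hf2.trans hup) (Real.rpow_pos_of_pos hdl _).le (he2.trans hup) (Real.rpow_pos_of_pos hdl _).le
        (he1.trans hup) hT0 hT1 ((hbe ρ).trans hup) ((hK ρ).trans hup) ((hP0 a' ρ).trans hup) ((hray ρ).trans hup)
        ((hray ρ0).trans hup) hQT (by rw [hQr]; positivity) (by rw [hQr]; exact hw2.trans hup) (le_trans (by positivity) hQf)
        hbig.le hW hmem
      have hpow : (D.s ^ (-M2)) ^ n = D.s ^ (-((n : ℝ) * M2)) := by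
        rw [← Real.rpow_natCast, ← Real.rpow_mul hs0.le]
        congr 1
        ring
      have hadm : D.Adm π a i Q' := by
        refine ⟨?_, ?_, ?_, ?_, ?_, ?_⟩
        · rw [hQr]
          exact (hmono _ _ (hM2.trans hM2a)).trans hw1
        · rw [hQr]
          exact hw2.trans (hmono _ _ (by linarith [hM2.trans hM2a]))
        · exact ((hmono _ _ (hM2.trans hM2a)).trans hdf).trans hQf
        · exact hbig.le.trans (hmono _ _ (by linarith))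
        · rw [hpow] at hsz
          exact hsz.trans (hmono _ _ (by linarith))
        · intro h
          rw [hc] at h
          exact absurd h (by simp)
      have hreg := hC.reg i hi Q' hadm
      rw [hQT] at hreg
      exact hreg
  · rw [ent_pr_eq_zero]
    · exact hpos
    · intro ρ0 _ h
      exact hex ⟨ρ0, h⟩

end Claimed.Agent.R256
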