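-- KEEP
import Claimed.Agent.R256.Chan.DocRegG
import Claimed.Agent.R256.Chan.DocNum

/-!
# Row 256 (LS paper), CHAN, unit ADC, file 7 : `ch_doc_fin_main` = `ch_doc_gen` + `ch_doc_reg` + numerology          (architect helper33; prefix `ch_doc_`)
-/

set_option autoImplicit false

namespace Claimed.Agent.R256

open Claimed.Agent.R255 MeasureTheory
open scoped BigOperators
open Classical

attribute [local instance] chDocMS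

/-- what an instance has to supply (`A = 4 s^(-M a)`, polynomial bounds `s^(±M)`) -/
structure ChDd.Pre {D : SfDoc} {i j : ℝ} (X : ChDd D i j) (π : SfPar) (a M Lm Qx Rn : ℝ) : Prop where
  cd : X.cd = D.s ^ (-a) * D.s ^ (π.d * (j - i))
  L1 : 1 ≤ Lm
  LM : Lm ≤ M
  Q0 : 0 ≤ Qx
  QM : Qx ≤ M
  ML : 1 + Qx ≤ 2 * Lm
  f1 : X.f1 ≤ 4 * D.s ^ (-(M * a)) * D.f j
  pb : X.Pb M
  QeT : ∀ lam, (X.Qe lam).T = lam.T
  Qew : ∀ ρ', (X.Qe (D.lab j ρ')).r = D.r j ∧ (X.Qe (D.lab j ρ')).f = X.f1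
  Qein : ∀ ρ', (X.Qe (D.lab j ρ')).Mem (D.len j) (D.ray j ρ')
  near : ∀ ρ ρ', D.Conn i j ρ ρ' → X.Ev ρ' → ∃ a', chNear (4 * D.s ^ (-(M * a))) Lm Qx (D.len j / D.len i) (D.len i) (D.r j) X.f1
    (D.T j ρ' - D.T i ρ) (X.be0 ρ) (X.K0 ρ) (X.P0 a' ρ) (D.ray i ρ).X ((D.ray i ρ).Bt (D.T j ρ')) (chCy (X.Qe (D.lab j ρ')))
  card : ∀ lam, ((X.cs lam).card : ℝ) ≤ Rn

theorem ch_doc_fin_main (π : SfPar) (hπ : π.Pd) (hc : π.hyb = false) (t C0 M : ℝ) (ht : 0 < t) (hM : 1 ≤ M) :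
    ∃ a0 s0 : ℝ, 0 < a0 ∧ a0 ≤ 1 ∧ 0 < s0 ∧ s0 ≤ 1 / 2 ∧ ∀ (D : SfDoc) (a i j : ℝ) (X : ChDd D i j) (Lm Qx Rn : ℝ), 0 < a → a ≤ a0 →
      D.s < s0 → D.Core π C0 a → i ∈ D.G → j ∈ D.G → i < j → 0 ≤ Rn → X.Pre π a M Lm Qx Rn →
      (D.P j).pr (X.E Lm) ≤ D.s ^ (-t) * Real.sqrt ((X.g : ℝ) * Rn * D.s ^ (π.mnum Lm * (j - i))) + 2 * D.s ^ (1 / a - 2) := by
  obtain ⟨hη, hΓ, hpd, hp, hd⟩ := hπ
  obtain ⟨C, hC, hgen⟩ := ch_doc_gen π.η hη.1 hη.2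
  obtain ⟨a1, ha1, ha11, hreg⟩ := ch_doc_reg π hη hc C0 M
  obtain ⟨K, hK, hin⟩ := ch_doc_num_in π.η π.p π.d M hη.1 hη.2 hM
  obtain ⟨a2, s2, ha2, ha21, hs2, hs21, hout⟩ := ch_doc_num_out C t M K hC ht (by linarith) hK
  refine ⟨min a1 a2, s2, lt_min ha1 ha2, (min_le_left _ _).trans ha11, hs2, hs21, ?_⟩
  intro D a i j X Lm Qx Rn ha ha0 hs hCo hi hj hij hRn hX
  have hs0 := hCo.hs.1
  have hs1 := hCo.hs.2
  have haa1 : a ≤ a1 := ha0.trans (min_le_left _ _)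
  have haa2 : a ≤ a2 := ha0.trans (min_le_right _ _)
  have ha1' : a ≤ 1 := haa1.trans ha11
  have hl : 0 < D.len i := ch_doc_len_pos hCo hi
  have hlj : 0 < D.len j := ch_doc_len_pos hCo hj
  have hdl : 0 < D.len j / D.len i := div_pos hlj hl
  have hr : 0 < D.r j := ch_doc_r_pos hCo hj
  have hfj : 0 < D.f j := (hCo.hw.2.2 j hj).2
  have hf : 0 < X.f1 := lt_of_lt_of_le (Real.rpow_pos_of_pos hs0 _) hX.pb.f.1
  have hek0 : 0 < D.ek := lt_of_lt_of_le (Real.rpow_pos_of_pos hs0 _) hCo.hek.1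
  set κ := D.s ^ (-a) * D.s ^ ((π.p + π.d) * i) / D.ek * (D.r j ^ (3 + π.η) * X.f1 ^ (1 - π.η)) with hκ
  have hκ0 : 0 ≤ κ := by positivity
  have hA1 : 1 ≤ 4 * D.s ^ (-(M * a)) := by
    have : 1 ≤ D.s ^ (-(M * a)) := Real.one_le_rpow_of_pos_of_le_one_of_nonpos hs0 hs1.le (by nlinarith)
    linarith
  have hOk : X.Ok π C0 a κ (4 * D.s ^ (-(M * a))) Lm Qx Rn :=
    { core := hCo, cl := hc, a0 := ha, gi := hi, gj := hj, ij := hij, cd := hX.cd, A1 := hA1, ka0 := hκ0, L1 := hX.L1, ML := hX.ML,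
      f1 := hf, QeT := hX.QeT, Qew := hX.Qew, Qein := hX.Qein, near := hX.near, card := hX.card,
      reg := hreg D a i j X Lm Qx ha haa1 (hs.le.trans hs21) hCo hi hj hij hX.pb hX.L1 hX.LM hX.Q0 hX.QM }
  have h1 := hgen D i j X π C0 a κ (4 * D.s ^ (-(M * a))) Lm Qx Rn rfl hRn hOk
  refine h1.trans (add_le_add ?_ ?_)
  · have hN0 : (0 : ℝ) ≤ ((Set.range (D.lab j)).ncard : ℝ) := Nat.cast_nonneg _
    have h2 := hin D.s a i j (D.len i) (D.len j) (D.r j) (D.f j) X.f1 D.ek ((Set.range (D.lab j)).ncard : ℝ) Lm hs0 hs1 ha ha1' hij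
      (hCo.hlen.2 i hi).1 (hCo.hlen.2 i hi).2 (hCo.hlen.2 j hj).1 (hCo.hlen.2 j hj).2 hr hfj hf hX.f1 hek0 hN0 (hCo.cnt j hj) hX.L1 hX.LM
    have h3 := hout D.s a (j - i) π.d (2 + π.η * (Lm - 1) - π.p - π.d) ((X.g : ℝ) * Rn) _ hs0 hs ha haa2 (by positivity)
      (by positivity) h2
    rw [hX.cd]
    have e1 : (X.g : ℝ) * ((Set.range (D.lab j)).ncard : ℝ) * Rn * (D.len j / D.len i) ^ (2 - 3 * Lm) * (κ * (D.len j / D.len i) ^ ((3 + π.η) * Lm - π.η))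
        = (X.g : ℝ) * Rn * (((Set.range (D.lab j)).ncard : ℝ) * ((D.len j / D.len i) ^ (2 - 3 * Lm) * (κ * (D.len j / D.len i) ^ ((3 + π.η) * Lm - π.η)))) := by
      ring
    rw [e1]
    have e2 : π.mnum Lm = 2 + π.η * (Lm - 1) - π.p - π.d + 2 * π.d := by
      unfold SfPar.mnum
      rw [hpd]
      ring
    rw [e2]
    exact h3
  · exact ch_doc_num_add D.s a j (D.len j) hs0 hs1 ha ha1' (hCo.gate.2 j hj).2 (hCo.hlen.2 j hj).1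

end Claimed.Agent.R256
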