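-- KEEP
import Claimed.Agent.R256.Chan.DocSeg

/-!
# Row 256 (LS paper), CHAN, unit ADC, file 6 : THE THREE INSTANCES (leaves)          (architect helper33; prefix `ch_doc_`)

`h = j - i`, `dl = len j / len i ∈ [s^(h+2a), s^(h-2a)]`.   Profiles (`AffP.hr`, `AffP.hf`): `r_j = s^(u j ± a)`, `f_j = s^(n j ± a)`;   `n - 2u = b2`, `n - u = b1`, `b2 i = b2 j - q h`, `b1 i = b1 j - Cr h`.
Everything is a comparison of exponents of `s ∈ (0,1)`: `Real.rpow_le_rpow_of_exponent_ge`, `Real.rpow_add`, `Real.rpow_mul`, `Real.rpow_le_rpow_of_nonpos` (negative powers of `dl`).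
The constants `M` are EXISTENTIAL: choose them generously.
* Q  (`c2 ≠ 0`):  `f1 = f j`, `Qe = id`, start data = curvature coefficients of the start label, `Qx = max 1 q`
* L  (`c2 = 0`):  `f1 = 4 s^(-4a) f j`, `Qe = chDocLin f1` (enclosing linear tests), start data `0`
* Z  (zero cost): `j = 1`, `f1 = 1`, `Qe = id`, start data `0`, `Lm = Qx = 1`
-/

set_option autoImplicit false

namespace Claimed.Agent.R256

open Claimed.Agent.R255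
open Classical

/-- the enclosing linear test of normal width `f1` -/
def chDocLin (f1 : ℝ) (Q : SfTest) : SfTest where
  T := Q.T
  x := Q.x
  b := Q.b
  y := Q.y
  c := Q.c + Q.al * Q.x + Q.be * Q.x ^ 2 + Q.K * (Q.y - 2 * Q.x * Q.b) - Q.Pc * Q.x
  d := Q.d + Q.al * Q.b + Q.be * Q.y - Q.K * Q.b ^ 2 - Q.Pc * Q.b
  al := Q.Pc
  be := 0
  K := 0
  r := Q.r
  f := f1

theorem ch_doc_inst_eqns_cite : True := by
  have := @chDocLin.eq_1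
  trivial

/-! ### L-256-CHAN-I1 : lengths -/

theorem ch_doc_dl_bds {D : SfDoc} {π : SfPar} {C0 a i j : ℝ} (h : D.Core π C0 a) (hi : i ∈ D.G) (hj : j ∈ D.G) :
    D.s ^ (j - i + 2 * a) ≤ D.len j / D.len i ∧ D.len j / D.len i ≤ D.s ^ (j - i - 2 * a) := by
  obtain ⟨hs0, hs1⟩ := h.hs
  obtain ⟨hi1, hi2⟩ := h.hlen.2 i hi
  obtain ⟨hj1, hj2⟩ := h.hlen.2 j hj
  have pi : 0 < D.len i := lt_of_lt_of_le (Real.rpow_pos_of_pos hs0 _) hi1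
  constructor
  · rw [le_div_iff₀ pi]
    calc D.s ^ (j - i + 2 * a) * D.len i ≤ D.s ^ (j - i + 2 * a) * D.s ^ (i - a) := by gcongr
      _ = D.s ^ (j + a) := by
        rw [← Real.rpow_add hs0]
        congr 1
        ring
      _ ≤ D.len j := hj1
  · rw [div_le_iff₀ pi]
    calc D.len j ≤ D.s ^ (j - a) := hj2
      _ = D.s ^ (j - i - 2 * a) * D.s ^ (i + a) := by
        rw [← Real.rpow_add hs0]
        congr 1
        ring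
      _ ≤ D.s ^ (j - i - 2 * a) * D.len i := by gcongr

/-- `(s^h / dl)^Lm ≤ s^(-2 a Lm)`. -/
theorem ch_doc_ratio {D : SfDoc} {π : SfPar} {C0 a i j Lm : ℝ} (h : D.Core π C0 a) (hi : i ∈ D.G) (hj : j ∈ D.G) (hL : 0 ≤ Lm) :
    D.r j * D.s ^ (Lm * (j - i)) / (D.r j * (D.len j / D.len i) ^ Lm) ≤ D.s ^ (-(2 * a * Lm)) := by
  obtain ⟨hs0, hs1⟩ := h.hs
  obtain ⟨hd1, hd2⟩ := ch_doc_dl_bds h hi hj
  have hr : 0 < D.r j := (h.hw.2.2 j hj).1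
  have hdl : 0 < D.len j / D.len i := lt_of_lt_of_le (Real.rpow_pos_of_pos hs0 _) hd1
  rw [mul_div_mul_left _ _ hr.ne', div_le_iff₀ (Real.rpow_pos_of_pos hdl _)]
  calc D.s ^ (Lm * (j - i)) = D.s ^ (-(2 * a * Lm)) * (D.s ^ (j - i + 2 * a)) ^ Lm := by
        rw [← Real.rpow_mul hs0.le, ← Real.rpow_add hs0]
        congr 1
        ring
    _ ≤ D.s ^ (-(2 * a * Lm)) * (D.len j / D.len i) ^ Lm := by
        gcongr

/-! ### L-256-CHAN-I2 : `near`, quadratic case -/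

/-- `be_i - be_j + dT K_j = (beAt_i(T_j) - be_j) - dT (K_i - K_j)`, `0 ≤ dT ≤ len i ≤ s^(i-a)` (`base`, `hlen`);  `cmpA`;   `f_j/r_j² ≥ s^(b2 j + 3a)`, `dl^(-Qx) ≥ s^(-Qx (h - 2a))`;
`min (b2 i) (b2 j) ≥ b2 j - Qx h`, `i + min (b2 i - i) (b2 j - j) ≥ b2 j - Qx h`  (`Qm = q ≤ Qx`, `1 ≤ Qx`).   Third: `normC` (same ray), `dl^(1-Lm) ≥ s^((1-Lm)(h-2a))`.   `M = 5 + 2 Qx + 2 Lraw`. -/
theorem ch_doc_nearQ (π : SfPar) (h2 : π.c2 ≠ 0) : ∃ M : ℝ, 1 ≤ M ∧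
    ∀ (D : SfDoc) (C0 a i j Lm P0 : ℝ) (ρ : D.Row i) (ρ' : D.Row j), 0 < a → a ≤ 1 → D.Core π C0 a → π.hyb = false → D.AffP π a →
    i ∈ D.G → j ∈ D.G → i < j → 1 ≤ Lm → Lm ≤ π.Lraw → D.Conn i j ρ ρ' →
    |P0 - (D.lab j ρ').Pd (D.ray j ρ')| ≤ D.s ^ (-(3 * a)) * D.s ^ ((1 - Lm) * (j - i)) * (D.f j / D.r j) →
    chNear (4 * D.s ^ (-(M * a))) Lm (max 1 π.Qm) (D.len j / D.len i) (D.len i) (D.r j) (D.f j) (D.T j ρ' - D.T i ρ)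
      (D.lab i ρ).be (D.lab i ρ).K P0 (D.ray i ρ).X ((D.ray i ρ).Bt (D.T j ρ')) (chCy (D.lab j ρ')) := by
  have hQx1 : (1 : ℝ) ≤ max 1 π.Qm := le_max_left _ _
  have hQq : π.q ≤ max 1 π.Qm := by
    have e : π.Qm = π.q := by unfold SfPar.Qm; rw [if_neg h2]
    rw [e]; exact le_max_right _ _
  have hL1 : (1 : ℝ) ≤ π.Lraw := le_max_left _ _
  refine ⟨5 + 2 * max 1 π.Qm + 2 * π.Lraw, by linarith, ?_⟩
  intro D C0 a i j Lm P0 ρ ρ' ha ha1 hC hcl hA hi hj hij hLm1 hLm hcn hP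
  generalize max 1 π.Qm = Qx at hQx1 hQq ⊢
  obtain ⟨hs0, hs1⟩ := hC.hs
  have mono : ∀ x y : ℝ, y ≤ x → D.s ^ x ≤ D.s ^ y := fun x y h => Real.rpow_le_rpow_of_exponent_ge hs0 hs1.le h
  have hli := ch_doc_len_pos hC hi
  have hlj := ch_doc_len_pos hC hj
  have hdl0 : 0 < D.len j / D.len i := div_pos hlj hli
  obtain ⟨-, hdl⟩ := ch_doc_dl_bds hC hi hj
  obtain ⟨hrj0, hfj0⟩ := hC.hw.2.2 j hj
  have hr := (hA.hr j hj).2
  have hf := (hA.hf j hj).1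
  obtain ⟨cA1, cA2, -⟩ := hA.cmpA i hi j hj hij ρ ρ' hcn
  obtain ⟨hb1, hb2, -, -⟩ := hC.base i hi j hj hij ρ ρ' hcn
  have hleni := (hC.hlen.2 i hi).2
  have hray := hC.normC hcl i hi j hj hij ρ ρ' hcn
  have hh : 0 < j - i := sub_pos.2 hij
  -- the width ratio
  have hfr2 : D.s ^ (π.b2 j + 3 * a) ≤ D.f j / D.r j ^ 2 := by
    rw [le_div_iff₀ (pow_pos hrj0 2)]
    have h1 : D.r j ^ 2 ≤ D.s ^ (2 * (π.u j - a)) := by
      have h3 : (D.s ^ (π.u j - a)) ^ 2 = D.s ^ (2 * (π.u j - a)) := by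
        rw [← Real.rpow_natCast, ← Real.rpow_mul hs0.le]
        congr 1
        push_cast
        ring
      rw [← h3]
      exact pow_le_pow_left₀ hrj0.le hr 2
    calc D.s ^ (π.b2 j + 3 * a) * D.r j ^ 2 ≤ D.s ^ (π.b2 j + 3 * a) * D.s ^ (2 * (π.u j - a)) :=
          mul_le_mul_of_nonneg_left h1 (Real.rpow_pos_of_pos hs0 _).le
      _ = D.s ^ (π.n j + a) := by
          rw [← Real.rpow_add hs0]
          congr 1
          simp only [SfPar.b2, SfPar.u, SfPar.n]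
          ring
      _ ≤ D.f j := hf
  -- negative powers of `dl`
  have hdlp : ∀ z : ℝ, z ≤ 0 → D.s ^ (z * (j - i - 2 * a)) ≤ (D.len j / D.len i) ^ z := fun z hz => by
    have h1 := Real.rpow_le_rpow_of_nonpos hdl0 hdl hz
    rwa [← Real.rpow_mul hs0.le, mul_comm] at h1
  -- the target of the first two inequalities
  have hT : D.s ^ (π.b2 j - Qx * (j - i) - 2 * a)
      ≤ D.s ^ (-((5 + 2 * Qx + 2 * π.Lraw) * a)) * (D.f j / D.r j ^ 2) * (D.len j / D.len i) ^ (-Qx) := by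
    calc D.s ^ (π.b2 j - Qx * (j - i) - 2 * a)
        ≤ D.s ^ (-((5 + 2 * Qx + 2 * π.Lraw) * a) + (π.b2 j + 3 * a) + (-Qx) * (j - i - 2 * a)) := by
          apply mono
          nlinarith
      _ = D.s ^ (-((5 + 2 * Qx + 2 * π.Lraw) * a)) * D.s ^ (π.b2 j + 3 * a) * D.s ^ ((-Qx) * (j - i - 2 * a)) := by
          rw [Real.rpow_add hs0, Real.rpow_add hs0]
      _ ≤ D.s ^ (-((5 + 2 * Qx + 2 * π.Lraw) * a)) * (D.f j / D.r j ^ 2) * (D.len j / D.len i) ^ (-Qx) := by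
          refine mul_le_mul (mul_le_mul_of_nonneg_left hfr2 (Real.rpow_pos_of_pos hs0 _).le) (hdlp _ (by linarith))
            (Real.rpow_pos_of_pos hs0 _).le ?_
          exact mul_nonneg (Real.rpow_pos_of_pos hs0 _).le (div_pos hfj0 (pow_pos hrj0 2)).le
  have hT0 : 0 < D.s ^ (π.b2 j - Qx * (j - i) - 2 * a) := Real.rpow_pos_of_pos hs0 _
  have hbi : π.b2 i = π.b2 j - π.q * (j - i) := by
    simp only [SfPar.b2]; ring
  have hqh : π.q * (j - i) ≤ Qx * (j - i) := mul_le_mul_of_nonneg_right hQq hh.le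
  have h1h : j - i ≤ Qx * (j - i) := by nlinarith
  -- the two elementary terms
  have t1 : D.s ^ (min (π.b2 i) (π.b2 j) - a) ≤ D.s ^ (π.b2 j - Qx * (j - i) - 2 * a) := by
    apply mono
    have : π.b2 j - Qx * (j - i) ≤ min (π.b2 i) (π.b2 j) := le_min (by linarith) (by linarith)
    linarith
  have t2 : D.len i * D.s ^ (min (π.b2 i - i) (π.b2 j - j) - a) ≤ D.s ^ (π.b2 j - Qx * (j - i) - 2 * a) := by
    calc D.len i * D.s ^ (min (π.b2 i - i) (π.b2 j - j) - a)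
        ≤ D.s ^ (i - a) * D.s ^ (min (π.b2 i - i) (π.b2 j - j) - a) :=
          mul_le_mul_of_nonneg_right hleni (Real.rpow_pos_of_pos hs0 _).le
      _ = D.s ^ (i - a + (min (π.b2 i - i) (π.b2 j - j) - a)) := (Real.rpow_add hs0 _ _).symm
      _ ≤ D.s ^ (π.b2 j - Qx * (j - i) - 2 * a) := by
          apply mono
          have : π.b2 j - Qx * (j - i) - i ≤ min (π.b2 i - i) (π.b2 j - j) := le_min (by linarith) (by linarith)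
          linarith
  have hdT0 : 0 ≤ D.T j ρ' - D.T i ρ := sub_nonneg.2 hb1
  have hdT1 : D.T j ρ' - D.T i ρ ≤ D.len i := by linarith
  have hK : D.len i * |(D.lab i ρ).K - (D.lab j ρ').K| ≤ D.s ^ (π.b2 j - Qx * (j - i) - 2 * a) :=
    (mul_le_mul_of_nonneg_left cA2 hli.le).trans t2
  refine ⟨?_, ?_, ?_⟩
  · have e : (D.lab i ρ).be - ((chCy (D.lab j ρ')).be - (D.T j ρ' - D.T i ρ) * (chCy (D.lab j ρ')).K)
        = ((D.lab i ρ).beAt (D.T j ρ') - (D.lab j ρ').be) - (D.T j ρ' - D.T i ρ) * ((D.lab i ρ).K - (D.lab j ρ').K) := by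
      simp only [chCy, SfTest.beAt, SfDoc.T]
      ring
    rw [e]
    have h3 : |(D.T j ρ' - D.T i ρ) * ((D.lab i ρ).K - (D.lab j ρ').K)| ≤ D.len i * |(D.lab i ρ).K - (D.lab j ρ').K| := by
      rw [abs_mul, abs_of_nonneg hdT0]
      exact mul_le_mul_of_nonneg_right hdT1 (abs_nonneg _)
    have h4 := abs_sub ((D.lab i ρ).beAt (D.T j ρ') - (D.lab j ρ').be) ((D.T j ρ' - D.T i ρ) * ((D.lab i ρ).K - (D.lab j ρ').K))
    have h5 : 4 * D.s ^ (-((5 + 2 * Qx + 2 * π.Lraw) * a)) * (D.f j / D.r j ^ 2) * (D.len j / D.len i) ^ (-Qx)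
        = 4 * (D.s ^ (-((5 + 2 * Qx + 2 * π.Lraw) * a)) * (D.f j / D.r j ^ 2) * (D.len j / D.len i) ^ (-Qx)) := by ring
    rw [h5]
    linarith [cA1.trans t1]
  · have h5 : 4 * D.s ^ (-((5 + 2 * Qx + 2 * π.Lraw) * a)) * (D.f j / D.r j ^ 2) * (D.len j / D.len i) ^ (-Qx)
        = 4 * (D.s ^ (-((5 + 2 * Qx + 2 * π.Lraw) * a)) * (D.f j / D.r j ^ 2) * (D.len j / D.len i) ^ (-Qx)) := by ring
    rw [h5]
    have e : (chCy (D.lab j ρ')).K = (D.lab j ρ').K := rfl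
    rw [e]
    linarith
  · have e : (chCy (D.lab j ρ')).al + 2 * (chCy (D.lab j ρ')).be * (D.ray i ρ).X - 2 * (chCy (D.lab j ρ')).K * (D.ray i ρ).Bt (D.T j ρ')
        = (D.lab j ρ').Pd (D.ray j ρ') := by
      rw [hray]
      rfl
    rw [e]
    refine hP.trans ?_
    have hfr : 0 ≤ D.f j / D.r j := (div_pos hfj0 hrj0).le
    have h6 : D.s ^ (-(3 * a)) * D.s ^ ((1 - Lm) * (j - i))
        ≤ D.s ^ (-((5 + 2 * Qx + 2 * π.Lraw) * a)) * (D.len j / D.len i) ^ (1 - Lm) := by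
      calc D.s ^ (-(3 * a)) * D.s ^ ((1 - Lm) * (j - i)) = D.s ^ (-(3 * a) + (1 - Lm) * (j - i)) := (Real.rpow_add hs0 _ _).symm
        _ ≤ D.s ^ (-((5 + 2 * Qx + 2 * π.Lraw) * a) + (1 - Lm) * (j - i - 2 * a)) := by
            apply mono
            nlinarith
        _ = D.s ^ (-((5 + 2 * Qx + 2 * π.Lraw) * a)) * D.s ^ ((1 - Lm) * (j - i - 2 * a)) := Real.rpow_add hs0 _ _
        _ ≤ D.s ^ (-((5 + 2 * Qx + 2 * π.Lraw) * a)) * (D.len j / D.len i) ^ (1 - Lm) :=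
            mul_le_mul_of_nonneg_left (hdlp _ (by linarith)) (Real.rpow_pos_of_pos hs0 _).le
    have h7 : 0 ≤ D.s ^ (-((5 + 2 * Qx + 2 * π.Lraw) * a)) * (D.len j / D.len i) ^ (1 - Lm) :=
      mul_nonneg (Real.rpow_pos_of_pos hs0 _).le (Real.rpow_pos_of_pos hdl0 _).le
    calc D.s ^ (-(3 * a)) * D.s ^ ((1 - Lm) * (j - i)) * (D.f j / D.r j)
        ≤ D.s ^ (-((5 + 2 * Qx + 2 * π.Lraw) * a)) * (D.len j / D.len i) ^ (1 - Lm) * (D.f j / D.r j) :=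
          mul_le_mul_of_nonneg_right h6 hfr
      _ ≤ 4 * (D.s ^ (-((5 + 2 * Qx + 2 * π.Lraw) * a)) * (D.len j / D.len i) ^ (1 - Lm) * (D.f j / D.r j)) := by
          have := mul_nonneg h7 hfr
          linarith
      _ = 4 * D.s ^ (-((5 + 2 * Qx + 2 * π.Lraw) * a)) * (D.f j / D.r j) * (D.len j / D.len i) ^ (1 - Lm) := by ring

/-! ### L-256-CHAN-I3 : enclosing linear tests -/

/-- `ξ = X - x`, `ζ = B_T - b`, `V = Y_T - y - 2 x ζ`:   new velocity form `=` old `+ be ξ² + K V - 2 K ξ ζ`,   new position form `=` old `+ be V - K ζ²`. -/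
theorem ch_doc_lin_in (Q : SfTest) (l f1 : ℝ) (z : SfRay) (hl : 0 ≤ l) (h : Q.Mem l z)
    (hf : Q.f + 3 * (|Q.be| + l * |Q.K|) * Q.r ^ 2 ≤ f1) : (chDocLin f1 Q).Mem l z := by
  obtain ⟨m1, m2, m3, m4, m5⟩ := h
  refine ⟨m1, m2, m3, ?_, ?_⟩
  · show |z.N - (Q.c + Q.al * Q.x + Q.be * Q.x ^ 2 + Q.K * (Q.y - 2 * Q.x * Q.b) - Q.Pc * Q.x) - Q.Pc * z.X - 0 * z.X ^ 2
      - 0 * (z.Yt Q.T - 2 * z.X * z.Bt Q.T)| ≤ f1
    set ξ := z.X - Q.x with hξ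
    set ζ := z.Bt Q.T - Q.b with hζ
    set V := z.Yt Q.T - Q.y - 2 * Q.x * ζ with hV
    set o := z.N - Q.c - Q.al * z.X - Q.be * z.X ^ 2 - Q.K * (z.Yt Q.T - 2 * z.X * z.Bt Q.T) with ho
    have e : z.N - (Q.c + Q.al * Q.x + Q.be * Q.x ^ 2 + Q.K * (Q.y - 2 * Q.x * Q.b) - Q.Pc * Q.x) - Q.Pc * z.X - 0 * z.X ^ 2
        - 0 * (z.Yt Q.T - 2 * z.X * z.Bt Q.T) = o + Q.be * ξ ^ 2 + Q.K * V - 2 * (Q.K * (ξ * ζ)) := by
      rw [ho, hV, hζ, hξ]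
      unfold SfTest.Pc
      ring
    rw [e]
    have hr : 0 ≤ Q.r := (abs_nonneg _).trans m1
    have b1 : |Q.be * ξ ^ 2| ≤ |Q.be| * Q.r ^ 2 := by
      rw [abs_mul, abs_pow]
      gcongr
    have b2 : |Q.K * V| ≤ |Q.K| * (l * Q.r ^ 2) := by
      rw [abs_mul]
      gcongr
    have b3 : |Q.K * (ξ * ζ)| ≤ |Q.K| * (Q.r * (l * Q.r)) := by
      rw [abs_mul, abs_mul]
      gcongr
    have t1 := abs_sub (o + Q.be * ξ ^ 2 + Q.K * V) (2 * (Q.K * (ξ * ζ)))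
    have t2 := abs_add_le (o + Q.be * ξ ^ 2) (Q.K * V)
    have t3 := abs_add_le o (Q.be * ξ ^ 2)
    have t4 : |2 * (Q.K * (ξ * ζ))| = 2 * |Q.K * (ξ * ζ)| := by rw [abs_mul, abs_of_pos (by norm_num : (0 : ℝ) < 2)]
    have hbe : 0 ≤ |Q.be| * Q.r ^ 2 := by positivity
    nlinarith
  · show |z.Dt Q.T - (Q.d + Q.al * Q.b + Q.be * Q.y - Q.K * Q.b ^ 2 - Q.Pc * Q.b) - Q.Pc * z.Bt Q.T - 0 * z.Yt Q.T + 0 * z.Bt Q.T ^ 2| ≤ l * f1
    set ζ := z.Bt Q.T - Q.b with hζ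
    set V := z.Yt Q.T - Q.y - 2 * Q.x * ζ with hV
    set o := z.Dt Q.T - Q.d - Q.al * z.Bt Q.T - Q.be * z.Yt Q.T + Q.K * z.Bt Q.T ^ 2 with ho
    have e : z.Dt Q.T - (Q.d + Q.al * Q.b + Q.be * Q.y - Q.K * Q.b ^ 2 - Q.Pc * Q.b) - Q.Pc * z.Bt Q.T - 0 * z.Yt Q.T + 0 * z.Bt Q.T ^ 2
        = o + Q.be * V - Q.K * ζ ^ 2 := by
      rw [ho, hV, hζ]
      unfold SfTest.Pc
      ring
    rw [e]
    have hr : 0 ≤ Q.r := (abs_nonneg _).trans m1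
    have b1 : |Q.be * V| ≤ |Q.be| * (l * Q.r ^ 2) := by
      rw [abs_mul]
      gcongr
    have b2 : |Q.K * ζ ^ 2| ≤ |Q.K| * (l * Q.r) ^ 2 := by
      rw [abs_mul, abs_pow]
      gcongr
    have t1 := abs_sub (o + Q.be * V) (Q.K * ζ ^ 2)
    have t2 := abs_add_le o (Q.be * V)
    have h3 : l * (Q.f + 3 * (|Q.be| + l * |Q.K|) * Q.r ^ 2) ≤ l * f1 := mul_le_mul_of_nonneg_left hf hl
    have hbe : 0 ≤ l * (|Q.be| * Q.r ^ 2) := by positivity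
    have hK : 0 ≤ l * (l * |Q.K| * Q.r ^ 2) := by positivity
    nlinarith

/-- `cmpB` (`min (-c2) (min (b2 j) 0) = b2 j`: `q = c1 + J > 0`, `j ≤ 1`), `r_j² ≤ s^(2 u j - 2a)`, `b2 + 2u = n`, `f_j ≥ s^(n j + a)`. -/
theorem ch_doc_lin_f (π : SfPar) (hv : π.Valid) (h2 : π.c2 = 0) (D : SfDoc) (C0 a j : ℝ) (ρ' : D.Row j) (ha : 0 < a) (hC : D.Core π C0 a)
    (hA : D.AffP π a) (hj : j ∈ D.G) :
    D.f j + 3 * (|(D.lab j ρ').be| + D.len j * |(D.lab j ρ').K|) * D.r j ^ 2 ≤ 4 * D.s ^ (-(4 * a)) * D.f j := by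
  obtain ⟨hs0, hs1⟩ := hC.hs
  obtain ⟨hj0, hj1⟩ := hC.gate.2 j hj
  obtain ⟨hr, hf⟩ := hC.hw.2.2 j hj
  have hq : 0 < π.q := by
    rcases hv.fam with ⟨h, -⟩ | ⟨h, -⟩ | ⟨-, h, h'⟩
    · rw [h2] at h
      exact absurd h (lt_irrefl 0)
    · rw [h2] at h
      norm_num at h
    · rw [h']
      linarith [hv.J0]
  have hb2 : π.b2 j ≤ 0 := by
    unfold SfPar.b2
    exact mul_nonpos_of_nonneg_of_nonpos hq.le (by linarith)
  have hmin : min (-π.c2) (min (π.b2 j) 0) = π.b2 j := by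
    rw [h2, neg_zero, min_eq_left hb2, min_eq_right hb2]
  have hB := hA.cmpB j hj ρ'
  rw [hmin] at hB
  have hr2 : D.r j ^ 2 ≤ D.s ^ (2 * π.u j - 2 * a) := by
    calc D.r j ^ 2 ≤ (D.s ^ (π.u j - a)) ^ 2 := pow_le_pow_left₀ hr.le (hA.hr j hj).2 2
      _ = D.s ^ (2 * π.u j - 2 * a) := by
        rw [← Real.rpow_natCast, ← Real.rpow_mul hs0.le]
        congr 1
        push_cast
        ring
  have hfl := (hA.hf j hj).1
  have h1 : (1 : ℝ) ≤ D.s ^ (-(4 * a)) := Real.one_le_rpow_of_pos_of_le_one_of_nonpos hs0 hs1.le (by linarith)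
  have h3 : (|(D.lab j ρ').be| + D.len j * |(D.lab j ρ').K|) * D.r j ^ 2 ≤ D.s ^ (-(4 * a)) * D.f j := by
    calc (|(D.lab j ρ').be| + D.len j * |(D.lab j ρ').K|) * D.r j ^ 2 ≤ D.s ^ (π.b2 j - a) * D.s ^ (2 * π.u j - 2 * a) := by
          gcongr
      _ = D.s ^ (-(4 * a)) * D.s ^ (π.n j + a) := by
          rw [← Real.rpow_add hs0, ← Real.rpow_add hs0]
          congr 1
          unfold SfPar.b2 SfPar.u SfPar.n
          ring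
      _ ≤ D.s ^ (-(4 * a)) * D.f j := by gcongr
  have h4 : D.f j ≤ D.s ^ (-(4 * a)) * D.f j := le_mul_of_one_le_left hf.le h1
  linarith

/-! ### L-256-CHAN-I4 : `near`, linear case -/

/-- the first two inequalities are `0 ≤ ..`;   third: `(chDocLin ..).al = Pc`, `f j ≤ f1`, `dl^(1-Lm) ≥ s^((1-Lm)(h-2a))`.   `M = 3 + 2 Lraw`. -/
theorem ch_doc_nearL (π : SfPar) : ∃ M : ℝ, 1 ≤ M ∧
    ∀ (D : SfDoc) (C0 a i j Lm P0 f1 dT Xc BT : ℝ) (ρ' : D.Row j), 0 < a → a ≤ 1 → D.Core π C0 a →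
    i ∈ D.G → j ∈ D.G → i < j → 1 ≤ Lm → Lm ≤ π.Lraw → D.f j ≤ f1 →
    |P0 - (D.lab j ρ').Pc| ≤ D.s ^ (-(3 * a)) * D.s ^ ((1 - Lm) * (j - i)) * (D.f j / D.r j) →
    chNear (4 * D.s ^ (-(M * a))) Lm (max 1 π.Qm) (D.len j / D.len i) (D.len i) (D.r j) f1 dT 0 0 P0 Xc BT (chCy (chDocLin f1 (D.lab j ρ'))) := by
  have hL1 : 1 ≤ π.Lraw := le_max_left _ _
  refine ⟨3 + 2 * π.Lraw, by linarith, ?_⟩
  intro D C0 a i j Lm P0 f1 dT Xc BT ρ' ha ha1 hC hi hj hij hLm hLm2 hf1 hP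
  obtain ⟨hs0, hs1⟩ := hC.hs
  obtain ⟨hr, hf⟩ := hC.hw.2.2 j hj
  obtain ⟨hd1, hd2⟩ := ch_doc_dl_bds hC hi hj
  have hdl : 0 < D.len j / D.len i := lt_of_lt_of_le (Real.rpow_pos_of_pos hs0 _) hd1
  have hf1p : 0 < f1 := lt_of_lt_of_le hf hf1
  have hA0 : 0 ≤ 4 * D.s ^ (-((3 + 2 * π.Lraw) * a)) := by positivity
  have hR0 : 0 ≤ 4 * D.s ^ (-((3 + 2 * π.Lraw) * a)) * (f1 / D.r j ^ 2) * (D.len j / D.len i) ^ (-(max 1 π.Qm)) := by positivity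
  refine ⟨?_, ?_, ?_⟩
  · show |(0 : ℝ) - (0 - dT * 0)| ≤ _
    simpa using hR0
  · show D.len i * |(0 : ℝ) - 0| ≤ _
    simpa using hR0
  · show |P0 - ((D.lab j ρ').Pc + 2 * 0 * Xc - 2 * 0 * BT)| ≤ _
    have e : P0 - ((D.lab j ρ').Pc + 2 * 0 * Xc - 2 * 0 * BT) = P0 - (D.lab j ρ').Pc := by ring
    rw [e]
    refine hP.trans ?_
    have h1 : (D.s ^ (j - i - 2 * a)) ^ (1 - Lm) ≤ (D.len j / D.len i) ^ (1 - Lm) :=
      Real.rpow_le_rpow_of_nonpos hdl hd2 (by linarith)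
    have h2 : D.s ^ (-(3 * a)) * D.s ^ ((1 - Lm) * (j - i)) ≤ D.s ^ (-((3 + 2 * π.Lraw) * a)) * (D.s ^ (j - i - 2 * a)) ^ (1 - Lm) := by
      rw [← Real.rpow_mul hs0.le, ← Real.rpow_add hs0, ← Real.rpow_add hs0]
      apply Real.rpow_le_rpow_of_exponent_ge hs0 hs1.le
      nlinarith
    have h3 : D.f j / D.r j ≤ f1 / D.r j := by gcongr
    have h4 : 0 ≤ D.s ^ (-((3 + 2 * π.Lraw) * a)) * (D.len j / D.len i) ^ (1 - Lm) := by positivity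
    calc D.s ^ (-(3 * a)) * D.s ^ ((1 - Lm) * (j - i)) * (D.f j / D.r j)
        ≤ (D.s ^ (-((3 + 2 * π.Lraw) * a)) * (D.len j / D.len i) ^ (1 - Lm)) * (f1 / D.r j) := by
          refine mul_le_mul (h2.trans ?_) h3 (by positivity) h4
          gcongr
      _ ≤ 4 * (D.s ^ (-((3 + 2 * π.Lraw) * a)) * (D.len j / D.len i) ^ (1 - Lm) * (f1 / D.r j)) := by
          have : 0 ≤ D.s ^ (-((3 + 2 * π.Lraw) * a)) * (D.len j / D.len i) ^ (1 - Lm) * (f1 / D.r j) := by positivity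
          linarith
      _ = _ := by ring

/-! ### L-256-CHAN-I5 : polynomial bounds -/

theorem ch_doc_i5_pw {s x y : ℝ} (h0 : 0 < s) (h1 : s < 1) (h : y ≤ x) : s ^ x ≤ s ^ y :=
  Real.rpow_le_rpow_of_exponent_ge h0 h1.le h

theorem ch_doc_i5_two {s : ℝ} (h0 : 0 < s) (h1 : s ≤ 1 / 2) : (2 : ℝ) ≤ s ^ (-1 : ℝ) := by
  rw [Real.rpow_neg_one, le_inv_comm₀ (by norm_num) h0]
  linarith

theorem ch_doc_i5_u_abs (π : SfPar) {j : ℝ} (h0 : 0 ≤ j) (h1 : j ≤ 1) : |π.u j| ≤ |π.J| := by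
  show |π.J * (1 - j)| ≤ |π.J|
  rw [abs_mul, abs_of_nonneg (by linarith : (0 : ℝ) ≤ 1 - j)]
  nlinarith [abs_nonneg π.J]

theorem ch_doc_i5_n_abs (π : SfPar) {j : ℝ} (h0 : 0 ≤ j) (h1 : j ≤ 1) : |π.n j| ≤ |π.q - 2 * π.J| := by
  show |(π.q - 2 * π.J) * (j - 1)| ≤ |π.q - 2 * π.J|
  rw [abs_mul, abs_of_nonpos (by linarith : j - 1 ≤ (0 : ℝ))]
  nlinarith [abs_nonneg (π.q - 2 * π.J)]

theorem ch_doc_i5_be_le (Q : SfTest) : |Q.be| ≤ Q.size ∧ |Q.K| ≤ Q.size ∧ |Q.al| ≤ Q.size ∧ |Q.x| ≤ Q.size ∧ |Q.b| ≤ Q.size := by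
  have e : Q.size = max |Q.x| (max |Q.b| (max |Q.y| (max |Q.c| (max |Q.d| (max |Q.al| (max |Q.be| |Q.K|)))))) := rfl
  rw [e]
  refine ⟨?_, ?_, ?_, ?_, ?_⟩ <;> simp

theorem ch_doc_i5_ray_le (z : SfRay) : |z.X| ≤ z.size ∧ |z.B| ≤ z.size := by
  have e : z.size = max |z.X| (max |z.B| (max |z.Y| (max |z.N| |z.D|))) := rfl
  rw [e]
  refine ⟨?_, ?_⟩ <;> simp

/-- `u j ∈ [0, |J|]`, `|n j| ≤ |q - 2J|`, `4 ≤ s^(-2)`, `bdd` (`|be|, |K| ≤ size`). -/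
theorem ch_doc_aff_pb (π : SfPar) (C0 : ℝ) : ∃ M : ℝ, 1 ≤ M ∧ ∀ (D : SfDoc) (a j : ℝ), 0 < a → a ≤ 1 → D.s ≤ 1 / 2 → D.Core π C0 a → D.AffP π a →
    j ∈ D.G → (D.s ^ M ≤ D.r j ∧ D.r j ≤ D.s ^ (-M)) ∧ (D.s ^ M ≤ D.f j ∧ 4 * D.s ^ (-(4 * a)) * D.f j ≤ D.s ^ (-M)) ∧
      ∀ ρ : D.Row j, |(D.lab j ρ).be| ≤ D.s ^ (-M) ∧ |(D.lab j ρ).K| ≤ D.s ^ (-M) := by
  refine ⟨|π.J| + |π.q - 2 * π.J| + |C0| + 8, by
    have := abs_nonneg π.J; have := abs_nonneg (π.q - 2 * π.J); have := abs_nonneg C0; linarith, ?_⟩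
  intro D a j ha ha1 hs2 hC hA hj
  have hs0 := hC.hs.1
  have hs1 := hC.hs.2
  obtain ⟨hj0, hj1⟩ := hC.gate.2 j hj
  have hu := abs_le.1 (ch_doc_i5_u_abs π hj0 hj1)
  have hn := abs_le.1 (ch_doc_i5_n_abs π hj0 hj1)
  have n1 := abs_nonneg π.J
  have n2 := abs_nonneg (π.q - 2 * π.J)
  have n3 := abs_nonneg C0
  have hr := hA.hr j hj
  have hf := hA.hf j hj
  refine ⟨⟨?_, ?_⟩, ⟨?_, ?_⟩, ?_⟩
  · exact le_trans (ch_doc_i5_pw hs0 hs1 (by linarith [hu.2])) hr.1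
  · exact le_trans hr.2 (ch_doc_i5_pw hs0 hs1 (by linarith [hu.1]))
  · exact le_trans (ch_doc_i5_pw hs0 hs1 (by linarith [hn.2])) hf.1
  · have h2 := ch_doc_i5_two hs0 hs2
    have h4 : (4 : ℝ) ≤ D.s ^ (-2 : ℝ) := by
      have : D.s ^ (-2 : ℝ) = D.s ^ (-1 : ℝ) * D.s ^ (-1 : ℝ) := by
        rw [← Real.rpow_add hs0]; norm_num
      rw [this]; nlinarith
    have p1 : 0 < D.s ^ (-(4 * a)) := Real.rpow_pos_of_pos hs0 _
    have p2 : 0 < D.s ^ (π.n j - a) := Real.rpow_pos_of_pos hs0 _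
    have pf : 0 < D.f j := (hC.hw.2.2 j hj).2
    calc 4 * D.s ^ (-(4 * a)) * D.f j ≤ D.s ^ (-2 : ℝ) * D.s ^ (-(4 * a)) * D.s ^ (π.n j - a) := by
          apply mul_le_mul (mul_le_mul_of_nonneg_right h4 p1.le) hf.2 pf.le
          exact mul_nonneg (by linarith) p1.le
      _ = D.s ^ ((-2 : ℝ) + -(4 * a) + (π.n j - a)) := by
          rw [Real.rpow_add hs0, Real.rpow_add hs0]
      _ ≤ _ := ch_doc_i5_pw hs0 hs1 (by linarith [hn.1])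
  · intro ρ
    have hb := (hC.bdd j hj ρ).2
    have hsz := ch_doc_i5_be_le (D.lab j ρ)
    have hle : D.s ^ (-C0) ≤ D.s ^ (-(|π.J| + |π.q - 2 * π.J| + |C0| + 8)) :=
      ch_doc_i5_pw hs0 hs1 (by linarith [le_abs_self C0])
    exact ⟨le_trans hsz.1 (le_trans hb hle), le_trans hsz.2.1 (le_trans hb hle)⟩

theorem ch_doc_i5_b1_abs (π : SfPar) {j : ℝ} (h0 : 0 ≤ j) (h1 : j ≤ 1) : |π.b1 j| ≤ |π.q - π.J| := by
  show |(π.q - π.J) * (j - 1)| ≤ |π.q - π.J|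
  rw [abs_mul, abs_of_nonpos (by linarith : j - 1 ≤ (0 : ℝ))]
  nlinarith [abs_nonneg (π.q - π.J)]

theorem ch_doc_i5_nu (π : SfPar) (j : ℝ) : π.n j - π.u j = π.b1 j := by
  show (π.q - 2 * π.J) * (j - 1) - π.J * (1 - j) = (π.q - π.J) * (j - 1)
  ring

/-- `s^(b1 j + 2a) ≤ f_j / r_j ≤ s^(b1 j - 2a)` -/
theorem ch_doc_i5_fr {D : SfDoc} {π : SfPar} {C0 a j : ℝ} (hC : D.Core π C0 a) (hA : D.AffP π a) (hj : j ∈ D.G) :
    D.s ^ (π.b1 j + 2 * a) ≤ D.f j / D.r j ∧ D.f j / D.r j ≤ D.s ^ (π.b1 j - 2 * a) := by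
  have hs0 := hC.hs.1
  have hr := hA.hr j hj
  have hf := hA.hf j hj
  have pr : 0 < D.r j := (hC.hw.2.2 j hj).1
  have pf : 0 < D.f j := (hC.hw.2.2 j hj).2
  constructor
  · rw [le_div_iff₀ pr]
    calc D.s ^ (π.b1 j + 2 * a) * D.r j ≤ D.s ^ (π.b1 j + 2 * a) * D.s ^ (π.u j - a) :=
          mul_le_mul_of_nonneg_left hr.2 (Real.rpow_pos_of_pos hs0 _).le
      _ = D.s ^ (π.n j + a) := by
          rw [← Real.rpow_add hs0, ← ch_doc_i5_nu]; congr 1; ring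
      _ ≤ D.f j := hf.1
  · rw [div_le_iff₀ pr]
    calc D.f j ≤ D.s ^ (π.n j - a) := hf.2
      _ = D.s ^ (π.b1 j - 2 * a) * D.s ^ (π.u j + a) := by
          rw [← Real.rpow_add hs0, ← ch_doc_i5_nu]; congr 1; ring
      _ ≤ D.s ^ (π.b1 j - 2 * a) * D.r j :=
          mul_le_mul_of_nonneg_left hr.1 (Real.rpow_pos_of_pos hs0 _).le

/-- `|Pj| ≤ 7 S²`, `S = s^(-|C0|)` -/
theorem ch_doc_i5_pj {D : SfDoc} {π : SfPar} {C0 a j : ℝ} (hC : D.Core π C0 a) (hj : j ∈ D.G) (ρ : D.Row j) :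
    |D.Pj π j ρ| ≤ 7 * (D.s ^ (-|C0|)) ^ 2 := by
  have hs0 := hC.hs.1
  have hs1 := hC.hs.2
  have hS1 : (1 : ℝ) ≤ D.s ^ (-|C0|) := by
    have := ch_doc_i5_pw hs0 hs1 (show -|C0| ≤ 0 by linarith [abs_nonneg C0])
    rwa [Real.rpow_zero] at this
  have hle : D.s ^ (-C0) ≤ D.s ^ (-|C0|) := ch_doc_i5_pw hs0 hs1 (by linarith [le_abs_self C0])
  obtain ⟨hb1, hb2⟩ := hC.bdd j hj ρ
  obtain ⟨t1, t2, t3, t4, t5⟩ := ch_doc_i5_be_le (D.lab j ρ)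
  obtain ⟨z1, z2⟩ := ch_doc_i5_ray_le (D.ray j ρ)
  set S := D.s ^ (-|C0|) with hS
  have hbe : |(D.lab j ρ).be| ≤ S := le_trans t1 (le_trans hb2 hle)
  have hK : |(D.lab j ρ).K| ≤ S := le_trans t2 (le_trans hb2 hle)
  have hal : |(D.lab j ρ).al| ≤ S := le_trans t3 (le_trans hb2 hle)
  have hx : |(D.lab j ρ).x| ≤ S := le_trans t4 (le_trans hb2 hle)
  have hb : |(D.lab j ρ).b| ≤ S := le_trans t5 (le_trans hb2 hle)
  have hX : |(D.ray j ρ).X| ≤ S := le_trans z1 (le_trans hb1 hle)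
  have hB : |(D.ray j ρ).B| ≤ S := le_trans z2 (le_trans hb1 hle)
  have hown := hC.own j hj ρ
  have hT0 : 0 ≤ (D.lab j ρ).T := hown.2.2.2.1
  have hlen : 0 < D.len j := lt_of_lt_of_le (Real.rpow_pos_of_pos hs0 _) (hC.hlen.2 j hj).1
  have hT1 : (D.lab j ρ).T ≤ 1 := by
    have : (D.lab j ρ).T + D.len j ≤ 1 := hown.2.2.2.2
    linarith
  have hSS : S ≤ S ^ 2 := by nlinarith
  have hprod : ∀ x y : ℝ, |x| ≤ S → |y| ≤ S → |x * y| ≤ S ^ 2 := by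
    intro x y hx hy
    rw [abs_mul, sq]
    exact mul_le_mul hx hy (abs_nonneg _) (by linarith)
  by_cases h2 : π.c2 = 0
  · have e : D.Pj π j ρ = (D.lab j ρ).al + 2 * (D.lab j ρ).be * (D.lab j ρ).x - 2 * (D.lab j ρ).K * (D.lab j ρ).b := by
      show (if π.c2 = 0 then (D.lab j ρ).Pc else (D.lab j ρ).Pd (D.ray j ρ)) = _
      rw [if_pos h2]; rfl
    rw [e]
    have q1 := abs_le.1 (hprod _ _ hbe hx)
    have q2 := abs_le.1 (hprod _ _ hK hb)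
    have q3 := abs_le.1 hal
    rw [abs_le]
    constructor <;> nlinarith
  · have e : D.Pj π j ρ = (D.lab j ρ).al + 2 * (D.lab j ρ).be * (D.ray j ρ).X
        - 2 * (D.lab j ρ).K * ((D.ray j ρ).B + (D.lab j ρ).T * (D.ray j ρ).X) := by
      show (if π.c2 = 0 then (D.lab j ρ).Pc else (D.lab j ρ).Pd (D.ray j ρ)) = _
      rw [if_neg h2]; rfl
    rw [e]
    have hTX : |(D.lab j ρ).T * (D.ray j ρ).X| ≤ S := by
      rw [abs_mul, abs_of_nonneg hT0]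
      calc (D.lab j ρ).T * |(D.ray j ρ).X| ≤ 1 * S := mul_le_mul hT1 hX (abs_nonneg _) (by norm_num)
        _ = S := one_mul _
    have q1 := abs_le.1 (hprod _ _ hbe hX)
    have q2 := abs_le.1 (hprod _ _ hK hB)
    have q4 := abs_le.1 (hprod _ _ hK hTX)
    have q3 := abs_le.1 hal
    rw [abs_le]
    constructor <;> nlinarith

theorem ch_doc_i5_lraw (π : SfPar) : 1 ≤ π.Lraw ∧ 1 + (π.q - π.J) ≤ π.Lraw := by
  have e : π.Lraw = max 1 (max ((1 + π.Qm) / 2) (1 + (π.q - π.J))) := rfl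
  rw [e]
  exact ⟨le_max_left _ _, le_trans (le_max_right _ _) (le_max_right _ _)⟩

/-- `|Pj| ≤ 5 s^(-2|C0|)` (`bdd`; `|Bt T| ≤ 2 s^(-|C0|)` by `own`: `0 ≤ T ≤ 1`), `s^((1-Lm) h) ≤ s^(-Lraw)`, `f_j / r_j ≤ s^(-2M)`. -/
theorem ch_doc_guess_bd (π : SfPar) (C0 : ℝ) : ∃ Mg : ℝ, 1 ≤ Mg ∧ ∀ (D : SfDoc) (a i j Lm γ : ℝ) (ρ' : D.Row j), 0 < a → a ≤ 1 → D.s ≤ 1 / 2 →
    D.Core π C0 a → D.AffP π a → i ∈ D.G → j ∈ D.G → i < j → 1 ≤ Lm → Lm ≤ π.Lraw →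
    |γ - D.Pj π j ρ'| ≤ D.s ^ (-(3 * a)) * D.s ^ ((1 - Lm) * (j - i)) * (D.f j / D.r j) → |γ| ≤ D.s ^ (-Mg) := by
  have hL := (ch_doc_i5_lraw π).1
  have n1 := abs_nonneg (π.q - π.J)
  have n3 := abs_nonneg C0
  refine ⟨2 * |C0| + π.Lraw + |π.q - π.J| + 9, by linarith, ?_⟩
  intro D a i j Lm γ ρ' ha ha1 hs2 hC hA hi hj hij hLm1 hLm2 hγ
  have hs0 := hC.hs.1
  have hs1 := hC.hs.2
  obtain ⟨hj0, hj1⟩ := hC.gate.2 j hj
  obtain ⟨hi0, hi1⟩ := hC.gate.2 i hi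
  have hb1 := abs_le.1 (ch_doc_i5_b1_abs π hj0 hj1)
  have h2 := ch_doc_i5_two hs0 hs2
  set A := 2 * |C0| + π.Lraw + |π.q - π.J| + 8 with hA'
  have hPj : |D.Pj π j ρ'| ≤ D.s ^ (-A) := by
    have h8 : (7 : ℝ) ≤ D.s ^ (-3 : ℝ) := by
      have : D.s ^ (-3 : ℝ) = D.s ^ (-1 : ℝ) * D.s ^ (-1 : ℝ) * D.s ^ (-1 : ℝ) := by
        rw [← Real.rpow_add hs0, ← Real.rpow_add hs0]; norm_num
      rw [this]
      have : (4 : ℝ) ≤ D.s ^ (-1 : ℝ) * D.s ^ (-1 : ℝ) := by nlinarith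
      nlinarith
    calc |D.Pj π j ρ'| ≤ 7 * (D.s ^ (-|C0|)) ^ 2 := ch_doc_i5_pj hC hj ρ'
      _ ≤ D.s ^ (-3 : ℝ) * (D.s ^ (-|C0|)) ^ 2 := mul_le_mul_of_nonneg_right h8 (sq_nonneg _)
      _ = D.s ^ ((-3 : ℝ) + (-|C0| + -|C0|)) := by
          rw [Real.rpow_add hs0, Real.rpow_add hs0, sq]
      _ ≤ D.s ^ (-A) := ch_doc_i5_pw hs0 hs1 (by rw [hA']; linarith)
  have hR : D.s ^ (-(3 * a)) * D.s ^ ((1 - Lm) * (j - i)) * (D.f j / D.r j) ≤ D.s ^ (-A) := by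
    calc D.s ^ (-(3 * a)) * D.s ^ ((1 - Lm) * (j - i)) * (D.f j / D.r j)
        ≤ D.s ^ (-(3 * a)) * D.s ^ ((1 - Lm) * (j - i)) * D.s ^ (π.b1 j - 2 * a) :=
          mul_le_mul_of_nonneg_left (ch_doc_i5_fr hC hA hj).2
            (mul_pos (Real.rpow_pos_of_pos hs0 _) (Real.rpow_pos_of_pos hs0 _)).le
      _ = D.s ^ (-(3 * a) + (1 - Lm) * (j - i) + (π.b1 j - 2 * a)) := by
          rw [Real.rpow_add hs0, Real.rpow_add hs0]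
      _ ≤ D.s ^ (-A) := by
          apply ch_doc_i5_pw hs0 hs1
          have : (1 - Lm) * (j - i) ≥ 1 - Lm := by nlinarith
          rw [hA']; linarith [hb1.1]
  have hfin : 2 * D.s ^ (-A) ≤ D.s ^ (-(2 * |C0| + π.Lraw + |π.q - π.J| + 9)) := by
    calc 2 * D.s ^ (-A) ≤ D.s ^ (-1 : ℝ) * D.s ^ (-A) :=
          mul_le_mul_of_nonneg_right h2 (Real.rpow_pos_of_pos hs0 _).le
      _ = D.s ^ ((-1 : ℝ) + -A) := by rw [Real.rpow_add hs0]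
      _ ≤ _ := ch_doc_i5_pw hs0 hs1 (by rw [hA']; linarith)
  calc |γ| = |(γ - D.Pj π j ρ') + D.Pj π j ρ'| := by rw [sub_add_cancel]
    _ ≤ |γ - D.Pj π j ρ'| + |D.Pj π j ρ'| := abs_add_le _ _
    _ ≤ D.s ^ (-A) + D.s ^ (-A) := add_le_add (le_trans hγ hR) hPj
    _ = 2 * D.s ^ (-A) := by ring
    _ ≤ _ := hfin

/-! ### L-256-CHAN-I6 : accuracy of the start derivative -/

/-- `c2 ≠ 0`: `cmpA` third, `min (b1 i) (b1 j) ≥ b1 j - (Lraw - 1) h`;   `c2 = 0`: `linP`, `b1 i = b1 j - Cr h`;   `f_j / r_j ≥ s^(b1 j + 2a)`. -/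
theorem ch_doc_start_acc (π : SfPar) (D : SfDoc) (C0 a i j : ℝ) (ρ : D.Row i) (ρ' : D.Row j) (ha : 0 < a) (hC : D.Core π C0 a)
    (hA : D.AffP π a) (hi : i ∈ D.G) (hj : j ∈ D.G) (hij : i < j) (hc : D.Conn i j ρ ρ') :
    |D.Pj π i ρ - D.Pj π j ρ'| ≤ D.s ^ (-(3 * a)) * D.s ^ ((1 - π.Lraw) * (j - i)) * (D.f j / D.r j) := by
  have hs0 := hC.hs.1
  have hs1 := hC.hs.2
  obtain ⟨hL1, hL2⟩ := ch_doc_i5_lraw π
  have eb : π.b1 i = π.b1 j - (π.q - π.J) * (j - i) := by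
    show (π.q - π.J) * (i - 1) = (π.q - π.J) * (j - 1) - (π.q - π.J) * (j - i)
    ring
  have hbi : π.b1 j - (π.Lraw - 1) * (j - i) ≤ π.b1 i := by
    rw [eb]; nlinarith
  have hbj : π.b1 j - (π.Lraw - 1) * (j - i) ≤ π.b1 j := by nlinarith
  have hR : D.s ^ (π.b1 j - (π.Lraw - 1) * (j - i) - a)
      ≤ D.s ^ (-(3 * a)) * D.s ^ ((1 - π.Lraw) * (j - i)) * (D.f j / D.r j) := by
    calc D.s ^ (π.b1 j - (π.Lraw - 1) * (j - i) - a)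
        = D.s ^ (-(3 * a)) * D.s ^ ((1 - π.Lraw) * (j - i)) * D.s ^ (π.b1 j + 2 * a) := by
          rw [← Real.rpow_add hs0, ← Real.rpow_add hs0]; congr 1; ring
      _ ≤ _ := mul_le_mul_of_nonneg_left (ch_doc_i5_fr hC hA hj).1
            (mul_pos (Real.rpow_pos_of_pos hs0 _) (Real.rpow_pos_of_pos hs0 _)).le
  refine le_trans ?_ hR
  by_cases h2 : π.c2 = 0
  · have e1 : D.Pj π i ρ = (D.lab i ρ).Pc := by
      show (if π.c2 = 0 then (D.lab i ρ).Pc else (D.lab i ρ).Pd (D.ray i ρ)) = _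
      rw [if_pos h2]
    have e2 : D.Pj π j ρ' = (D.lab j ρ').Pc := by
      show (if π.c2 = 0 then (D.lab j ρ').Pc else (D.lab j ρ').Pd (D.ray j ρ')) = _
      rw [if_pos h2]
    rw [e1, e2]
    exact le_trans ((hA.linP h2).1 i hi j hj hij ρ ρ' hc) (ch_doc_i5_pw hs0 hs1 (by linarith))
  · have e1 : D.Pj π i ρ = (D.lab i ρ).Pd (D.ray i ρ) := by
      show (if π.c2 = 0 then (D.lab i ρ).Pc else (D.lab i ρ).Pd (D.ray i ρ)) = _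
      rw [if_neg h2]
    have e2 : D.Pj π j ρ' = (D.lab j ρ').Pd (D.ray j ρ') := by
      show (if π.c2 = 0 then (D.lab j ρ').Pc else (D.lab j ρ').Pd (D.ray j ρ')) = _
      rw [if_neg h2]
    rw [e1, e2]
    exact le_trans (hA.cmpA i hi j hj hij ρ ρ' hc).2.2
      (ch_doc_i5_pw hs0 hs1 (by have := le_min hbi hbj; linarith))

/-! ### L-256-CHAN-I7 : `near`, zero cost -/

/-- `r 1 = 1`, `len 1 = s`, `dl^(-1) = len i / s ≥ 1` (`ch_doc_len_le`), `0 ≤ dT ≤ len i` (`base`);   `|be| + dT |K| ≤ 2 s^(-a) len i / s`;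
`Pd(ray) = Pc + 2 be (X - x) - 2 K (B_T - b)`, `own` (`r = 1`, length `s`), `normC`:  `≤ 3 s^(-a)`. -/
theorem ch_doc_near0 (π : SfPar) (D : SfDoc) (C0 a i : ℝ) (ρ : D.Row i) (ρ' : D.Row 1) (ha : 0 < a) (hC : D.Core π C0 a) (hc : π.hyb = false)
    (hZ : D.Zero a) (hi : i ∈ D.G) (hi1 : i < 1) (hcn : D.Conn i 1 ρ ρ') :
    chNear (4 * D.s ^ (-(1 * a))) 1 1 (D.len 1 / D.len i) (D.len i) (D.r 1) 1 (D.T 1 ρ' - D.T i ρ) 0 0 0 (D.ray i ρ).X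
      ((D.ray i ρ).Bt (D.T 1 ρ')) (chCy (D.lab 1 ρ')) := by
  have h1G := hC.gate.1
  have hs := hC.hs.1
  have hli := ch_doc_len_pos hC hi
  have hle := ch_doc_len_le hC hc hi h1G hi1
  have hl1 : D.len 1 = D.s := hC.hlen.1
  have hr1 : D.r 1 = 1 := hC.hw.1
  obtain ⟨b1, b2, -, -⟩ := hC.base i hi 1 h1G hi1 ρ ρ' hcn
  have hray := hC.normC hc i hi 1 h1G hi1 ρ ρ' hcn
  obtain ⟨o1, -, o3, -, -⟩ := hC.own 1 h1G ρ'
  obtain ⟨z1, z2⟩ := hZ ρ'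
  obtain ⟨m1, m2, -⟩ := o3
  rw [o1, hr1] at m1 m2
  rw [hl1] at hle b2 m2
  set A := D.s ^ (-a) with hA
  have hA0 : 0 < A := Real.rpow_pos_of_pos hs _
  set be := (D.lab 1 ρ').be with hbe
  set K := (D.lab 1 ρ').K with hK
  set q := D.len i / D.s with hq
  have hq1 : 1 ≤ q := (one_le_div hs).2 hle
  have hdl : (D.len 1 / D.len i) ^ (-(1:ℝ)) = q := by
    rw [hl1, Real.rpow_neg_one, inv_div]
  have hbe0 : 0 ≤ |be| := abs_nonneg _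
  have hK0 : 0 ≤ |K| := abs_nonneg _
  have hsK : D.s * |K| ≤ A := by linarith
  have hbeA : |be| ≤ A := by nlinarith
  have hlK : D.len i * |K| ≤ A * q := by
    have e : D.len i * |K| = q * (D.s * |K|) := by
      rw [hq]
      field_simp
    rw [e, mul_comm A q]
    exact mul_le_mul_of_nonneg_left hsK (by linarith)
  have hAq : A ≤ A * q := by nlinarith
  have e1a : -(1 * a) = -a := by ring
  refine ⟨?_, ?_, ?_⟩
  · rw [hdl, hr1, e1a]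
    show |0 - (be - (D.T 1 ρ' - D.T i ρ) * K)| ≤ 4 * A * (1 / 1 ^ 2) * q
    have hdT0 : 0 ≤ D.T 1 ρ' - D.T i ρ := by linarith
    have hdT1 : D.T 1 ρ' - D.T i ρ ≤ D.len i := by linarith
    have h3 : |0 - (be - (D.T 1 ρ' - D.T i ρ) * K)| ≤ |be| + (D.T 1 ρ' - D.T i ρ) * |K| := by
      have e : 0 - (be - (D.T 1 ρ' - D.T i ρ) * K) = -be + (D.T 1 ρ' - D.T i ρ) * K := by ring
      rw [e]
      refine (abs_add_le _ _).trans ?_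
      rw [abs_neg, abs_mul, abs_of_nonneg hdT0]
    have h4 : (D.T 1 ρ' - D.T i ρ) * |K| ≤ D.len i * |K| := mul_le_mul_of_nonneg_right hdT1 hK0
    have h5 : 0 < A * q := by positivity
    have e2 : 4 * A * (1 / 1 ^ 2) * q = 4 * (A * q) := by ring
    rw [e2]
    linarith
  · rw [hdl, hr1, e1a]
    show D.len i * |0 - K| ≤ 4 * A * (1 / 1 ^ 2) * q
    have h5 : 0 < A * q := by positivity
    have e2 : 4 * A * (1 / 1 ^ 2) * q = 4 * (A * q) := by ring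
    rw [e2, zero_sub, abs_neg]
    linarith
  · rw [hr1, e1a, sub_self, Real.rpow_zero, hray]
    show |0 - ((D.lab 1 ρ').al + 2 * be * (D.ray 1 ρ').X - 2 * K * (D.ray 1 ρ').Bt (D.T 1 ρ'))| ≤ 4 * A * (1 / 1) * 1
    have e : 0 - ((D.lab 1 ρ').al + 2 * be * (D.ray 1 ρ').X - 2 * K * (D.ray 1 ρ').Bt (D.T 1 ρ'))
        = -(D.lab 1 ρ').Pc + (-(2 * be * ((D.ray 1 ρ').X - (D.lab 1 ρ').x)) + 2 * K * ((D.ray 1 ρ').Bt (D.lab 1 ρ').T - (D.lab 1 ρ').b)) := by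
      unfold SfTest.Pc SfDoc.T
      ring
    rw [e]
    refine (abs_add_le _ _).trans ?_
    have h6 := abs_add_le (-(2 * be * ((D.ray 1 ρ').X - (D.lab 1 ρ').x))) (2 * K * ((D.ray 1 ρ').Bt (D.lab 1 ρ').T - (D.lab 1 ρ').b))
    rw [abs_neg] at h6 ⊢
    rw [abs_mul, abs_mul, abs_mul, abs_mul, abs_two] at h6
    have h7 : 2 * |be| * |(D.ray 1 ρ').X - (D.lab 1 ρ').x| ≤ 2 * |be| * 1 := mul_le_mul_of_nonneg_left m1 (by positivity)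
    have h8 : 2 * |K| * |(D.ray 1 ρ').Bt (D.lab 1 ρ').T - (D.lab 1 ρ').b| ≤ 2 * |K| * (D.s * 1) := mul_le_mul_of_nonneg_left m2 (by positivity)
    nlinarith

end Claimed.Agent.R256
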