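-- KEEP
import Claimed.Agent.R256.Chan.DocFin
import Claimed.Agent.R256.Chan.DocInst

/-!
# Row 256 (LS paper), CHAN, unit ADC, file 8 : THE AFFINE CASE `ch_doc_aff` (glue)          (architect helper33; prefix `ch_doc_`)
-/

set_option autoImplicit false

namespace Claimed.Agent.R256

open Claimed.Agent.R255 MeasureTheory
open scoped BigOperators
open Classical

theorem ch_doc_near_mono {A A' Lm Qx dl l0 r1 f1 dT be0 K0 P0 Xc BT : ℝ} {Q : CyT} (hA : A ≤ A') (hdl : 0 < dl) (hr : 0 < r1) (hf : 0 < f1)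
    (h : chNear A Lm Qx dl l0 r1 f1 dT be0 K0 P0 Xc BT Q) : chNear A' Lm Qx dl l0 r1 f1 dT be0 K0 P0 Xc BT Q := by
  obtain ⟨h1, h2, h3⟩ := h
  have e2 : A * (f1 / r1 ^ 2) * dl ^ (-Qx) ≤ A' * (f1 / r1 ^ 2) * dl ^ (-Qx) := by gcongr
  have e1 : A * (f1 / r1) * dl ^ (1 - Lm) ≤ A' * (f1 / r1) * dl ^ (1 - Lm) := by gcongr
  exact ⟨h1.trans e2, h2.trans e2, h3.trans e1⟩

/-- `ch_doc_fin_main` + the final numerology -/
theorem ch_doc_finish (π : SfPar) (hπ : π.Pd) (hc : π.hyb = false) (t C0 M : ℝ) (ht : 0 < t) (hM : 1 ≤ M) :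
    ∃ a0 s0 : ℝ, 0 < a0 ∧ a0 ≤ 1 ∧ 0 < s0 ∧ s0 ≤ 1 / 2 ∧ ∀ (D : SfDoc) (a i j : ℝ) (X : ChDd D i j) (Lm Qx R Z : ℝ), 0 < a → a ≤ a0 →
      D.s < s0 → D.Core π C0 a → i ∈ D.G → j ∈ D.G → i < j → 0 ≤ R → 0 ≤ Z → R + Z ≤ π.mnum Lm → (X.g : ℝ) ≤ D.s ^ (-(Z * (j - i))) →
      X.Pre π a M Lm Qx (D.s ^ (-(R * (j - i))) * (D.s ^ (-(2 * a * Lm)) + 1)) →
      (D.P j).pr (X.E Lm) ≤ D.s ^ (-t) * D.s ^ ((π.mnum Lm - R - Z) / 2 * (j - i)) := by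
  obtain ⟨a1, s1, ha1, ha11, hs1, hs11, hfin⟩ := ch_doc_fin_main π hπ hc (t / 2) C0 M (by linarith) hM
  obtain ⟨hη, hΓ, hpd, hp, hd⟩ := hπ
  have hm0 : 0 ≤ 1 - π.d + 2 * π.Γ := by linarith [hd.2, hη.1]
  obtain ⟨a2, s2, ha2, ha21, hs2, hs21, hnum⟩ := ch_doc_num_aff t (M + (1 - π.d + 2 * π.Γ)) ht (by linarith)
  refine ⟨min a1 a2, min s1 s2, lt_min ha1 ha2, (min_le_left _ _).trans ha11, lt_min hs1 hs2, (min_le_left _ _).trans hs11, ?_⟩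
  intro D a i j X Lm Qx R Z ha ha0 hs hCo hi hj hij hR hZ hRZ hg hX
  have hs0 := hCo.hs.1
  have h1 := hfin D a i j X Lm Qx _ ha (ha0.trans (min_le_left _ _)) (hs.trans_le (min_le_left _ _)) hCo hi hj hij (by positivity) hX
  refine h1.trans ?_
  have hh1 : j - i ≤ 1 := by linarith [(hCo.gate.2 i hi).1, (hCo.gate.2 j hj).2]
  have hmn : π.mnum Lm ≤ M + (1 - π.d + 2 * π.Γ) := by
    unfold SfPar.mnum
    have h1 := hX.L1
    have h2 := hX.LM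
    nlinarith [hη.1, hη.2]
  exact hnum D.s a (j - i) (π.mnum Lm) R Z (X.g : ℝ) Lm hs0 (hs.trans_le (min_le_right _ _)) ha (ha0.trans (min_le_right _ _))
    (by linarith) hh1 hR hZ hRZ hmn (by linarith [hX.L1]) (by linarith [hX.LM]) (Nat.cast_nonneg _) hg

/-- the data of the affine case -/
noncomputable def chAffX (D : SfDoc) (π : SfPar) (a i j Lm : ℝ) (g : ℕ) (P0 : Fin g → D.Row i → ℝ) (cs : SfTest → Finset ℝ)
    (f1 : ℝ) (Qe : SfTest → SfTest) (be0 K0 : D.Row i → ℝ) : ChDd D i j where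
  f1 := f1
  Qe := Qe
  be0 := be0
  K0 := K0
  g := g
  P0 := P0
  Ev := fun ρ' => ∃ ρ, D.Conn i j ρ ρ' ∧ ∃ a', |P0 a' ρ - D.Pj π j ρ'| ≤ D.s ^ (-(3 * a)) * D.s ^ ((1 - Lm) * (j - i)) * (D.f j / D.r j)
  cs := cs
  cd := D.s ^ (-a) * D.s ^ (π.d * (j - i))

theorem ch_doc_aff_eqns_cite : True := by
  have := @chAffX.eq_1
  trivial

theorem ch_doc_ls_ml (π : SfPar) : 1 + max 1 π.Qm ≤ 2 * π.LS := by
  unfold SfPar.LS
  rcases le_total 1 π.Qm with h | h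
  · rw [max_eq_right h]
    have := le_max_right 1 ((1 + π.Qm) / 2)
    linarith
  · rw [max_eq_left h]
    have := le_max_left 1 ((1 + π.Qm) / 2)
    linarith

theorem ch_doc_aff_preL (π : SfPar) (hv : π.Valid) (hc : π.hyb = false) (h2 : π.c2 = 0) (C0 Mg : ℝ) : ∃ M : ℝ, 1 ≤ M ∧
    ∀ (D : SfDoc) (a i j Lm Rn : ℝ) (g : ℕ) (P0 : Fin g → D.Row i → ℝ) (cs : SfTest → Finset ℝ), 0 < a → a ≤ 1 → D.s ≤ 1 / 2 →
      D.Core π C0 a → D.AffP π a → i ∈ D.G → j ∈ D.G → i < j → π.LS ≤ Lm → Lm ≤ π.Lraw → (∀ a' ρ, |P0 a' ρ| ≤ D.s ^ (-Mg)) →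
      (∀ lam, ((cs lam).card : ℝ) ≤ Rn) →
      (chAffX D π a i j Lm g P0 cs (4 * D.s ^ (-(4 * a)) * D.f j) (chDocLin (4 * D.s ^ (-(4 * a)) * D.f j)) (fun _ => 0) (fun _ => 0)).Pre
        π a M Lm (max 1 π.Qm) Rn := by
  obtain ⟨ML, hML, hnL⟩ := ch_doc_nearL π
  obtain ⟨Mp, hMp, hpb⟩ := ch_doc_aff_pb π C0
  refine ⟨max (max ML Mp) (max (max Mg π.Lraw) (max (max 1 π.Qm) 4)), hML.trans ((le_max_left _ _).trans (le_max_left _ _)), ?_⟩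
  set M := max (max ML Mp) (max (max Mg π.Lraw) (max (max 1 π.Qm) 4)) with hMdef
  have m1 : ML ≤ M := (le_max_left _ _).trans (le_max_left _ _)
  have m2 : Mp ≤ M := (le_max_right _ _).trans (le_max_left _ _)
  have m3 : Mg ≤ M := ((le_max_left _ _).trans (le_max_left _ _)).trans (le_max_right _ _)
  have m4 : π.Lraw ≤ M := ((le_max_right _ _).trans (le_max_left _ _)).trans (le_max_right _ _)
  have m5 : max 1 π.Qm ≤ M := ((le_max_left _ _).trans (le_max_right _ _)).trans (le_max_right _ _)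
  have m6 : 4 ≤ M := ((le_max_right _ _).trans (le_max_right _ _)).trans (le_max_right _ _)
  intro D a i j Lm Rn g P0 cs ha ha1 hs hC hA hi hj hij hL1 hL2 hP0 hcs
  have hs0 := hC.hs.1
  have hs1 := hC.hs.2
  have hmono : ∀ x y : ℝ, y ≤ x → D.s ^ x ≤ D.s ^ y := fun x y h => Real.rpow_le_rpow_of_exponent_ge hs0 hs1.le h
  have hLm1 : 1 ≤ Lm := (le_max_left _ _).trans hL1
  have hl : 0 < D.len i := ch_doc_len_pos hC hi
  have hlj : 0 < D.len j := ch_doc_len_pos hC hj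
  have hdl : 0 < D.len j / D.len i := div_pos hlj hl
  have hr : 0 < D.r j := ch_doc_r_pos hC hj
  have hfj : 0 < D.f j := (hC.hw.2.2 j hj).2
  obtain ⟨⟨hr1, hr2⟩, ⟨hf1, hf2⟩, -⟩ := hpb D a j ha ha1 hs hC hA hj
  have h41 : 1 ≤ 4 * D.s ^ (-(4 * a)) := by
    have : 1 ≤ D.s ^ (-(4 * a)) := Real.one_le_rpow_of_pos_of_le_one_of_nonpos hs0 hs1.le (by linarith)
    linarith
  have hff : D.f j ≤ 4 * D.s ^ (-(4 * a)) * D.f j := by nlinarith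
  have hsM : 0 ≤ D.s ^ (-M) := (Real.rpow_pos_of_pos hs0 _).le
  refine
    { cd := rfl, L1 := hLm1, LM := hL2.trans m4, Q0 := le_trans zero_le_one (le_max_left _ _), QM := m5,
      ML := (ch_doc_ls_ml π).trans (by linarith), f1 := ?_, pb := ?_, QeT := fun _ => rfl, Qew := ?_, Qein := ?_, near := ?_, card := hcs }
  · show 4 * D.s ^ (-(4 * a)) * D.f j ≤ 4 * D.s ^ (-(M * a)) * D.f j
    have := hmono (-(4 * a)) (-(M * a)) (by nlinarith)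
    gcongr
  · exact ⟨⟨(hmono _ _ m2).trans hr1, hr2.trans (hmono _ _ (by linarith))⟩,
      ⟨((hmono _ _ m2).trans hf1).trans hff, hf2.trans (hmono _ _ (by linarith))⟩,
      fun _ => by simpa [chAffX] using hsM, fun _ => by simpa [chAffX] using hsM,
      fun a' ρ => (hP0 a' ρ).trans (hmono _ _ (by linarith))⟩
  · intro ρ'
    exact ⟨(hC.own j hj ρ').1, rfl⟩
  · intro ρ'
    have hown := hC.own j hj ρ'
    refine ch_doc_lin_in (D.lab j ρ') (D.len j) _ (D.ray j ρ') hlj.le hown.2.2.1 ?_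
    rw [hown.1, hown.2.1]
    exact ch_doc_lin_f π hv h2 D C0 a j ρ' ha hC hA hj
  · rintro ρ ρ' hcn ⟨ρ1, hcn1, a', hacc⟩
    have hρ : ρ1 = ρ := ch_doc_anc_unique hC hc hi hj hij hcn1 hcn
    subst hρ
    refine ⟨a', ?_⟩
    have hPj : D.Pj π j ρ' = (D.lab j ρ').Pc := if_pos h2
    rw [hPj] at hacc
    have h3 := hnL D C0 a i j Lm (P0 a' ρ1) (4 * D.s ^ (-(4 * a)) * D.f j) (D.T j ρ' - D.T i ρ1) (D.ray i ρ1).X
      ((D.ray i ρ1).Bt (D.T j ρ')) ρ' ha ha1 hC hi hj hij hLm1 hL2 hff hacc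
    refine ch_doc_near_mono ?_ hdl hr (lt_of_lt_of_le hfj hff) h3
    have := hmono (-(ML * a)) (-(M * a)) (by nlinarith)
    linarith

theorem ch_doc_aff_preQ (π : SfPar) (hc : π.hyb = false) (h2 : π.c2 ≠ 0) (C0 Mg : ℝ) : ∃ M : ℝ, 1 ≤ M ∧
    ∀ (D : SfDoc) (a i j Lm Rn : ℝ) (g : ℕ) (P0 : Fin g → D.Row i → ℝ) (cs : SfTest → Finset ℝ), 0 < a → a ≤ 1 → D.s ≤ 1 / 2 →
      D.Core π C0 a → D.AffP π a → i ∈ D.G → j ∈ D.G → i < j → π.LS ≤ Lm → Lm ≤ π.Lraw → (∀ a' ρ, |P0 a' ρ| ≤ D.s ^ (-Mg)) →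
      (∀ lam, ((cs lam).card : ℝ) ≤ Rn) →
      (chAffX D π a i j Lm g P0 cs (D.f j) id (fun ρ => (D.lab i ρ).be) (fun ρ => (D.lab i ρ).K)).Pre π a M Lm (max 1 π.Qm) Rn := by
  obtain ⟨ML, hML, hnQ⟩ := ch_doc_nearQ π h2
  obtain ⟨Mp, hMp, hpb⟩ := ch_doc_aff_pb π C0
  refine ⟨max (max ML Mp) (max (max Mg π.Lraw) (max (max 1 π.Qm) 4)), hML.trans ((le_max_left _ _).trans (le_max_left _ _)), ?_⟩
  set M := max (max ML Mp) (max (max Mg π.Lraw) (max (max 1 π.Qm) 4)) with hMdef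
  have m1 : ML ≤ M := (le_max_left _ _).trans (le_max_left _ _)
  have m2 : Mp ≤ M := (le_max_right _ _).trans (le_max_left _ _)
  have m3 : Mg ≤ M := ((le_max_left _ _).trans (le_max_left _ _)).trans (le_max_right _ _)
  have m4 : π.Lraw ≤ M := ((le_max_right _ _).trans (le_max_left _ _)).trans (le_max_right _ _)
  have m5 : max 1 π.Qm ≤ M := ((le_max_left _ _).trans (le_max_right _ _)).trans (le_max_right _ _)
  have m6 : 4 ≤ M := ((le_max_right _ _).trans (le_max_right _ _)).trans (le_max_right _ _)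
  intro D a i j Lm Rn g P0 cs ha ha1 hs hC hA hi hj hij hL1 hL2 hP0 hcs
  have hs0 := hC.hs.1
  have hs1 := hC.hs.2
  have hmono : ∀ x y : ℝ, y ≤ x → D.s ^ x ≤ D.s ^ y := fun x y h => Real.rpow_le_rpow_of_exponent_ge hs0 hs1.le h
  have hLm1 : 1 ≤ Lm := (le_max_left _ _).trans hL1
  have hl : 0 < D.len i := ch_doc_len_pos hC hi
  have hlj : 0 < D.len j := ch_doc_len_pos hC hj
  have hdl : 0 < D.len j / D.len i := div_pos hlj hl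
  have hr : 0 < D.r j := ch_doc_r_pos hC hj
  have hfj : 0 < D.f j := (hC.hw.2.2 j hj).2
  obtain ⟨⟨hr1, hr2⟩, ⟨hf1, hf2⟩, -⟩ := hpb D a j ha ha1 hs hC hA hj
  obtain ⟨-, -, hbK⟩ := hpb D a i ha ha1 hs hC hA hi
  have h41 : 1 ≤ 4 * D.s ^ (-(4 * a)) := by
    have : 1 ≤ D.s ^ (-(4 * a)) := Real.one_le_rpow_of_pos_of_le_one_of_nonpos hs0 hs1.le (by linarith)
    linarith
  have hff : D.f j ≤ 4 * D.s ^ (-(4 * a)) * D.f j := by nlinarith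
  refine
    { cd := rfl, L1 := hLm1, LM := hL2.trans m4, Q0 := le_trans zero_le_one (le_max_left _ _), QM := m5,
      ML := (ch_doc_ls_ml π).trans (by linarith), f1 := ?_, pb := ?_, QeT := fun _ => rfl, Qew := ?_, Qein := ?_, near := ?_, card := hcs }
  · show D.f j ≤ 4 * D.s ^ (-(M * a)) * D.f j
    have : 1 ≤ D.s ^ (-(M * a)) := Real.one_le_rpow_of_pos_of_le_one_of_nonpos hs0 hs1.le (by nlinarith)
    nlinarith
  · exact ⟨⟨(hmono _ _ m2).trans hr1, hr2.trans (hmono _ _ (by linarith))⟩,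
      ⟨(hmono _ _ m2).trans hf1, (hff.trans hf2).trans (hmono _ _ (by linarith))⟩,
      fun ρ => (hbK ρ).1.trans (hmono _ _ (by linarith)), fun ρ => (hbK ρ).2.trans (hmono _ _ (by linarith)),
      fun a' ρ => (hP0 a' ρ).trans (hmono _ _ (by linarith))⟩
  · intro ρ'
    exact ⟨(hC.own j hj ρ').1, (hC.own j hj ρ').2.1⟩
  · intro ρ'
    exact (hC.own j hj ρ').2.2.1
  · rintro ρ ρ' hcn ⟨ρ1, hcn1, a', hacc⟩
    have hρ : ρ1 = ρ := ch_doc_anc_unique hC hc hi hj hij hcn1 hcn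
    subst hρ
    refine ⟨a', ?_⟩
    have hPj : D.Pj π j ρ' = (D.lab j ρ').Pd (D.ray j ρ') := if_neg h2
    rw [hPj] at hacc
    have h3 := hnQ D C0 a i j Lm (P0 a' ρ1) ρ1 ρ' ha ha1 hC hc hA hi hj hij hLm1 hL2 hcn hacc
    refine ch_doc_near_mono ?_ hdl hr hfj h3
    have := hmono (-(ML * a)) (-(M * a)) (by nlinarith)
    linarith

theorem ch_doc_aff_pre (π : SfPar) (hv : π.Valid) (hc : π.hyb = false) (C0 Mg : ℝ) : ∃ M : ℝ, 1 ≤ M ∧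
    ∀ (D : SfDoc) (a i j Lm Rn : ℝ) (g : ℕ) (P0 : Fin g → D.Row i → ℝ) (cs : SfTest → Finset ℝ), 0 < a → a ≤ 1 → D.s ≤ 1 / 2 →
      D.Core π C0 a → D.AffP π a → i ∈ D.G → j ∈ D.G → i < j → π.LS ≤ Lm → Lm ≤ π.Lraw → (∀ a' ρ, |P0 a' ρ| ≤ D.s ^ (-Mg)) →
      (∀ lam, ((cs lam).card : ℝ) ≤ Rn) →
      ∃ (f1 : ℝ) (Qe : SfTest → SfTest) (be0 K0 : D.Row i → ℝ), (chAffX D π a i j Lm g P0 cs f1 Qe be0 K0).Pre π a M Lm (max 1 π.Qm) Rn := by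
  by_cases h2 : π.c2 = 0
  · obtain ⟨M, hM, h⟩ := ch_doc_aff_preL π hv hc h2 C0 Mg
    exact ⟨M, hM, fun D a i j Lm Rn g P0 cs ha ha1 hs hC hA hi hj hij hL1 hL2 hP0 hcs =>
      ⟨_, _, _, _, h D a i j Lm Rn g P0 cs ha ha1 hs hC hA hi hj hij hL1 hL2 hP0 hcs⟩⟩
  · obtain ⟨M, hM, h⟩ := ch_doc_aff_preQ π hc h2 C0 Mg
    exact ⟨M, hM, fun D a i j Lm Rn g P0 cs ha ha1 hs hC hA hi hj hij hL1 hL2 hP0 hcs =>
      ⟨_, _, _, _, h D a i j Lm Rn g P0 cs ha ha1 hs hC hA hi hj hij hL1 hL2 hP0 hcs⟩⟩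

/-- **(mem), classical, positive cost, unified form**: `LS ≤ Lm ≤ Lraw`, guesses accurate to `s^(-3a) δ^(1-Lm) f_j / r_j` -/
theorem ch_doc_aff (π : SfPar) (hv : π.Valid) (hc : π.hyb = false) (t C0 : ℝ) (ht : 0 < t) :
    ∃ a s0 : ℝ, 0 < a ∧ 0 < s0 ∧ ∀ D : SfDoc, D.s < s0 → D.Core π C0 a → D.AffP π a → ∀ Lm : ℝ, π.LS ≤ Lm → Lm ≤ π.Lraw →
      ∀ i ∈ D.G, ∀ j ∈ D.G, i < j → ∀ (R Z : ℝ) (c : SfTest → Finset ℝ) (gs : D.Row i → Finset ℝ),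
      (∀ lam, ((c lam).card : ℝ) ≤ D.s ^ (-(R * (j - i)))) → (∀ ρ, ((gs ρ).card : ℝ) ≤ D.s ^ (-(Z * (j - i)))) →
      (D.P j).pr (fun ρ' => (∃ x ∈ c (D.lab j ρ'), |(D.ray j ρ').X - x| ≤ D.r j * D.s ^ (Lm * (j - i))) ∧
          ∃ ρ, D.Conn i j ρ ρ' ∧ ∃ γ ∈ gs ρ, |γ - D.Pj π j ρ'| ≤ D.s ^ (-(3 * a)) * D.s ^ ((1 - Lm) * (j - i)) * (D.f j / D.r j))
        ≤ D.s ^ (-t) * D.s ^ ((π.mnum Lm - R - Z) / 2 * (j - i)) := by
  have hπ : π.Pd := ⟨hv.eta, hv.gam, hv.pd, hv.p1, hv.d1⟩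
  obtain ⟨Mg, hMg, hgb⟩ := ch_doc_guess_bd π C0
  obtain ⟨M, hM, hpre⟩ := ch_doc_aff_pre π hv hc C0 Mg
  obtain ⟨a, s0, ha, ha1, hs0', hs01, hfin⟩ := ch_doc_finish π hπ hc t C0 M ht hM
  refine ⟨a, s0, ha, hs0', ?_⟩
  intro D hs hC hA Lm hL1 hL2 i hi j hj hij R Z c gs hcard hgs
  have hs0 := hC.hs.1
  have hs1 := hC.hs.2
  have hh : 0 < j - i := by linarith
  have hLm1 : 1 ≤ Lm := (le_max_left _ _).trans hL1
  have hl : 0 < D.len i := ch_doc_len_pos hC hi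
  have hlj : 0 < D.len j := ch_doc_len_pos hC hj
  have hdl : 0 < D.len j / D.len i := div_pos hlj hl
  have hr : 0 < D.r j := ch_doc_r_pos hC hj
  have hRHS : 0 ≤ D.s ^ (-t) * D.s ^ ((π.mnum Lm - R - Z) / 2 * (j - i)) := by positivity
  by_cases hR : R < 0
  · rw [ent_pr_eq_zero]
    · exact hRHS
    · rintro ρ' - ⟨⟨x, hx, -⟩, -⟩
      have h1 : D.s ^ (-(R * (j - i))) < 1 := Real.rpow_lt_one hs0.le hs1 (by nlinarith)
      have h2 : ((c (D.lab j ρ')).card : ℝ) < 1 := lt_of_le_of_lt (hcard _) h1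
      have h3 : (c (D.lab j ρ')).card = 0 := by
        have : (c (D.lab j ρ')).card < 1 := by exact_mod_cast h2
        omega
      rw [Finset.card_eq_zero] at h3
      rw [h3] at hx
      simp at hx
  by_cases hZ : Z < 0
  · rw [ent_pr_eq_zero]
    · exact hRHS
    · rintro ρ' - ⟨-, ρ, -, γ, hγ, -⟩
      have h1 : D.s ^ (-(Z * (j - i))) < 1 := Real.rpow_lt_one hs0.le hs1 (by nlinarith)
      have h2 : ((gs ρ).card : ℝ) < 1 := lt_of_le_of_lt (hgs _) h1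
      have h3 : (gs ρ).card = 0 := by
        have : (gs ρ).card < 1 := by exact_mod_cast h2
        omega
      rw [Finset.card_eq_zero] at h3
      rw [h3] at hγ
      simp at hγ
  rw [not_lt] at hR hZ
  by_cases hRZ : π.mnum Lm < R + Z
  · refine (ent_pr_le_one _ _).trans ?_
    have h1 : 1 ≤ D.s ^ (-t) := Real.one_le_rpow_of_pos_of_le_one_of_nonpos hs0 hs1.le (by linarith)
    have h2 : 1 ≤ D.s ^ ((π.mnum Lm - R - Z) / 2 * (j - i)) :=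
      Real.one_le_rpow_of_pos_of_le_one_of_nonpos hs0 hs1.le (by nlinarith)
    nlinarith
  rw [not_lt] at hRZ
  -- the covering
  obtain ⟨cs, hcs1, hcs2⟩ := ch_doc_cover c (D.r j * D.s ^ (Lm * (j - i))) (D.r j * (D.len j / D.len i) ^ Lm) (by positivity) (by positivity)
  have hcs : ∀ lam, ((cs lam).card : ℝ) ≤ D.s ^ (-(R * (j - i))) * (D.s ^ (-(2 * a * Lm)) + 1) := by
    intro lam
    refine (hcs1 lam).trans ?_
    have h1 := ch_doc_ratio (Lm := Lm) hC hi hj (by linarith)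
    have h2 : 0 ≤ D.r j * D.s ^ (Lm * (j - i)) / (D.r j * (D.len j / D.len i) ^ Lm) := by positivity
    exact mul_le_mul (hcard lam) (by linarith) (by linarith) (by positivity)
  -- the guesses
  have hgc : ∀ ρ, ((gs ρ).filter (fun γ => |γ| ≤ D.s ^ (-Mg))).card ≤ ⌊D.s ^ (-(Z * (j - i)))⌋₊ := by
    intro ρ
    refine Nat.le_floor ?_
    refine le_trans ?_ (hgs ρ)
    exact_mod_cast Finset.card_filter_le _ _
  obtain ⟨P0, hP1, hP2⟩ := ch_doc_enum (fun ρ => (gs ρ).filter (fun γ => |γ| ≤ D.s ^ (-Mg))) ⌊D.s ^ (-(Z * (j - i)))⌋₊ hgc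
  have hP0 : ∀ a' ρ, |P0 a' ρ| ≤ D.s ^ (-Mg) := by
    intro a' ρ
    rcases hP2 a' ρ with h | h
    · exact (Finset.mem_filter.1 h).2
    · rw [h, abs_zero]
      positivity
  obtain ⟨f1, Qe, be0, K0, hX⟩ := hpre D a i j Lm _ ⌊D.s ^ (-(Z * (j - i)))⌋₊ P0 cs ha ha1 (hs.le.trans hs01) hC hA hi hj hij hL1 hL2 hP0 hcs
  have h1 := hfin D a i j _ Lm _ R Z ha le_rfl hs hC hi hj hij hR hZ hRZ (Nat.floor_le (by positivity)) hX
  refine le_trans (ent_pr_mono _ ?_) h1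
  rintro ρ' - ⟨⟨x, hx, hxx⟩, ρ, hcn, γ, hγ, hacc⟩
  refine ⟨⟨ρ, hcn, ?_⟩, hcs2 _ x hx _ hxx⟩
  have hγ1 : |γ| ≤ D.s ^ (-Mg) := hgb D a i j Lm γ ρ' ha ha1 (hs.le.trans hs01) hC hA hi hj hij hLm1 hL2 hacc
  obtain ⟨a', ha'⟩ := hP1 ρ γ (Finset.mem_filter.2 ⟨hγ, hγ1⟩)
  exact ⟨a', by rw [ha']; exact hacc⟩

end Claimed.Agent.R256
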