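-- KEEP
import Claimed.Agent.R256.Chan.DocFin
import Claimed.Agent.R256.Chan.DocInst

/-!
# Row 256 (LS paper), CHAN, unit ADC, file 9 : THE ZERO-COST CASE (glue)          (architect helper33; prefix `ch_doc_`)
-/

set_option autoImplicit false

namespace Claimed.Agent.R256

open Claimed.Agent.R255 MeasureTheory
open scoped BigOperators
open Classical

/-- the data of the zero-cost case -/
noncomputable def chZeroX (D : SfDoc) (π : SfPar) (a i : ℝ) (cs : SfTest → Finset ℝ) : ChDd D i 1 where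
  f1 := 1
  Qe := id
  be0 := fun _ => 0
  K0 := fun _ => 0
  g := 1
  P0 := fun _ _ => 0
  Ev := fun _ => True
  cs := cs
  cd := D.s ^ (-a) * D.s ^ (π.d * (1 - i))

theorem ch_doc_zero_eqns_cite : True := by
  have := @chZeroX.eq_1
  trivial

theorem ch_doc_zero_pre (π : SfPar) (hc : π.hyb = false) (D : SfDoc) (C0 a i Rn : ℝ) (cs : SfTest → Finset ℝ) (ha : 0 < a)
    (hC : D.Core π C0 a) (hZ : D.Zero a) (hi : i ∈ D.G) (hi1 : i < 1) (hcs : ∀ lam, ((cs lam).card : ℝ) ≤ Rn) :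
    (chZeroX D π a i cs).Pre π a 1 1 1 Rn := by
  have hs0 := hC.hs.1
  have hs1 := hC.hs.2
  have h1 : D.s ^ (1 : ℝ) ≤ 1 := Real.rpow_le_one hs0.le hs1.le zero_le_one
  have h2 : 1 ≤ D.s ^ (-(1 : ℝ)) := Real.one_le_rpow_of_pos_of_le_one_of_nonpos hs0 hs1.le (by norm_num)
  have h3 : 1 ≤ D.s ^ (-(1 * a)) := Real.one_le_rpow_of_pos_of_le_one_of_nonpos hs0 hs1.le (by linarith)
  refine
    { cd := rfl, L1 := le_rfl, LM := le_rfl, Q0 := zero_le_one, QM := le_rfl, ML := by norm_num, f1 := ?_, pb := ?_,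
      QeT := fun _ => rfl, Qew := ?_, Qein := ?_, near := ?_, card := hcs }
  · show (1 : ℝ) ≤ 4 * D.s ^ (-(1 * a)) * D.f 1
    rw [hC.hw.2.1]
    linarith
  · refine ⟨by rw [hC.hw.1]; exact ⟨h1, h2⟩, ⟨h1, h2⟩, fun _ => ?_, fun _ => ?_, fun _ _ => ?_⟩ <;>
    · show |(0 : ℝ)| ≤ _
      rw [abs_zero]
      linarith
  · intro ρ'
    exact ⟨(hC.own 1 hC.gate.1 ρ').1, (hC.own 1 hC.gate.1 ρ').2.1.trans hC.hw.2.1⟩
  · intro ρ'
    exact (hC.own 1 hC.gate.1 ρ').2.2.1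
  · intro ρ ρ' hcn _
    exact ⟨(0 : Fin 1), ch_doc_near0 π D C0 a i ρ ρ' ha hC hc hZ hi hi1 hcn⟩

/-- **(mem), classical, zero cost** -/
theorem ch_doc_zero (π : SfPar) (hπ : π.Pd) (hc : π.hyb = false) (t C0 : ℝ) (ht : 0 < t) :
    ∃ a s0 : ℝ, 0 < a ∧ 0 < s0 ∧ ∀ D : SfDoc, D.s < s0 → D.Core π C0 a → D.Zero a → CeMem π D t := by
  obtain ⟨a1, s1, ha1, ha11, hs1', hs11, hfin⟩ := ch_doc_fin_main π hπ hc (t / 2) C0 1 (by linarith) le_rfl
  have hm0 : 0 ≤ 1 - π.d + 2 * π.Γ := by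
    obtain ⟨hη, hΓ, hpd, hp, hd⟩ := hπ
    linarith [hd.2, hη.1]
  obtain ⟨a2, s2, ha2, ha21, hs2, hs21, hnum⟩ := ch_doc_num_zero t (1 - π.d + 2 * π.Γ) ht hm0
  refine ⟨min a1 a2, min s1 s2, lt_min ha1 ha2, lt_min hs1' hs2, ?_⟩
  intro D hs hC hZ i hi hi1 Lc Λ hΛ
  have ha : 0 < min a1 a2 := lt_min ha1 ha2
  have haa1 : min a1 a2 ≤ a1 := min_le_left _ _
  have haa2 : min a1 a2 ≤ a2 := min_le_right _ _
  generalize min a1 a2 = a at ha hC hZ haa1 haa2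
  have hs0 := hC.hs.1
  have hs1 := hC.hs.2
  have hh : 0 < 1 - i := by linarith
  have hh1 : 1 - i ≤ 1 := by linarith [(hC.gate.2 i hi).1]
  have hl : 0 < D.len i := ch_doc_len_pos hC hi
  have hlj : 0 < D.len 1 := ch_doc_len_pos hC hC.gate.1
  have hdl : 0 < D.len 1 / D.len i := div_pos hlj hl
  have hδ : 0 < D.s ^ (1 - i) := Real.rpow_pos_of_pos hs0 _
  by_cases hLc : Lc < 1
  · rw [ent_pr_eq_zero]
    · positivity
    · intro ρ' _ hx
      have h2 : ((Λ (D.lab 1 ρ')).card : ℝ) < 1 := lt_of_le_of_lt (hΛ _) hLc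
      have h3 : (Λ (D.lab 1 ρ')).card = 0 := by
        have : (Λ (D.lab 1 ρ')).card < 1 := by exact_mod_cast h2
        omega
      rw [Finset.card_eq_zero] at h3
      rw [h3] at hx
      simp at hx
  rw [not_lt] at hLc
  obtain ⟨cs, hcs1, hcs2⟩ := ch_doc_cover (fun lam => (Λ lam).image (fun n : ℤ => ((n : ℝ) + 1 / 2) * D.s ^ (1 - i)))
    (D.s ^ (1 - i) / 2) (D.r 1 * (D.len 1 / D.len i) ^ (1 : ℝ)) (by rw [hC.hw.1]; positivity) (by positivity)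
  have hdl_lo : D.s ^ (1 - i + a) ≤ D.len 1 / D.len i := by
    rw [hC.hlen.1, le_div_iff₀ hl]
    calc D.s ^ (1 - i + a) * D.len i ≤ D.s ^ (1 - i + a) * D.s ^ (i - a) := by
          have := (hC.hlen.2 i hi).2
          gcongr
      _ = D.s := by
          rw [← Real.rpow_add hs0]
          have : 1 - i + a + (i - a) = 1 := by ring
          rw [this, Real.rpow_one]
  have hratio : D.s ^ (1 - i) / 2 / (D.r 1 * (D.len 1 / D.len i) ^ (1 : ℝ)) ≤ D.s ^ (-a) := by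
    rw [hC.hw.1, one_mul, Real.rpow_one, div_le_iff₀ hdl]
    have h1 : D.s ^ (-a) * D.s ^ (1 - i + a) ≤ D.s ^ (-a) * (D.len 1 / D.len i) := by gcongr
    have h2 : D.s ^ (-a) * D.s ^ (1 - i + a) = D.s ^ (1 - i) := by
      rw [← Real.rpow_add hs0]
      congr 1
      ring
    linarith
  have hcs : ∀ lam, ((cs lam).card : ℝ) ≤ Lc * (D.s ^ (-a) + 1) := by
    intro lam
    refine (hcs1 lam).trans ?_
    have h1 : (((Λ lam).image (fun n : ℤ => ((n : ℝ) + 1 / 2) * D.s ^ (1 - i))).card : ℝ) ≤ Lc :=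
      le_trans (by exact_mod_cast Finset.card_image_le) (hΛ lam)
    have h2 : 0 ≤ D.s ^ (1 - i) / 2 / (D.r 1 * (D.len 1 / D.len i) ^ (1 : ℝ)) := by
      rw [hC.hw.1]
      positivity
    exact mul_le_mul h1 (by linarith) (by linarith) (by linarith)
  have hX := ch_doc_zero_pre π hc D C0 a i _ cs ha hC hZ hi hi1 hcs
  have h1 := hfin D a i 1 _ 1 1 _ ha haa1 (hs.trans_le (min_le_left _ _)) hC hi hC.gate.1 hi1 (by positivity) hX
  have h2 := hnum D.s a (1 - i) (1 - π.d + 2 * π.Γ) Lc hs0 (hs.trans_le (min_le_right _ _)) ha haa2 hh hh1 hm0 le_rfl hLc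
  have e1 : π.mnum 1 = 1 - π.d + 2 * π.Γ := by
    unfold SfPar.mnum
    ring
  have e2 : (((chZeroX D π a i cs).g : ℕ) : ℝ) = 1 := by
    show ((1 : ℕ) : ℝ) = 1
    exact Nat.cast_one
  rw [e1, e2] at h1
  refine le_trans (le_trans (ent_pr_mono _ ?_) h1) h2
  intro ρ' _ hx
  refine ⟨trivial, ?_⟩
  refine hcs2 (D.lab 1 ρ') (((⌊(D.ray 1 ρ').X / D.s ^ (1 - i)⌋ : ℤ) + 1 / 2) * D.s ^ (1 - i)) (Finset.mem_image_of_mem _ hx) _ ?_
  have f1 := Int.floor_le ((D.ray 1 ρ').X / D.s ^ (1 - i))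
  have f2 := Int.lt_floor_add_one ((D.ray 1 ρ').X / D.s ^ (1 - i))
  rw [le_div_iff₀ hδ] at f1
  rw [div_lt_iff₀ hδ] at f2
  rw [abs_le]
  constructor <;> nlinarith

end Claimed.Agent.R256
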