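-- KEEP
import Claimed.Agent.R256.Chan.Contract
import Claimed.Agent.R256.Soft.Voc
import Claimed.Agent.R256.Nm.X
import Claimed.Agent.R256.Ce.Defs
import Claimed.Agent.R256.Soft.Mono
import Claimed.Agent.R256.Chan.DocAff
import Claimed.Agent.R256.Chan.DocZero

/-!
# Row 256 (LS paper), CHAN, unit ADC : (mem) FOR CLASSICAL DOCUMENTED CONFIGURATIONS, AT THE LEVEL OF `SfDoc`          (chief helper130; prefix `ch_doc_`)

CONSUMER FORMS signed with Nm (helper118, `Nm/X.lean`: `SfDoc.Mem`, `SfDoc.MemP`) and Ce (helper157, `Ce/Defs.lean`: `CeMem`).   No model, no operator: `SfDoc.Core` (classical) + `ch_mem_core` (black box).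
The accuracy `a` depends on `(π', t, C0)`  (`Adm` asks `size ≤ s^(-1/a)`, rows have size `≤ s^-C0`).

## PROOF (gates `i < j`, `δ = s^(j-i)`, tolerance `a`; all losses `s^(-O(a))`)
 (1) ANCESTOR.  A charged row `ρ'` of `j` has EXACTLY ONE `ρ` with `Conn i j ρ ρ'`: `clPath`; `base` (nested intervals, same index), `grid` (start intervals disjoint), `clUniq` (`i < 1`).   `normC`: same ray.
 (2) DOMINATION.  For a time `t'` of the gate `j` and `Aset ⊆ Row i`:  `tp` with `U = {T_j = t', ancestor in Aset}`, `S = Aset`, `M = 1`:   `P_j U ≤ c P_i Aset + s^(1/a)`, `c = s^-a δ^d`.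
     With `At' ρ = P_j {T_j = t', ancestor ρ}`:   `Σ_ρ (At' ρ - c P_i ρ)_+ ≤ s^(1/a)`;   `≤ 1/len j + 1 ≤ s^-2` times (`grid`, `own`).
 (3) SEGMENT.  One `ChSeg (D.Row i)` for every start time `T0`:  `mu = Σ_{T_i ρ = T0} P_i ρ δ_ρ`; units `(T0, l0 = len i, r1 = r_j, f1 = f_j)`:
     `X^ = X/r1`, `B^ = B_T0/(l0 r1)`, `Y^ = Y_T0/(l0 r1²)`, `N^ = N/f1`, `D^ = D_T0/(l0 f1)`;  tests `x/r1, b/(l0 r1), y/(l0 r1²), r/r1, f/f1, c/f1, d/(l0 f1), al r1/f1, be r1²/f1, K l0 r1²/f1`;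
     `dl = len j / len i`;  labels = the values `lam` of `lab j` with a row below `T0`, `tm = (lam.T - T0)/l0`;   ONE algebraic lemma: `Q.Mem l z ↔ cyIn Q^ (l/l0) (co ((Q.T-T0)/l0) z^)`.
     `th lam ρ = a_lam ρ / max (c P_i ρ) (At' ρ)`, `a_lam ρ = P_j {lab = lam, ancestor ρ, (event)}`:  `th_sum` ok;   `Σ_lam (a_lam ρ - c P_i ρ th lam ρ) ≤ (At' ρ - c P_i ρ)_+`.
     `reg`: `RT`-tests are `Adm` or empty (witness: sizes `≤ s^-C0`, `cmpB`-free: labels have size `≤ s^-C0`);  `κ = s^-a s^((p+d) i)/ek * r1^(3+η) f1^(1-η)`.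
     `near`: `AffP.cmpA` (`Qx = max 1 Qm`; `l_i |K_i - K_j| ≤ max(δ^-q, δ^-1) f_j/r_j²`; `b1`: `δ^-Cr`), resp. the accurate guess;    LIN (`c2 = 0`): `be0 = K0 = 0`, `P0 = Pc`, end tests replaced by the ENCLOSING LINEAR tests
     (`al' = Pc`, `be' = K' = 0`, `f' = 4 s^-2a f_j` by `cmpB`: `be ξ² + K V - 2 K ξ ζ`, `be V - K ζ²`), `linP`.      ZERO COST: `be0 = K0 = P0 = 0`, `Lm = Qx = 1`, `|Pd(ray)| ≤ |Pc| + 2|be| + 2 s|K|`.
     cells: half width `r_j s^(L(j-i))` is covered by `≤ s^(-2aL) + 2` cells of half width `r_j dl^L`.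
 (4) SUM over `T0` by Cauchy-Schwarz: `Σ L_T0 ≤ ncard (range (lab j)) ≤ s^-a ek s^(-(p+d) j)/w_j` (`cnt`), `Σ mu_T0 univ ≤ 1`;  exponent `d + (2 + η(L-1) - p - d - R - Z)/2`, `2 + d - p = 1 - d + 2Γ`.
     `R < 0`: empty lists.   The additive error `s^(1/a - 2)` is below the bound because `R ≤ R_max` may be assumed (otherwise the bound is `≥ 1`).
-/

set_option autoImplicit false

namespace Claimed.Agent.R256

open Claimed.Agent.R255

/-- **(mem), classical, positive cost** -/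
theorem ch_doc_mem (π π' : SfPar) (hs : π'.Same π) (hv : π'.Valid) (hc : π.hyb = false) (t C0 : ℝ) (ht : 0 < t) :
    ∃ a s0 : ℝ, 0 < a ∧ 0 < s0 ∧ ∀ D : SfDoc, D.s < s0 → D.Core π C0 a → D.AffP π' a → D.Mem π' t := by
  have hc' : π'.hyb = false := hs.2.2.2.2.trans hc
  obtain ⟨a, s0, ha, hs0, h⟩ := ch_doc_aff π' hv hc' t C0 ht
  refine ⟨a, s0, ha, hs0, fun D hD hC hA => ?_⟩
  have hC' : D.Core π' C0 a := sf_core_same D π π' C0 a hs hC
  intro i hi j hj _ hij R c hcard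
  have h1 := h D hD hC' hA π'.Lraw (max_le_max le_rfl (le_max_left _ _)) le_rfl i hi j hj hij R 0 c (fun ρ => {D.Pj π' i ρ}) hcard
    (by intro ρ; simp)
  have e : (π'.mnum π'.Lraw - R - 0) / 2 * (j - i) = (π'.mnum π'.Lraw - R) / 2 * (j - i) := by ring
  rw [e] at h1
  refine le_trans (ent_pr_mono _ ?_) h1
  intro ρ' hp hx
  obtain ⟨ρ, hcn, -⟩ := hC'.clPath hc' i hi j hj hij ρ' (lt_of_le_of_ne ((D.P j).nonneg ρ') (Ne.symm hp))
  exact ⟨hx, ρ, hcn, _, Finset.mem_singleton_self _, ch_doc_start_acc π' D C0 a i j ρ ρ' ha hC' hA hi hj hij hcn⟩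

/-- **(mem), classical, positive cost, prediction version** -/
theorem ch_doc_memp (π π' : SfPar) (hs : π'.Same π) (hv : π'.Valid) (hc : π.hyb = false) (t C0 : ℝ) (ht : 0 < t) :
    ∃ a s0 : ℝ, 0 < a ∧ 0 < s0 ∧ ∀ D : SfDoc, D.s < s0 → D.Core π C0 a → D.AffP π' a → D.MemP π' t := by
  have hc' : π'.hyb = false := hs.2.2.2.2.trans hc
  obtain ⟨a, s0, ha, hs0, h⟩ := ch_doc_aff π' hv hc' t C0 ht
  refine ⟨a, s0, ha, hs0, fun D hD hC hA => ?_⟩
  have hC' : D.Core π' C0 a := sf_core_same D π π' C0 a hs hC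
  intro _ i hi j hj _ hij R Z c gs hcard hgs
  have h1 := h D hD hC' hA π'.LS le_rfl (max_le_max le_rfl (le_max_left _ _)) i hi j hj hij R Z c gs hcard hgs
  refine le_trans (ent_pr_mono _ ?_) h1
  rintro ρ' - ⟨hx, ρ, hcn, γ, hγ, hacc⟩
  refine ⟨hx, ρ, hcn, γ, hγ, hacc.trans ?_⟩
  have hs0' := hC'.hs.1
  have h3 : 1 ≤ D.s ^ (-(3 * a)) := Real.one_le_rpow_of_pos_of_le_one_of_nonpos hs0' hC'.hs.2.le (by linarith)
  have h4 : 0 ≤ D.s ^ ((1 - π'.LS) * (j - i)) * (D.f j / D.r j) := by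
    have := (hC'.hw.2.2 j hj).1
    have := (hC'.hw.2.2 j hj).2
    positivity
  rw [mul_assoc]
  exact le_mul_of_one_le_left h4 h3

/-- **(mem), classical, zero cost** -/
theorem ch_doc_mem0 (π : SfPar) (hπ : π.Pd) (hc : π.hyb = false) (t C0 : ℝ) (ht : 0 < t) :
    ∃ a s0 : ℝ, 0 < a ∧ 0 < s0 ∧ ∀ D : SfDoc, D.s < s0 → D.Core π C0 a → D.Zero a → CeMem π D t :=
  ch_doc_zero π hπ hc t C0 ht

end Claimed.Agent.R256
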