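-- KEEP
import Claimed.Agent.R256.Chan.Doc
import Claimed.Agent.R256.Chan.AdhRig
import Claimed.Agent.R256.Soft.Exit

/-!
# Row 256 (LS paper), CHAN : THE EXITS ASKED BY Q1 (`Soft/Exit.lean`, `Soft/HubQ1.lean`)          (chief helper130; prefix `ch_rig`)

* `ch_rig_cl  : SfRigC (sfCl η) nmX`      PROVED from `ch_doc_mem`, `ch_doc_memp` (unit ADC, `Chan/Doc.lean`)
* `ch_rig0_cl : SfRig0C (sfCl η) CeMem`   PROVED from `ch_doc_mem0` (unit ADC)
* `ch_rig_hyb : SfRigC (sfHy η) nmX`      PROVED from `ch_ar_main` (unit ADH, architect helper218; files `Chan/Adh*.lean`, `Chan/AdxTop.lean`)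
* `ch_rig     : SfRigC Y nmX` for both models = `sf_rig_mem` of `Soft/HubQ1.lean`
-/

set_option autoImplicit false

namespace Claimed.Agent.R256

open Claimed.Agent.R255

/-- **(mem) is rigid on the affine shadows of the classical cylinder** -/
theorem ch_rig_cl (η : ℝ) : SfRigC (sfCl η) nmX := by
  intro π Ls hE π' hs hv t C0 ht
  have hc : π.hyb = false := hE.par.2.2
  obtain ⟨a1, s1, ha1, hs1, H1⟩ := ch_doc_mem π π' hs hv hc t C0 ht
  obtain ⟨a2, s2, ha2, hs2, H2⟩ := ch_doc_memp π π' hs hv hc t C0 ht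
  have ha : 0 < min a1 a2 := lt_min ha1 ha2
  refine ⟨min a1 a2, ha, fun _ => ⟨min s1 s2, lt_min hs1 hs2, fun c _ hsc hg haf => ?_⟩⟩
  have hsD : c.D.s < min s1 s2 := lt_of_le_of_lt (le_max_left _ _) hsc
  have hcore : c.D.Core π C0 (min a1 a2) := hg.1.1
  have hss := hcore.hs
  exact ⟨H1 c.D (lt_of_lt_of_le hsD (min_le_left _ _)) (sf_mono_aux_core _ _ _ _ _ ha (min_le_left _ _) hcore)
      (sf_affp_mono _ _ _ _ hss (min_le_left _ _) haf),
    H2 c.D (lt_of_lt_of_le hsD (min_le_right _ _)) (sf_mono_aux_core _ _ _ _ _ ha (min_le_right _ _) hcore)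
      (sf_affp_mono _ _ _ _ hss (min_le_right _ _) haf)⟩

/-- **(mem) is rigid on the zero-cost shadows of the classical cylinder** -/
theorem ch_rig0_cl (η : ℝ) : SfRig0C (sfCl η) CeMem := by
  intro π Ls hE t C0 ht
  have hc : π.hyb = false := hE.par.2.2
  obtain ⟨a, s0, ha, hs0, H⟩ := ch_doc_mem0 π hE.par.1 hc t C0 ht
  refine ⟨a, ha, fun _ => ⟨s0, hs0, fun c _ hsc hg hz => ?_⟩⟩
  exact H c.D (lt_of_le_of_lt (le_max_left _ _) hsc) hg.1.1 hz

/-- **(mem) is rigid on the affine shadows of the hybrid cylinder**      (unit ADH) -/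
theorem ch_rig_hyb (η : ℝ) : SfRigC (sfHy η) nmX := by
  intro π Ls hE π' hs hv t C0 ht
  obtain ⟨a, ha, H⟩ := ch_ar_main η π Ls π' hs hv hE.par.2.1 hE.par.2.2 t C0 ht
  refine ⟨a, ha, fun C => ?_⟩
  obtain ⟨s0, hs0, H'⟩ := H C
  refine ⟨s0, hs0, fun c hob hsc hg haf => ?_⟩
  exact H' c hob.1 hob.2 (lt_of_le_of_lt (le_max_left _ _) hsc) hg.1.1 hg.2.1 hg.2.2.2.2 haf

/-- **= `sf_rig_mem`** -/
theorem ch_rig (Y : SfCy) (hY : (∃ η, Y = sfCl η) ∨ ∃ η, Y = sfHy η) : SfRigC Y nmX := by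
  rcases hY with ⟨η, rfl⟩ | ⟨η, rfl⟩
  · exact ch_rig_cl η
  · exact ch_rig_hyb η

end Claimed.Agent.R256
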